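import Vale.Agent.P119.FL.Chain

/-!
# P119: the total mass of chains (`helper690`)
-/

open MeasureTheory Set Filter Topology Metric ProbabilityTheory
open scoped ENNReal

namespace Vale.Agent.P119.FL

open KU

/-- `μ_ε` as an extended number. -/
noncomputable def muE (ε : ℝ) : ℝ≥0∞ := ENNReal.ofReal (mu ε)

theorem muE_mul {ε : ℝ} (hε : 0 < ε) : muE ε * ENNReal.ofReal (ε ^ 2) = 1 := by
  unfold muE mu
  rw [← ENNReal.ofReal_mul (by positivity), inv_mul_cancel₀ (by positivity), ENNReal.ofReal_one]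

theorem muE_ne_top {ε : ℝ} : muE ε ≠ ∞ := ENNReal.ofReal_ne_top

/-- The Gaussian weight of the partners. -/
noncomputable def wt (b ε : ℝ) (m : ℕ) (p : Fin m → Ph) : ℝ≥0∞ :=
  ∏ i, (muE ε * ENNReal.ofReal (Real.exp (-b * ‖(p i).2‖ ^ 2)))

theorem measurable_wt (b ε : ℝ) (m : ℕ) : Measurable (wt b ε m) := by
  unfold wt
  refine Finset.measurable_prod _ fun i _ => ?_
  refine Measurable.const_mul ?_ _
  have h1 : Measurable fun p : Fin m → Ph => (p i).2 := (measurable_pi_apply i).snd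
  exact ((((h1.norm.pow_const 2).const_mul (-b)).exp)).ennreal_ofReal

theorem wt_zero (b ε : ℝ) (p : Fin 0 → Ph) : wt b ε 0 p = 1 := by simp [wt]

theorem wt_cons (b ε : ℝ) (m : ℕ) (a : Ph) (q : Fin m → Ph) :
    wt b ε (m + 1) (Fin.cons a q) =
      muE ε * ENNReal.ofReal (Real.exp (-b * ‖a.2‖ ^ 2)) * wt b ε m q := by
  unfold wt
  rw [Fin.prod_univ_succ]
  rfl

/-- A Gaussian moment. -/
noncomputable def I0 (b : ℝ) : ℝ≥0∞ :=
  ∫⁻ u : E3, ENNReal.ofReal ((1 + ‖u‖) * Real.exp (-(b / 2) * ‖u‖ ^ 2))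

theorem integrable_gauss {c : ℝ} (hc : 0 < c) :
    Integrable (fun u : E3 => Real.exp (-c * ‖u‖ ^ 2)) := by
  have h := GaussianFourier.integrable_cexp_neg_mul_sq_norm_add
    (b := (c : ℂ)) (by simpa using hc) 0 (0 : E3)
  have h2 := h.norm
  refine h2.congr (Eventually.of_forall fun u => ?_)
  simp only [Complex.norm_exp, inner_zero_left]
  congr 1
  simp [← Complex.ofReal_pow, ← Complex.ofReal_neg]

/-- `1 + x ≤ √M (1 + 1/√b) exp (b x² / (2M))`. -/
theorem one_add_le {b x M : ℝ} (hb : 0 < b) (hM : 1 ≤ M) :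
    1 + x ≤ √M * (1 + 1 / √b) * Real.exp (b / (2 * M) * x ^ 2) := by
  have hM0 : 0 < M := by linarith
  have hsM : 1 ≤ √M := by rw [Real.one_le_sqrt]; exact hM
  have hsb : 0 < √b := Real.sqrt_pos.2 hb
  have hsM0 : 0 < √M := by linarith
  have he : 1 ≤ Real.exp (b / (2 * M) * x ^ 2) := Real.one_le_exp (by positivity)
  -- y = √(b/M) x
  have h1 : √b / √M * x ≤ Real.exp (b / (2 * M) * x ^ 2) := by
    have h2 := Real.add_one_le_exp (b / (2 * M) * x ^ 2)
    have h3 : (√b / √M * x) ^ 2 = b / M * x ^ 2 := by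
      rw [mul_pow, div_pow, Real.sq_sqrt hb.le, Real.sq_sqrt hM0.le]
    have h4 : b / (2 * M) * x ^ 2 = (√b / √M * x) ^ 2 / 2 := by
      rw [h3]; field_simp
    rw [h4] at h2
    rw [h4]
    nlinarith [sq_nonneg (√b / √M * x - 1), h2]
  have h5 : x ≤ √M / √b * Real.exp (b / (2 * M) * x ^ 2) := by
    calc x = √M / √b * (√b / √M * x) := by field_simp
      _ ≤ _ := by gcongr
  have h6 : 1 ≤ √M * Real.exp (b / (2 * M) * x ^ 2) := by nlinarith
  calc 1 + x ≤ √M * Real.exp (b / (2 * M) * x ^ 2) +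
        √M / √b * Real.exp (b / (2 * M) * x ^ 2) := add_le_add h6 h5
    _ = _ := by ring

theorem I0_ne_top {b : ℝ} (hb : 0 < b) : I0 b ≠ ∞ := by
  have h1 : ∀ u : E3, (1 + ‖u‖) * Real.exp (-(b / 2) * ‖u‖ ^ 2) ≤
      (√2 * (1 + 1 / √b)) * Real.exp (-(b / 4) * ‖u‖ ^ 2) := by
    intro u
    have h2 := one_add_le (x := ‖u‖) hb (M := 2) (by norm_num)
    calc (1 + ‖u‖) * Real.exp (-(b / 2) * ‖u‖ ^ 2)
        ≤ (√2 * (1 + 1 / √b) * Real.exp (b / (2 * 2) * ‖u‖ ^ 2)) *
          Real.exp (-(b / 2) * ‖u‖ ^ 2) := by gcongr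
      _ = _ := by
          rw [mul_assoc, ← Real.exp_add]
          congr 2
          ring
  have h3 : Integrable (fun u : E3 => (√2 * (1 + 1 / √b)) * Real.exp (-(b / 4) * ‖u‖ ^ 2)) :=
    (integrable_gauss (by positivity)).const_mul _
  have h4 := h3.lintegral_lt_top
  refine (lt_of_le_of_lt (lintegral_mono fun u => ?_) h4).ne
  exact ENNReal.ofReal_le_ofReal (h1 u)

/-- The constant of the chain bound. -/
noncomputable def Kb (b : ℝ) : ℝ := Real.pi * (1 + 1 / √b) * (I0 b).toReal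

theorem Kb_nonneg (b : ℝ) : 0 ≤ Kb b := by unfold Kb; positivity

theorem lintegral_pow {s t : ℝ} (hst : s ≤ t) (m : ℕ) :
    ∫⁻ τ in Ioo s t, ENNReal.ofReal ((t - τ) ^ m) = ENNReal.ofReal ((t - s) ^ (m + 1) / (m + 1)) := by
  have h1 : ∫ τ in s..t, (t - τ) ^ m = (t - s) ^ (m + 1) / (m + 1) := by
    rw [intervalIntegral.integral_comp_sub_left (fun x => x ^ m) t, sub_self, integral_pow]
    simp
  rw [← h1, intervalIntegral.integral_of_le hst, ofReal_integral_eq_lintegral_ofReal]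
  · rw [setLIntegral_congr Ioo_ae_eq_Ioc]
  · exact ((by fun_prop : Continuous fun τ : ℝ => (t - τ) ^ m).integrableOn_Icc).mono_set
      Ioc_subset_Icc_self
  · filter_upwards [ae_restrict_mem measurableSet_Ioc] with τ hτ
    exact pow_nonneg (sub_nonneg.2 hτ.2) m

theorem lintegral_vel_le {b : ℝ} (v : E3) {κ : ℝ} (hκ : κ ≤ b / 2) :
    ∫⁻ u : E3, ‖v - u‖ₑ * ENNReal.ofReal (Real.exp (-b * ‖u‖ ^ 2) * Real.exp (κ * ‖u‖ ^ 2)) ≤
      ENNReal.ofReal (1 + ‖v‖) * I0 b := by
  unfold I0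
  rw [← lintegral_const_mul' _ _ ENNReal.ofReal_ne_top]
  refine lintegral_mono fun u => ?_
  rw [← ofReal_norm, ← ENNReal.ofReal_mul (norm_nonneg _),
    ← ENNReal.ofReal_mul (by positivity)]
  apply ENNReal.ofReal_le_ofReal
  have h1 : ‖v - u‖ ≤ (1 + ‖v‖) * (1 + ‖u‖) := by
    have := norm_sub_le v u
    nlinarith [mul_nonneg (norm_nonneg v) (norm_nonneg u)]
  have h2 : Real.exp (-b * ‖u‖ ^ 2) * Real.exp (κ * ‖u‖ ^ 2) ≤
      Real.exp (-(b / 2) * ‖u‖ ^ 2) := by
    rw [← Real.exp_add]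
    apply Real.exp_le_exp.2
    nlinarith [sq_nonneg ‖u‖]
  calc ‖v - u‖ * (Real.exp (-b * ‖u‖ ^ 2) * Real.exp (κ * ‖u‖ ^ 2))
      ≤ ((1 + ‖v‖) * (1 + ‖u‖)) * Real.exp (-(b / 2) * ‖u‖ ^ 2) := by gcongr
    _ = _ := by ring

/-- **Mass of the chains**, with a parameter `M`. -/
theorem mass_aux {ε b t : ℝ} (hε : 0 < ε) (hb : 0 < b) {M : ℕ} (hM : 1 ≤ M) :
    ∀ m : ℕ, m ≤ M → ∀ (S : ℕ → Step) (s : ℝ) (l : Ph), s ≤ t →
      ∫⁻ p : Fin m → Ph, {p | Chain ε t S m s l p}.indicator (wt b ε m) p ≤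
        ENNReal.ofReal ((Kb b * √M) ^ m * ((t - s) ^ m / m.factorial) *
          Real.exp (b / 2 * (m / M) * ‖l.2‖ ^ 2)) := by
  have hM1 : (1 : ℝ) ≤ M := by exact_mod_cast hM
  intro m
  induction m with
  | zero =>
    intro _ S s l _
    have h1 : (volume : Measure (Fin 0 → Ph)) univ = 1 := by
      rw [volume_pi, Measure.pi_univ]; simp
    simp [Chain, wt, lintegral_unique, h1]
  | succ m ih =>
    intro hmM S s l hst
    have hmeas : Measurable ({p : Fin (m + 1) → Ph | Chain ε t S (m + 1) s l p}.indicator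
        (wt b ε (m + 1))) := by
      refine (measurable_wt b ε (m + 1)).indicator ?_
      exact (measurable_const.prodMk (measurable_const.prodMk measurable_id) :
        Measurable fun p : Fin (m + 1) → Ph => (s, l, p)) (measurableSet_chain (m + 1) S)
    rw [lintegral_cons hmeas]
    set κ : ℝ := b / 2 * (m / M) with hκ
    have hmM' : (m : ℝ) / M ≤ 1 := by
      rw [div_le_one (by linarith)]
      exact_mod_cast (Nat.le_of_succ_le hmM)
    have hκb : κ ≤ b / 2 := by
      rw [hκ]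
      have : b / 2 * (m / M : ℝ) ≤ b / 2 * 1 := by gcongr
      linarith
    have hκ0 : 0 ≤ κ := by rw [hκ]; positivity
    set A : ℝ := (Kb b * √M) ^ m with hA
    have hA0 : 0 ≤ A := by
      rw [hA]
      exact pow_nonneg (mul_nonneg (Kb_nonneg b) (Real.sqrt_nonneg _)) _
    set G : ℝ → E3 → ℝ≥0∞ := fun τ u => (Ioo s t).indicator (fun τ =>
      ENNReal.ofReal ((t - τ) ^ m)) τ * (muE ε * ENNReal.ofReal (Real.exp (-b * ‖u‖ ^ 2) *
        Real.exp (κ * ‖u‖ ^ 2)) * ENNReal.ofReal (A / m.factorial * Real.exp (κ * ‖l.2‖ ^ 2)))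
      with hG
    have hGm : Measurable fun q : ℝ × E3 => G q.1 q.2 := by
      have h1 : Measurable fun τ : ℝ => (Ioo s t).indicator (fun τ =>
          ENNReal.ofReal ((t - τ) ^ m)) τ :=
        (((measurable_const.sub measurable_id).pow_const m).ennreal_ofReal).indicator
          measurableSet_Ioo
      have h2 : Measurable fun u : E3 => (muE ε * ENNReal.ofReal (Real.exp (-b * ‖u‖ ^ 2) *
          Real.exp (κ * ‖u‖ ^ 2)) * ENNReal.ofReal (A / m.factorial * Real.exp (κ * ‖l.2‖ ^ 2))) := by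
        refine Measurable.mul_const (Measurable.const_mul ?_ _) _
        refine Measurable.ennreal_ofReal ?_
        fun_prop
      exact (h1.comp measurable_fst).mul (h2.comp measurable_snd)
    -- the pointwise bound of the inner integral
    have hin : ∀ a : Ph, (∫⁻ q : Fin m → Ph, {p | Chain ε t S (m + 1) s l p}.indicator
        (wt b ε (m + 1)) (Fin.cons a q)) ≠ 0 → Meets ε (l, a) ∧
        (∫⁻ q : Fin m → Ph, {p | Chain ε t S (m + 1) s l p}.indicator
          (wt b ε (m + 1)) (Fin.cons a q)) ≤ G (hitT ε (l, a)) a.2 := by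
      intro a hne
      have hcond : Meets ε (l, a) ∧ s < hitT ε (l, a) ∧ hitT ε (l, a) < t := by
        by_contra hcon
        apply hne
        have : ∀ q : Fin m → Ph, {p | Chain ε t S (m + 1) s l p}.indicator
            (wt b ε (m + 1)) (Fin.cons a q) = 0 := by
          intro q
          apply indicator_of_notMem
          intro hc
          exact hcon ⟨hc.1, hc.2.1, hc.2.2.1⟩
        simp_rw [this]
        exact lintegral_zero
      refine ⟨hcond.1, ?_⟩
      have h1 : ∀ q : Fin m → Ph, {p | Chain ε t S (m + 1) s l p}.indicator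
          (wt b ε (m + 1)) (Fin.cons a q) = muE ε * ENNReal.ofReal (Real.exp (-b * ‖a.2‖ ^ 2)) *
          {p | Chain ε t (fun n => S (n + 1)) m (hitT ε (l, a)) ((S 0).f (l, a)) p}.indicator
            (wt b ε m) q := by
        intro q
        have hiff : (Fin.cons a q : Fin (m + 1) → Ph) ∈ {p | Chain ε t S (m + 1) s l p} ↔
            q ∈ {p | Chain ε t (fun n => S (n + 1)) m (hitT ε (l, a)) ((S 0).f (l, a)) p} := by
          constructor
          · intro hc
            exact hc.2.2.2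
          · intro hc
            exact ⟨hcond.1, hcond.2.1, hcond.2.2, hc⟩
        by_cases hq : q ∈ {p | Chain ε t (fun n => S (n + 1)) m (hitT ε (l, a))
            ((S 0).f (l, a)) p}
        · rw [indicator_of_mem (hiff.2 hq), indicator_of_mem hq, wt_cons]
        · rw [indicator_of_notMem (fun h => hq (hiff.1 h)), indicator_of_notMem hq, mul_zero]
      simp_rw [h1]
      rw [lintegral_const_mul' _ _ (ENNReal.mul_ne_top muE_ne_top ENNReal.ofReal_ne_top)]
      have h2 := ih (Nat.le_of_succ_le hmM) (fun n => S (n + 1)) (hitT ε (l, a)) ((S 0).f (l, a))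
        hcond.2.2.le
      have hτ : hitT ε (l, a) ∈ Ioo s t := ⟨hcond.2.1, hcond.2.2⟩
      have hen := (S 0).energy (l, a)
      have h3 : (Kb b * √M) ^ m * ((t - hitT ε (l, a)) ^ m / m.factorial) *
          Real.exp (b / 2 * (m / M) * ‖((S 0).f (l, a)).2‖ ^ 2) ≤
          (t - hitT ε (l, a)) ^ m * (Real.exp (κ * ‖a.2‖ ^ 2) *
            (A / m.factorial * Real.exp (κ * ‖l.2‖ ^ 2))) := by
        have h4 : Real.exp (b / 2 * (m / M) * ‖((S 0).f (l, a)).2‖ ^ 2) ≤
            Real.exp (κ * ‖a.2‖ ^ 2) * Real.exp (κ * ‖l.2‖ ^ 2) := by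
          rw [← Real.exp_add]
          apply Real.exp_le_exp.2
          calc b / 2 * (m / M) * ‖((S 0).f (l, a)).2‖ ^ 2
              ≤ κ * (‖l.2‖ ^ 2 + ‖a.2‖ ^ 2) := by rw [← hκ]; gcongr
            _ = _ := by ring
        have h5 : 0 ≤ (t - hitT ε (l, a)) ^ m := pow_nonneg (by linarith [hcond.2.2]) m
        calc (Kb b * √M) ^ m * ((t - hitT ε (l, a)) ^ m / m.factorial) *
              Real.exp (b / 2 * (m / M) * ‖((S 0).f (l, a)).2‖ ^ 2)
            ≤ A * ((t - hitT ε (l, a)) ^ m / m.factorial) *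
              (Real.exp (κ * ‖a.2‖ ^ 2) * Real.exp (κ * ‖l.2‖ ^ 2)) := by gcongr
          _ = _ := by ring
      calc muE ε * ENNReal.ofReal (Real.exp (-b * ‖a.2‖ ^ 2)) *
            ∫⁻ q : Fin m → Ph, {p | Chain ε t (fun n => S (n + 1)) m (hitT ε (l, a))
              ((S 0).f (l, a)) p}.indicator (wt b ε m) q
          ≤ muE ε * ENNReal.ofReal (Real.exp (-b * ‖a.2‖ ^ 2)) *
            ENNReal.ofReal ((t - hitT ε (l, a)) ^ m * (Real.exp (κ * ‖a.2‖ ^ 2) *
            (A / m.factorial * Real.exp (κ * ‖l.2‖ ^ 2)))) := by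
            gcongr
            exact h2.trans (ENNReal.ofReal_le_ofReal h3)
        _ = G (hitT ε (l, a)) a.2 := by
            rw [hG]
            simp only
            rw [indicator_of_mem hτ, ENNReal.ofReal_mul (pow_nonneg (by linarith [hcond.2.2]) m),
              ENNReal.ofReal_mul (Real.exp_nonneg _), ENNReal.ofReal_mul (Real.exp_nonneg _)]
            ring
    refine (lintegral_hit_le hε l hGm hin).trans ?_
    -- compute
    have hGi : ∀ u : E3, ∫⁻ τ, G τ u = ENNReal.ofReal ((t - s) ^ (m + 1) / (m + 1)) *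
        (muE ε * ENNReal.ofReal (Real.exp (-b * ‖u‖ ^ 2) *
        Real.exp (κ * ‖u‖ ^ 2)) *
          ENNReal.ofReal (A / m.factorial * Real.exp (κ * ‖l.2‖ ^ 2))) := by
      intro u
      simp only [hG]
      rw [lintegral_mul_const', lintegral_indicator measurableSet_Ioo, lintegral_pow hst]
      exact ENNReal.mul_ne_top (ENNReal.mul_ne_top muE_ne_top ENNReal.ofReal_ne_top)
        ENNReal.ofReal_ne_top
    simp_rw [hGi]
    have hre : ∀ u : E3, ‖l.2 - u‖ₑ * (ENNReal.ofReal ((t - s) ^ (m + 1) / (m + 1)) *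
        (muE ε * ENNReal.ofReal (Real.exp (-b * ‖u‖ ^ 2) *
        Real.exp (κ * ‖u‖ ^ 2)) *
          ENNReal.ofReal (A / m.factorial * Real.exp (κ * ‖l.2‖ ^ 2)))) =
        (ENNReal.ofReal ((t - s) ^ (m + 1) / (m + 1)) * muE ε *
          ENNReal.ofReal (A / m.factorial * Real.exp (κ * ‖l.2‖ ^ 2))) *
        (‖l.2 - u‖ₑ * ENNReal.ofReal (Real.exp (-b * ‖u‖ ^ 2) * Real.exp (κ * ‖u‖ ^ 2))) := by
      intro u; ring
    simp_rw [hre]
    rw [lintegral_const_mul' _ _ (ENNReal.mul_ne_top (ENNReal.mul_ne_top ENNReal.ofReal_ne_top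
      muE_ne_top) ENNReal.ofReal_ne_top)]
    have hvel := lintegral_vel_le (b := b) l.2 hκb
    have hI : I0 b = ENNReal.ofReal (I0 b).toReal := (ENNReal.ofReal_toReal (I0_ne_top hb)).symm
    calc ENNReal.ofReal (ε ^ 2) * (ENNReal.ofReal Real.pi *
          ((ENNReal.ofReal ((t - s) ^ (m + 1) / (m + 1)) * muE ε *
            ENNReal.ofReal (A / m.factorial * Real.exp (κ * ‖l.2‖ ^ 2))) *
          ∫⁻ u : E3, ‖l.2 - u‖ₑ * ENNReal.ofReal (Real.exp (-b * ‖u‖ ^ 2) *
            Real.exp (κ * ‖u‖ ^ 2))))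
        ≤ ENNReal.ofReal (ε ^ 2) * (ENNReal.ofReal Real.pi *
          ((ENNReal.ofReal ((t - s) ^ (m + 1) / (m + 1)) * muE ε *
            ENNReal.ofReal (A / m.factorial * Real.exp (κ * ‖l.2‖ ^ 2))) *
          (ENNReal.ofReal (1 + ‖l.2‖) * I0 b))) := by gcongr
      _ = (muE ε * ENNReal.ofReal (ε ^ 2)) * (ENNReal.ofReal Real.pi *
          (ENNReal.ofReal ((t - s) ^ (m + 1) / (m + 1)) *
            ENNReal.ofReal (A / m.factorial * Real.exp (κ * ‖l.2‖ ^ 2)) *
          (ENNReal.ofReal (1 + ‖l.2‖) * ENNReal.ofReal (I0 b).toReal))) := by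
          rw [← hI]; ring
      _ = ENNReal.ofReal (Real.pi * ((t - s) ^ (m + 1) / (m + 1) *
            (A / m.factorial * Real.exp (κ * ‖l.2‖ ^ 2)) * ((1 + ‖l.2‖) * (I0 b).toReal))) := by
          have h0 : 0 ≤ (t - s) ^ (m + 1) / (m + 1 : ℝ) :=
            div_nonneg (pow_nonneg (sub_nonneg.2 hst) _) (by positivity)
          rw [muE_mul hε, one_mul, ENNReal.ofReal_mul Real.pi_pos.le,
            ENNReal.ofReal_mul (mul_nonneg h0 (by positivity)), ENNReal.ofReal_mul h0,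
            ENNReal.ofReal_mul (by positivity : (0:ℝ) ≤ 1 + ‖l.2‖)]
      _ ≤ _ := by
          apply ENNReal.ofReal_le_ofReal
          have h1 := one_add_le (x := ‖l.2‖) hb hM1
          have h0 : 0 ≤ (t - s) ^ (m + 1) / (m + 1 : ℝ) :=
            div_nonneg (pow_nonneg (sub_nonneg.2 hst) _) (by positivity)
          have h2 : Real.exp (κ * ‖l.2‖ ^ 2) * Real.exp (b / (2 * M) * ‖l.2‖ ^ 2) =
              Real.exp (b / 2 * ((m + 1 : ℕ) / M) * ‖l.2‖ ^ 2) := by
            rw [← Real.exp_add, hκ]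
            congr 1
            push_cast
            field_simp
          calc Real.pi * ((t - s) ^ (m + 1) / (m + 1) *
              (A / m.factorial * Real.exp (κ * ‖l.2‖ ^ 2)) * ((1 + ‖l.2‖) * (I0 b).toReal))
              ≤ Real.pi * ((t - s) ^ (m + 1) / (m + 1) *
              (A / m.factorial * Real.exp (κ * ‖l.2‖ ^ 2)) *
              ((√M * (1 + 1 / √b) * Real.exp (b / (2 * M) * ‖l.2‖ ^ 2)) * (I0 b).toReal)) := by
                gcongr
            _ = (Real.pi * (1 + 1 / √b) * (I0 b).toReal * √M) * A * ((t - s) ^ (m + 1) /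
              ((m + 1) * m.factorial)) * (Real.exp (κ * ‖l.2‖ ^ 2) *
                Real.exp (b / (2 * M) * ‖l.2‖ ^ 2)) := by
                field_simp
            _ = _ := by
                rw [h2, hA, Nat.factorial_succ]
                unfold Kb
                push_cast
                ring

theorem sqrt_pow' {x : ℝ} (hx : 0 ≤ x) (m : ℕ) : (√x) ^ m = √(x ^ m) := by
  have h1 : √((√x ^ m) ^ 2) = √x ^ m := Real.sqrt_sq (by positivity)
  rw [← h1, ← pow_mul, mul_comm, pow_mul, Real.sq_sqrt hx]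

theorem sqrt_pow_div_factorial_le (m : ℕ) :
    (√(m : ℝ)) ^ m / m.factorial ≤ (√(Real.exp 1)) ^ m / √(m.factorial : ℝ) := by
  have hf : (0 : ℝ) < m.factorial := by exact_mod_cast Nat.factorial_pos m
  have h1 : (m : ℝ) ^ m ≤ Real.exp 1 ^ m * m.factorial := by
    have := Real.pow_div_factorial_le_exp (x := m) (by positivity) m
    rw [div_le_iff₀ hf] at this
    calc (m : ℝ) ^ m ≤ Real.exp m * m.factorial := this
      _ = _ := by rw [← Real.exp_nat_mul, mul_one]
  have h2 : (√(m : ℝ)) ^ m ≤ (√(Real.exp 1)) ^ m * √(m.factorial : ℝ) := by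
    have h3 : (√(m : ℝ)) ^ m = √((m : ℝ) ^ m) := sqrt_pow' (by positivity) m
    have h4 : (√(Real.exp 1)) ^ m = √(Real.exp 1 ^ m) := sqrt_pow' (by positivity) m
    rw [h3, h4, ← Real.sqrt_mul (by positivity)]
    exact Real.sqrt_le_sqrt h1
  have hs : 0 < √(m.factorial : ℝ) := Real.sqrt_pos.2 hf
  rw [div_le_div_iff₀ hf hs]
  calc (√(m : ℝ)) ^ m * √(m.factorial : ℝ)
      ≤ ((√(Real.exp 1)) ^ m * √(m.factorial : ℝ)) * √(m.factorial : ℝ) := by gcongr
    _ = _ := by rw [mul_assoc, Real.mul_self_sqrt hf.le]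

/-- The final constant. -/
noncomputable def Kc (b : ℝ) : ℝ := Kb b * √(Real.exp 1)

theorem Kc_nonneg (b : ℝ) : 0 ≤ Kc b := mul_nonneg (Kb_nonneg b) (Real.sqrt_nonneg _)

/-- **(CM) Mass of the chains of `m` hits** with Gaussian partners: summable in `m`, uniform in
`ε`, in the steps and in the starting line. -/
theorem chain_mass {ε b t : ℝ} (hε : 0 < ε) (hb : 0 < b) (m : ℕ) (S : ℕ → Step) (s : ℝ) (l : Ph)
    (hst : s ≤ t) :
    ∫⁻ p : Fin m → Ph, {p | Chain ε t S m s l p}.indicator (wt b ε m) p ≤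
      ENNReal.ofReal ((Kc b * (t - s)) ^ m / √(m.factorial : ℝ) *
        Real.exp (b / 2 * ‖l.2‖ ^ 2)) := by
  rcases Nat.eq_zero_or_pos m with rfl | hm
  · refine (mass_aux hε hb le_rfl 0 zero_le_one S s l hst).trans ?_
    apply ENNReal.ofReal_le_ofReal
    simp only [pow_zero, Nat.factorial_zero, Nat.cast_one, Real.sqrt_one, Nat.cast_zero,
      mul_zero, zero_mul, Real.exp_zero, mul_one, one_mul, div_one]
    exact Real.one_le_exp (by positivity)
  · refine (mass_aux hε hb hm m le_rfl S s l hst).trans ?_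
    apply ENNReal.ofReal_le_ofReal
    have hm0 : (m : ℝ) ≠ 0 := by exact_mod_cast hm.ne'
    have h1 := sqrt_pow_div_factorial_le m
    have h2 : 0 ≤ (t - s) ^ m := pow_nonneg (sub_nonneg.2 hst) m
    have h3 : 0 ≤ (Kb b) ^ m := pow_nonneg (Kb_nonneg b) m
    rw [div_self hm0, mul_one]
    calc (Kb b * √m) ^ m * ((t - s) ^ m / m.factorial) * Real.exp (b / 2 * ‖l.2‖ ^ 2)
        = (Kb b) ^ m * (t - s) ^ m * ((√(m : ℝ)) ^ m / m.factorial) *
          Real.exp (b / 2 * ‖l.2‖ ^ 2) := by rw [mul_pow]; ring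
      _ ≤ (Kb b) ^ m * (t - s) ^ m * ((√(Real.exp 1)) ^ m / √(m.factorial : ℝ)) *
          Real.exp (b / 2 * ‖l.2‖ ^ 2) := by gcongr
      _ = _ := by unfold Kc; rw [mul_pow, mul_pow]; ring

end Vale.Agent.P119.FL
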