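import Vale.Agent.P119.FL.First
import Vale.Agent.P119.MM.Time

/-!
# P119: flux of chains into families of targets (`helper690`)

The flux bounds `first_flux`, `one_line`, `sister_flux` for the contact events themselves (which are
measurable), and summed over families of targets.
-/

open MeasureTheory Set Filter Topology Metric ProbabilityTheory
open scoped ENNReal

namespace Vale.Agent.P119.FL

open KU

/-! ### Measurability of the contact events -/

/-- A family of paths which is measurable in the chain and continuous in time. -/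
structure ChainPath.Good {ε t : ℝ} {S : ℕ → Step} {m : ℕ} {c₁ : ℝ} (P : ChainPath ε t S m c₁) :
    Prop where
  meas : ∀ τ, Measurable fun q : Ph × (Fin m → Ph) => P.X q.1 q.2 τ
  cont : ∀ q : Ph × (Fin m → Ph), Continuous (P.X q.1 q.2)

/-- The chains in contact with the path `Y` at a time in `[max a time, t]`. -/
def ctc {ε t : ℝ} {S : ℕ → Step} {m : ℕ} {c₁ : ℝ} (P : ChainPath ε t S m c₁) (s a : ℝ)
    (Y : ℝ → E3) : Set (Ph × (Fin m → Ph)) :=
  {q | Chain ε t S m s q.1 q.2 ∧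
    ∃ τ ∈ Icc (max a (time ε S m s q.1 q.2)) t, ‖P.X q.1 q.2 τ - Y τ‖ ≤ ε}

theorem measurable_chain_q {ε t : ℝ} {S : ℕ → Step} {m : ℕ} (s : ℝ) :
    MeasurableSet {q : Ph × (Fin m → Ph) | Chain ε t S m s q.1 q.2} := by
  have h0 : Measurable fun q : Ph × (Fin m → Ph) => (s, q.1, q.2) := by fun_prop
  exact h0 (measurableSet_chain m S)

theorem measurable_time_q {ε : ℝ} {S : ℕ → Step} {m : ℕ} (s : ℝ) :
    Measurable fun q : Ph × (Fin m → Ph) => time ε S m s q.1 q.2 := by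
  have h0 : Measurable fun q : Ph × (Fin m → Ph) => (s, q.1, q.2) := by fun_prop
  exact (measurable_time m S).comp h0

theorem measurableSet_ctc {ε t : ℝ} {S : ℕ → Step} {m : ℕ} {c₁ : ℝ} {P : ChainPath ε t S m c₁}
    (hP : P.Good) {s a : ℝ} {Y : ℝ → E3} (hY : ContinuousOn Y (Icc a t)) :
    MeasurableSet (ctc P s a Y) := by
  rcases lt_or_ge t a with hta | hat
  · have : ctc P s a Y = ∅ := by
      ext q
      simp only [ctc, mem_ofPred_eq, mem_empty_iff_false, iff_false, not_and]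
      rintro - ⟨τ, h1, -⟩
      have := (le_max_left a _).trans (h1.1.trans h1.2)
      linarith
    rw [this]
    exact MeasurableSet.empty
  -- clamp the path
  have hYc : Continuous fun τ : ℝ => Y (max a (min t τ)) := by
    have h1 : Continuous fun τ : ℝ => max a (min t τ) := by fun_prop
    refine hY.comp_continuous h1 fun τ => ⟨le_max_left _ _, max_le hat (min_le_left _ _)⟩
  have h1 : MeasurableSet {q : Ph × (Fin m → Ph) | ∃ τ, max a (time ε S m s q.1 q.2) ≤ τ ∧ τ ≤ t ∧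
      ‖P.X q.1 q.2 τ - Y (max a (min t τ))‖ - ε ≤ 0} := by
    refine MM.measurableSet_meet_closed (F := fun (q : Ph × (Fin m → Ph)) τ =>
      ‖P.X q.1 q.2 τ - Y (max a (min t τ))‖ - ε) ?_ ?_ ?_ measurable_const
    · intro τ
      exact ((hP.meas τ).sub measurable_const).norm.sub measurable_const
    · intro q
      exact ((hP.cont q).sub hYc).norm.sub continuous_const
    · exact measurable_const.max (measurable_time_q s)
  refine ((measurable_chain_q (ε := ε) (t := t) (S := S) s).inter h1).congr ?_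
  ext q
  simp only [ctc, mem_inter_iff, mem_ofPred_eq]
  refine and_congr_right fun _ => ⟨?_, ?_⟩
  · rintro ⟨τ, b1, b2, b3⟩
    refine ⟨τ, ⟨b1, b2⟩, ?_⟩
    rw [min_eq_right b2, max_eq_right ((le_max_left a _).trans b1)] at b3
    linarith
  · rintro ⟨τ, ⟨b1, b2⟩, b3⟩
    refine ⟨τ, b1, b2, ?_⟩
    rw [min_eq_right b2, max_eq_right ((le_max_left a _).trans b1)]
    linarith

theorem measurable_line_q {S : ℕ → Step} {m : ℕ} :
    Measurable fun q : Ph × (Fin m → Ph) => line S m q.1 q.2 := measurable_line m S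

theorem good_linePath (ε t : ℝ) (S : ℕ → Step) (m : ℕ) : (linePath ε t S m).Good where
  meas τ := by
    have h := measurable_line m S
    exact h.fst.add (h.snd.const_smul τ)
  cont q := by
    change Continuous fun τ => (line S m q.1 q.2).1 + τ • (line S m q.1 q.2).2
    fun_prop

theorem good_oldPath (ε t : ℝ) (S : ℕ → Step) (m : ℕ) : (oldPath ε t S m).Good where
  meas τ := by
    have h := (measurable_lastPair m S).snd
    exact h.fst.add (h.snd.const_smul τ)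
  cont q := by
    change Continuous fun τ => (lastPair S m q.1 q.2).2.1 + τ • (lastPair S m q.1 q.2).2.2
    fun_prop

theorem continuous_pairLine {Φ : E3 → ℝ} (hΦ : IsPotential Φ) (ε : ℝ) (q : Ph × Ph) :
    Continuous fun τ => pairLine Φ ε q τ := by
  unfold pairLine
  have h1 : Continuous fun τ : ℝ => traj Φ (rel ε q) (τ / ε) :=
    (continuous_traj hΦ _).comp (continuous_id.div_const ε)
  have h2 : Continuous fun τ : ℝ => KU.free τ (com q) :=
    KU.continuous_free.comp (continuous_id.prodMk continuous_const)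
  exact KU.continuous_mk2.comp (h2.prodMk h1)

theorem good_pairPath1 {Φ : E3 → ℝ} (hΦ : IsPotential Φ) {ε : ℝ} (hε : ε ≠ 0) (t : ℝ)
    (S : ℕ → Step) (m : ℕ) : (pairPath1 hΦ hε t S m).Good where
  meas τ := by
    have h0 : Measurable fun q : Ph × (Fin (m + 1) → Ph) => (τ, lastPair S m q.1 q.2) :=
      measurable_const.prodMk (measurable_lastPair m S)
    exact ((measurable_pairLine hΦ).comp h0).fst.fst
  cont q := (continuous_pairLine hΦ ε _).fst.fst

theorem good_pairPath2 {Φ : E3 → ℝ} (hΦ : IsPotential Φ) {ε : ℝ} (hε : ε ≠ 0) (t : ℝ)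
    (S : ℕ → Step) (m : ℕ) : (pairPath2 hΦ hε t S m).Good where
  meas τ := by
    have h0 : Measurable fun q : Ph × (Fin (m + 1) → Ph) => (τ, lastPair S m q.1 q.2) :=
      measurable_const.prodMk (measurable_lastPair m S)
    exact ((measurable_pairLine hΦ).comp h0).snd.fst
  cont q := (continuous_pairLine hΦ ε _).snd.fst

/-! ### Targets -/

/-- A target: a path on `[a, t]`, with a bound of its speed. -/
structure Target (t : ℝ) where
  Y : ℝ → E3
  a : ℝ
  y' : ℝ → ℝ≥0∞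
  cont : ContinuousOn Y (Icc a t)
  speed : SpeedOn Y y' a t
  meas : AEMeasurable y' (volume.restrict (Icc a t))

/-- The size of a target. -/
noncomputable def Target.w {t : ℝ} (T : Target t) (ε : ℝ) : ℝ≥0∞ :=
  ENNReal.ofReal ε + ∫⁻ τ in Icc T.a t, (1 + T.y' τ)

/-- The constant of the flux bounds. -/
noncomputable def cF (b c₁ : ℝ) : ℝ≥0∞ := max 1 (ENNReal.ofReal (c₁ * (1 + 1 / √b)))

theorem cF_ne_top {b c₁ : ℝ} : cF b c₁ ≠ ∞ := by
  unfold cF
  exact (max_lt ENNReal.one_lt_top ENNReal.ofReal_lt_top).ne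

theorem target_aux {t ε : ℝ} (hε : 0 < ε) (T : Target t) (b c₁ : ℝ) :
    1 + (ENNReal.ofReal ε)⁻¹ * ∫⁻ τ in Icc T.a t, (ENNReal.ofReal (c₁ * (1 + 1 / √b)) + T.y' τ) ≤
      cF b c₁ * ((ENNReal.ofReal ε)⁻¹ * T.w ε) := by
  have h0 : ENNReal.ofReal ε ≠ 0 := by simpa using hε
  have h1 : (1 : ℝ≥0∞) ≤ cF b c₁ := by unfold cF; exact le_max_left _ _
  have h3 : ENNReal.ofReal (c₁ * (1 + 1 / √b)) ≤ cF b c₁ := by unfold cF; exact le_max_right _ _
  have h2 : ∫⁻ τ in Icc T.a t, (ENNReal.ofReal (c₁ * (1 + 1 / √b)) + T.y' τ) ≤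
      cF b c₁ * ∫⁻ τ in Icc T.a t, (1 + T.y' τ) := by
    rw [← lintegral_const_mul' _ _ cF_ne_top]
    refine lintegral_mono fun τ => ?_
    rw [show cF b c₁ * (1 + T.y' τ) = cF b c₁ + cF b c₁ * T.y' τ by ring]
    refine add_le_add h3 ?_
    calc T.y' τ = 1 * T.y' τ := (one_mul _).symm
      _ ≤ _ := mul_le_mul' h1 le_rfl
  calc 1 + (ENNReal.ofReal ε)⁻¹ * ∫⁻ τ in Icc T.a t, (ENNReal.ofReal (c₁ * (1 + 1 / √b)) + T.y' τ)
      ≤ cF b c₁ * ((ENNReal.ofReal ε)⁻¹ * ENNReal.ofReal ε) +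
        (ENNReal.ofReal ε)⁻¹ * (cF b c₁ * ∫⁻ τ in Icc T.a t, (1 + T.y' τ)) := by
        rw [ENNReal.inv_mul_cancel h0 ENNReal.ofReal_ne_top, mul_one]
        exact add_le_add h1 (mul_le_mul' le_rfl h2)
    _ = _ := by unfold Target.w; ring

/-- **First-order flux into a target.** -/
theorem first_flux_set {ε b s t c₁ : ℝ} (hε : 0 < ε) (hb : 0 < b) (hc₁ : 0 ≤ c₁) (hst : s ≤ t)
    {m : ℕ} {S : ℕ → Step} {P : ChainPath ε t S m c₁} (hP : P.Good) (T : Target t) :
    ∫⁻ l, ∫⁻ p, (ctc P s T.a T.Y).indicator (fun q => ENNReal.ofReal (Real.exp (-b * ‖q.1.2‖ ^ 2)) *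
      wt b ε m q.2) (l, p) ≤ ENNReal.ofReal (ε ^ 2) * (8 * bv * cF b c₁) *
      ENNReal.ofReal (D2 b * ((Kc (b / 2) * (t - s)) ^ m / √(m.factorial : ℝ))) * T.w ε := by
  have hm := measurableSet_ctc hP (s := s) T.cont
  have hw : Measurable fun q : Ph × (Fin m → Ph) => ENNReal.ofReal (Real.exp (-b * ‖q.1.2‖ ^ 2)) *
      wt b ε m q.2 := by
    refine Measurable.mul ?_ ((measurable_wt b ε m).comp measurable_snd)
    fun_prop
  have h1 := first_flux (Ψ := fun l p => (ctc P s T.a T.Y).indicator (fun q =>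
      ENNReal.ofReal (Real.exp (-b * ‖q.1.2‖ ^ 2)) * wt b ε m q.2) (l, p)) hε hb hc₁ hst P
    T.cont T.speed T.meas (by
      have : (fun q : Ph × (Fin m → Ph) => (ctc P s T.a T.Y).indicator (fun q =>
        ENNReal.ofReal (Real.exp (-b * ‖q.1.2‖ ^ 2)) * wt b ε m q.2) (q.1, q.2)) =
        (ctc P s T.a T.Y).indicator (fun q => ENNReal.ofReal (Real.exp (-b * ‖q.1.2‖ ^ 2)) *
          wt b ε m q.2) := rfl
      rw [this]
      exact hw.indicator hm)
    (by
      intro l p hne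
      have hq : (l, p) ∈ ctc P s T.a T.Y := by
        by_contra h
        exact hne (indicator_of_notMem h _)
      refine ⟨hq.1, hq.2, ?_⟩
      simp only [indicator_of_mem hq]
      exact le_rfl)
  refine h1.trans ?_
  unfold B2
  have h2 := target_aux hε T b c₁
  have e1 : ENNReal.ofReal ((2 * ε) ^ 3) * (ENNReal.ofReal ε)⁻¹ = ENNReal.ofReal (ε ^ 2) * 8 := by
    have h0 : ENNReal.ofReal ε ≠ 0 := by simpa using hε
    rw [show (2 * ε) ^ 3 = (ε ^ 2 * 8) * ε by ring, ENNReal.ofReal_mul (by positivity), mul_assoc,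
      ENNReal.mul_inv_cancel h0 ENNReal.ofReal_ne_top, mul_one, ENNReal.ofReal_mul (by positivity)]
    norm_num
  calc ENNReal.ofReal ((2 * ε) ^ 3) * bv * (1 + (ENNReal.ofReal ε)⁻¹ * ∫⁻ τ in Icc T.a t,
        (ENNReal.ofReal (c₁ * (1 + 1 / √b)) + T.y' τ)) *
        ENNReal.ofReal (D2 b * ((Kc (b / 2) * (t - s)) ^ m / √(m.factorial : ℝ)))
      ≤ ENNReal.ofReal ((2 * ε) ^ 3) * bv * (cF b c₁ * ((ENNReal.ofReal ε)⁻¹ * T.w ε)) *
        ENNReal.ofReal (D2 b * ((Kc (b / 2) * (t - s)) ^ m / √(m.factorial : ℝ))) := by gcongr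
    _ = (ENNReal.ofReal ((2 * ε) ^ 3) * (ENNReal.ofReal ε)⁻¹) * bv * cF b c₁ *
        ENNReal.ofReal (D2 b * ((Kc (b / 2) * (t - s)) ^ m / √(m.factorial : ℝ))) * T.w ε := by ring
    _ = _ := by rw [e1]; ring

theorem measurable_ew (b ε : ℝ) (m : ℕ) : Measurable fun q : Ph × (Fin m → Ph) =>
    ENNReal.ofReal (Real.exp (-b * ‖q.1.2‖ ^ 2)) * wt b ε m q.2 := by
  refine Measurable.mul ?_ ((measurable_wt b ε m).comp measurable_snd)
  fun_prop

/-- A sum of integrals of indicators. -/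
theorem lintegral_family_le {m : ℕ} {ι : Type*} (I : Finset ι) {A : ι → Set (Ph × (Fin m → Ph))}
    (hA : ∀ i ∈ I, MeasurableSet (A i)) {G : Ph × (Fin m → Ph) → ℝ≥0∞} (hG : Measurable G)
    {Ψ : Ph → (Fin m → Ph) → ℝ≥0∞}
    (hΨ : ∀ l p, Ψ l p ≠ 0 → (∃ i ∈ I, (l, p) ∈ A i) ∧ Ψ l p ≤ G (l, p)) :
    ∫⁻ l, ∫⁻ p, Ψ l p ≤ ∑ i ∈ I, ∫⁻ l, ∫⁻ p, (A i).indicator G (l, p) := by
  have h1 : ∀ l p, Ψ l p ≤ ∑ i ∈ I, (A i).indicator G (l, p) := by
    intro l p
    by_cases h0 : Ψ l p = 0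
    · rw [h0]; exact zero_le
    obtain ⟨⟨i, hi, h2⟩, h3⟩ := hΨ l p h0
    refine h3.trans ?_
    calc G (l, p) = (A i).indicator G (l, p) := (indicator_of_mem h2 _).symm
      _ ≤ _ := Finset.single_le_sum (f := fun i => (A i).indicator G (l, p))
        (fun _ _ => zero_le) hi
  have hm : ∀ i ∈ I, Measurable fun q : Ph × (Fin m → Ph) => (A i).indicator G (q.1, q.2) :=
    fun i hi => hG.indicator (hA i hi)
  calc ∫⁻ l, ∫⁻ p, Ψ l p ≤ ∫⁻ l, ∫⁻ p, ∑ i ∈ I, (A i).indicator G (l, p) :=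
        lintegral_mono fun l => lintegral_mono fun p => h1 l p
    _ = ∫⁻ l, ∑ i ∈ I, ∫⁻ p, (A i).indicator G (l, p) := by
        refine lintegral_congr fun l => ?_
        exact lintegral_finsetSum' _ fun i hi =>
          ((hm i hi).comp (measurable_const.prodMk measurable_id)).aemeasurable
    _ = _ := lintegral_finsetSum' _ fun i hi => ((hm i hi).lintegral_prod_right').aemeasurable

/-- **First-order flux into a family of targets.**  No measurability of `Ψ` is needed. -/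
theorem first_flux_family {ε b s t c₁ : ℝ} (hε : 0 < ε) (hb : 0 < b) (hc₁ : 0 ≤ c₁) (hst : s ≤ t)
    {m : ℕ} {S : ℕ → Step} {P : ChainPath ε t S m c₁} (hP : P.Good) {ι : Type*} (I : Finset ι)
    (T : ι → Target t) {Ψ : Ph → (Fin m → Ph) → ℝ≥0∞}
    (hΨ : ∀ l p, Ψ l p ≠ 0 → (∃ i ∈ I, (l, p) ∈ ctc P s (T i).a (T i).Y) ∧
      Ψ l p ≤ ENNReal.ofReal (Real.exp (-b * ‖l.2‖ ^ 2)) * wt b ε m p) :
    ∫⁻ l, ∫⁻ p, Ψ l p ≤ ENNReal.ofReal (ε ^ 2) * (8 * bv * cF b c₁) *
      ENNReal.ofReal (D2 b * ((Kc (b / 2) * (t - s)) ^ m / √(m.factorial : ℝ))) *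
      ∑ i ∈ I, (T i).w ε := by
  refine (lintegral_family_le I (fun i _ => measurableSet_ctc hP (T i).cont)
    (measurable_ew b ε m) hΨ).trans ?_
  rw [Finset.mul_sum]
  exact Finset.sum_le_sum fun i _ => first_flux_set hε hb hc₁ hst hP (T i)

/-! ### The sister of a given line -/

/-- The sisters of `e` with a chain in contact with `Y` at least `δ` after the exit. -/
def ctcS {ε t : ℝ} {S : ℕ → Step} {m : ℕ} {c₁ : ℝ} (P : ChainPath ε t S m c₁) (e : Ph) (δ a : ℝ)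
    (Y : ℝ → E3) : Set (Ph × (Fin m → Ph)) :=
  {q | Meets ε (e, q.1) ∧ exT ε (e, q.1) ∈ Icc 0 t ∧ Chain ε t S m (exT ε (e, q.1)) q.1 q.2 ∧
    ∃ τ ∈ Icc (max (max a (exT ε (e, q.1) + δ)) (time ε S m (exT ε (e, q.1)) q.1 q.2)) t,
      ‖P.X q.1 q.2 τ - Y τ‖ ≤ ε}

theorem measurable_exT_e {ε : ℝ} {m : ℕ} (e : Ph) :
    Measurable fun q : Ph × (Fin m → Ph) => exT ε (e, q.1) := by
  have h0 : Measurable fun q : Ph × (Fin m → Ph) => (e, q.1) := measurable_const.prodMk measurable_fst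
  exact measurable_exT.comp h0

theorem measurableSet_ctcS {ε t : ℝ} {S : ℕ → Step} {m : ℕ} {c₁ : ℝ} {P : ChainPath ε t S m c₁}
    (hP : P.Good) (e : Ph) {δ a : ℝ} {Y : ℝ → E3} (hY : ContinuousOn Y (Icc a t)) :
    MeasurableSet (ctcS P e δ a Y) := by
  rcases lt_or_ge t a with hta | hat
  · have : ctcS P e δ a Y = ∅ := by
      ext q
      simp only [ctcS, mem_ofPred_eq, mem_empty_iff_false, iff_false, not_and]
      rintro - - - ⟨τ, h1, -⟩
      have := (le_max_left a _).trans ((le_max_left _ _).trans (h1.1.trans h1.2))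
      linarith
    rw [this]
    exact MeasurableSet.empty
  have hYc : Continuous fun τ : ℝ => Y (max a (min t τ)) := by
    have h1 : Continuous fun τ : ℝ => max a (min t τ) := by fun_prop
    refine hY.comp_continuous h1 fun τ => ⟨le_max_left _ _, max_le hat (min_le_left _ _)⟩
  have hex := measurable_exT_e (ε := ε) (m := m) e
  have h0 : Measurable fun q : Ph × (Fin m → Ph) => (exT ε (e, q.1), q.1, q.2) :=
    hex.prodMk measurable_id
  have htm : Measurable fun q : Ph × (Fin m → Ph) => time ε S m (exT ε (e, q.1)) q.1 q.2 :=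
    (measurable_time m S).comp h0
  have hcm : MeasurableSet {q : Ph × (Fin m → Ph) | Chain ε t S m (exT ε (e, q.1)) q.1 q.2} :=
    h0 (measurableSet_chain m S)
  have hmm : MeasurableSet {q : Ph × (Fin m → Ph) | Meets ε (e, q.1)} := by
    have : Measurable fun q : Ph × (Fin m → Ph) => (e, q.1) :=
      measurable_const.prodMk measurable_fst
    exact this measurableSet_meets
  have h1 : MeasurableSet {q : Ph × (Fin m → Ph) | ∃ τ, max (max a (exT ε (e, q.1) + δ))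
      (time ε S m (exT ε (e, q.1)) q.1 q.2) ≤ τ ∧ τ ≤ t ∧
      ‖P.X q.1 q.2 τ - Y (max a (min t τ))‖ - ε ≤ 0} := by
    refine MM.measurableSet_meet_closed (F := fun (q : Ph × (Fin m → Ph)) τ =>
      ‖P.X q.1 q.2 τ - Y (max a (min t τ))‖ - ε) ?_ ?_ ?_ measurable_const
    · intro τ
      exact ((hP.meas τ).sub measurable_const).norm.sub measurable_const
    · intro q
      exact ((hP.cont q).sub hYc).norm.sub continuous_const
    · exact (measurable_const.max (hex.add measurable_const)).max htm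
  have h5 : MeasurableSet ((fun q : Ph × (Fin m → Ph) => exT ε (e, q.1)) ⁻¹' Icc 0 t) :=
    hex measurableSet_Icc
  refine (hmm.inter (h5.inter (hcm.inter h1))).congr ?_
  ext q
  simp only [ctcS, mem_inter_iff, mem_ofPred_eq, mem_preimage]
  refine and_congr_right fun _ => and_congr_right fun _ => and_congr_right fun _ => ⟨?_, ?_⟩
  · rintro ⟨τ, b1, b2, b3⟩
    refine ⟨τ, ⟨b1, b2⟩, ?_⟩
    rw [min_eq_right b2, max_eq_right ((le_max_left a _).trans ((le_max_left _ _).trans b1))] at b3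
    linarith
  · rintro ⟨τ, ⟨b1, b2⟩, b3⟩
    refine ⟨τ, b1, b2, ?_⟩
    rw [min_eq_right b2, max_eq_right ((le_max_left a _).trans ((le_max_left _ _).trans b1))]
    linarith

theorem B1_le {ε b s t δ c₁ : ℝ} (hε : 0 < ε) (hδ : 0 < δ) {m : ℕ} (T : Target t) :
    B1 ε b s T.a t δ 1 c₁ m T.y' ≤ ENNReal.ofReal (ε ^ 2) *
      (ENNReal.ofReal ((4 * √(m + 1) / δ) ^ 3) * cF b c₁) *
      ENNReal.ofReal (D1 b * ((Kc (b / 4) * (t - s)) ^ m / √(m.factorial : ℝ))) * T.w ε := by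
  unfold B1
  have h0 : ENNReal.ofReal ε ≠ 0 := by simpa using hε
  have h1 : (1 : ℝ≥0∞) + (ENNReal.ofReal ((1 + 1) * ε))⁻¹ * ∫⁻ τ in Icc T.a t,
        (ENNReal.ofReal (c₁ * (1 + 1 / √b)) + T.y' τ) ≤
      cF b c₁ * ((ENNReal.ofReal ε)⁻¹ * T.w ε) := by
    refine le_trans (add_le_add le_rfl (mul_le_mul' (ENNReal.inv_le_inv.2 ?_) le_rfl))
      (target_aux hε T b c₁)
    apply ENNReal.ofReal_le_ofReal
    linarith
  have e1 : ENNReal.ofReal ((2 * ((1 + 1) * ε) * √((m : ℝ) + 1) / δ) ^ 3) * (ENNReal.ofReal ε)⁻¹ =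
      ENNReal.ofReal (ε ^ 2) * ENNReal.ofReal ((4 * √((m : ℝ) + 1) / δ) ^ 3) := by
    rw [show (2 * ((1 + 1) * ε) * √((m : ℝ) + 1) / δ) ^ 3 =
      (ε ^ 2 * (4 * √((m : ℝ) + 1) / δ) ^ 3) * ε by ring, ENNReal.ofReal_mul (by positivity),
      mul_assoc, ENNReal.mul_inv_cancel h0 ENNReal.ofReal_ne_top, mul_one,
      ENNReal.ofReal_mul (by positivity)]
  calc _ ≤ ENNReal.ofReal ((2 * ((1 + 1) * ε) * √((m : ℝ) + 1) / δ) ^ 3) *
        (cF b c₁ * ((ENNReal.ofReal ε)⁻¹ * T.w ε)) *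
        ENNReal.ofReal (D1 b * ((Kc (b / 4) * (t - s)) ^ m / √(m.factorial : ℝ))) := by
        gcongr
    _ = (ENNReal.ofReal ((2 * ((1 + 1) * ε) * √((m : ℝ) + 1) / δ) ^ 3) * (ENNReal.ofReal ε)⁻¹) *
        cF b c₁ * ENNReal.ofReal (D1 b * ((Kc (b / 4) * (t - s)) ^ m / √(m.factorial : ℝ))) *
        T.w ε := by ring
    _ = _ := by rw [e1]; ring

/-- The constant of `sister_flux_set`. -/
noncomputable def cS2 (b c₁ δ t : ℝ) (m : ℕ) (e : Ph) : ℝ≥0∞ :=
  ENNReal.ofReal t * (K1.sig univ * (ENNReal.ofReal (Ke b e) *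
    ((ENNReal.ofReal ((4 * √(m + 1) / δ) ^ 3) * cF (b / 2) c₁) *
      ENNReal.ofReal (D1 (b / 2) * ((Kc (b / 2 / 4) * t) ^ m / √(m.factorial : ℝ))))))

theorem measurable_sw (b ε : ℝ) (m : ℕ) : Measurable fun q : Ph × (Fin m → Ph) =>
    muE ε * ENNReal.ofReal (Real.exp (-b * ‖q.1.2‖ ^ 2)) * wt b ε m q.2 := by
  refine Measurable.mul ?_ ((measurable_wt b ε m).comp measurable_snd)
  fun_prop

/-- **Flux of the sister of a given line into a target.** -/
theorem sister_flux_set {ε b t δ c₁ : ℝ} (hε : 0 < ε) (hb : 0 < b) (hδ : 0 < δ) (hc₁ : 0 ≤ c₁)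
    {m : ℕ} {S : ℕ → Step} {P : ChainPath ε t S m c₁} (hP : P.Good) (e : Ph) (T : Target t) :
    ∫⁻ β, ∫⁻ p, (ctcS P e δ T.a T.Y).indicator (fun q => muE ε *
      ENNReal.ofReal (Real.exp (-b * ‖q.1.2‖ ^ 2)) * wt b ε m q.2) (β, p) ≤
      ENNReal.ofReal (ε ^ 2) * cS2 b c₁ δ t m e * T.w ε := by
  have hm := measurableSet_ctcS (δ := δ) hP e T.cont
  have h1 := sister_flux (Ψ := fun β p => (ctcS P e δ T.a T.Y).indicator (fun q => muE ε *
      ENNReal.ofReal (Real.exp (-b * ‖q.1.2‖ ^ 2)) * wt b ε m q.2) (β, p)) hε hb hδ hc₁ P e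
    T.cont T.speed T.meas (by
      have : (fun q : Ph × (Fin m → Ph) => (ctcS P e δ T.a T.Y).indicator (fun q => muE ε *
        ENNReal.ofReal (Real.exp (-b * ‖q.1.2‖ ^ 2)) * wt b ε m q.2) (q.1, q.2)) =
        (ctcS P e δ T.a T.Y).indicator (fun q => muE ε *
          ENNReal.ofReal (Real.exp (-b * ‖q.1.2‖ ^ 2)) * wt b ε m q.2) := rfl
      rw [this]
      exact (measurable_sw b ε m).indicator hm)
    (by
      intro β p hne
      have hq : (β, p) ∈ ctcS P e δ T.a T.Y := by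
        by_contra h
        exact hne (indicator_of_notMem h _)
      refine ⟨hq.1, hq.2.1, hq.2.2.1, hq.2.2.2, ?_⟩
      simp only [indicator_of_mem hq]
      exact le_rfl)
  refine h1.trans ?_
  have h2 := B1_le (b := b / 2) (s := 0) (c₁ := c₁) hε hδ (m := m) T
  rw [sub_zero] at h2
  calc _ ≤ ENNReal.ofReal t * (K1.sig univ * (ENNReal.ofReal (Ke b e) *
        (ENNReal.ofReal (ε ^ 2) * (ENNReal.ofReal ((4 * √((m : ℝ) + 1) / δ) ^ 3) * cF (b / 2) c₁) *
      ENNReal.ofReal (D1 (b / 2) * ((Kc (b / 2 / 4) * t) ^ m / √(m.factorial : ℝ))) * T.w ε))) :=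
        mul_le_mul' le_rfl (mul_le_mul' le_rfl (mul_le_mul' le_rfl h2))
    _ = _ := by unfold cS2; ring

/-- **Flux of the sister of a given line into a family of targets.** -/
theorem sister_flux_family {ε b t δ c₁ : ℝ} (hε : 0 < ε) (hb : 0 < b) (hδ : 0 < δ) (hc₁ : 0 ≤ c₁)
    {m : ℕ} {S : ℕ → Step} {P : ChainPath ε t S m c₁} (hP : P.Good) (e : Ph) {ι : Type*}
    (I : Finset ι) (T : ι → Target t) {Ψ : Ph → (Fin m → Ph) → ℝ≥0∞}
    (hΨ : ∀ β p, Ψ β p ≠ 0 → (∃ i ∈ I, (β, p) ∈ ctcS P e δ (T i).a (T i).Y) ∧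
      Ψ β p ≤ muE ε * ENNReal.ofReal (Real.exp (-b * ‖β.2‖ ^ 2)) * wt b ε m p) :
    ∫⁻ β, ∫⁻ p, Ψ β p ≤ ENNReal.ofReal (ε ^ 2) * cS2 b c₁ δ t m e * ∑ i ∈ I, (T i).w ε := by
  refine (lintegral_family_le I (fun i _ => measurableSet_ctcS hP e (T i).cont)
    (measurable_sw b ε m) hΨ).trans ?_
  rw [Finset.mul_sum]
  exact Finset.sum_le_sum fun i _ => sister_flux_set hε hb hδ hc₁ hP e (T i)

/-! ### Straight targets -/

/-- A line as a target. -/
noncomputable def lineTarget (t a : ℝ) (z : Ph) : Target t where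
  Y τ := z.1 + τ • z.2
  a := a
  y' _ := ‖z.2‖ₑ
  cont := by fun_prop
  speed := by
    have h1 := speedOn_lin z.2 z.1 0 a t
    simp only [sub_zero] at h1
    refine h1.mono le_rfl le_rfl fun τ _ => ?_
    rw [← ofReal_norm]
  meas := aemeasurable_const

theorem lineTarget_w {t a ε : ℝ} (z : Ph) : (lineTarget t a z).w ε =
    ENNReal.ofReal ε + (1 + ‖z.2‖ₑ) * ENNReal.ofReal (t - a) := by
  unfold Target.w lineTarget
  simp only [lintegral_const, Measure.restrict_apply_univ, Real.volume_Icc]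

end Vale.Agent.P119.FL
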