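import Vale.Agent.P119.FL.LamC

/-!
# P119: second events in two branches, with the law of the branches (`helper690`)

* `lamC_expand`: the integral with respect to `lamC`, with all the sums outside;
* `lamC_fam`: the chains started by the second exhaust in contact with a family of targets;
* `lamC_fix`: the chains started by the second exhaust in contact with a fixed target.
-/

open MeasureTheory Set Filter Topology Metric
open scoped ENNReal

noncomputable section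

namespace Vale.Agent.P119.FL

open KU M M.CTree PB Cap

variable {Φ : E3 → ℝ} {ε b t δ : ℝ}

theorem HD_ne_top (b ε t : ℝ) (S : ℕ → Step) (i : ℕ) (e β : Ph) (p : Fin i → Ph) :
    HD b ε t S i e β p ≠ ∞ := by
  unfold HD
  by_cases h : (e, β, p) ∈ brS ε t S i
  · rw [indicator_of_mem h]
    exact ENNReal.mul_ne_top ENNReal.ofReal_ne_top (ENNReal.mul_ne_top (ENNReal.mul_ne_top
      muE_ne_top ENNReal.ofReal_ne_top) (wt_ne_top _ _ _ _))
  · rw [indicator_of_notMem h]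
    exact ENNReal.zero_ne_top

/-- One term of a branch. -/
def BrO (b ε t : ℝ) (S : ℕ → Step) (i n : ℕ) (f : Src × ℝ × Ph → ℝ≥0∞) : ℝ≥0∞ :=
  ∫⁻ e, ∫⁻ β, ∫⁻ p : Fin i → Ph, HD b ε t S i e β p * f (brA ε S i n (e, β, p))

theorem Br_eq (b ε t : ℝ) (α : ℕ → ℝ≥0∞) (S : (i : ℕ) → (Fin i → Bool) → ℕ → Step) (i : ℕ)
    (f : Src × ℝ × Ph → ℝ≥0∞) : Br b ε t α S i f =
      ∑' d, ∑' d', α d * α d' * ∑ o : Fin i → Bool, BrO b ε t (S i o) i (max d d' + 1) f := rfl

theorem measurable_BrO {X : Type*} [MeasurableSpace X] (b ε t : ℝ) (S : ℕ → Step) (i n : ℕ)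
    {f : X → Src × ℝ × Ph → ℝ≥0∞} (hf : Measurable fun z : X × (Src × ℝ × Ph) => f z.1 z.2) :
    Measurable fun x => BrO b ε t S i n (f x) := by
  have h1 : Measurable fun z : X × (Ph × Ph × (Fin i → Ph)) =>
      HD b ε t S i z.2.1 z.2.2.1 z.2.2.2 * f z.1 (brA ε S i n z.2) :=
    ((measurable_HD b ε t S i).comp measurable_snd).mul
      (hf.comp (measurable_fst.prodMk ((measurable_brA ε S i _).comp measurable_snd)))
  have h2 : Measurable fun z : ((X × Ph) × Ph) × (Fin i → Ph) =>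
      HD b ε t S i z.1.1.2 z.1.2 z.2 * f z.1.1.1 (brA ε S i n (z.1.1.2, z.1.2, z.2)) :=
    h1.comp (measurable_fst.fst.fst.prodMk (measurable_fst.fst.snd.prodMk
      (measurable_fst.snd.prodMk measurable_snd)))
  exact (h2.lintegral_prod_right').lintegral_prod_right'.lintegral_prod_right'

/-- Two branches, with all the sums outside. -/
theorem Br_Br (b ε t : ℝ) (α : ℕ → ℝ≥0∞) (S : (i : ℕ) → (Fin i → Bool) → ℕ → Step) (i i' : ℕ)
    {f : (Src × ℝ × Ph) × (Src × ℝ × Ph) → ℝ≥0∞} (hf : Measurable f) :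
    Br b ε t α S i (fun x => Br b ε t α S i' fun y => f (x, y)) =
      ∑' n, ∑' n', α n * α n' * ∑ o' : Fin i' → Bool, ∑' d, ∑' d', α d * α d' *
        ∑ o : Fin i → Bool, BrO b ε t (S i o) i (max d d' + 1) fun x =>
          BrO b ε t (S i' o') i' (max n n' + 1) fun y => f (x, y) := by
  have hm : ∀ (n n' : ℕ) (o' : Fin i' → Bool), Measurable fun x : Src × ℝ × Ph =>
      BrO b ε t (S i' o') i' (max n n' + 1) fun y => f (x, y) := fun n n' o' =>
    measurable_BrO b ε t (S i' o') i' _ hf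
  have hms : ∀ n n' : ℕ, Measurable fun x : Src × ℝ × Ph => α n * α n' *
      ∑ o' : Fin i' → Bool, BrO b ε t (S i' o') i' (max n n' + 1) fun y => f (x, y) :=
    fun n n' => (Finset.measurable_sum _ fun o' _ => hm n n' o').const_mul _
  have h1 : Br b ε t α S i (fun x => Br b ε t α S i' fun y => f (x, y)) =
      ∫⁻ x, ∑' n, ∑' n', α n * α n' * ∑ o' : Fin i' → Bool,
        BrO b ε t (S i' o') i' (max n n' + 1) (fun y => f (x, y)) ∂(brM b ε t α S i) := by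
    rw [lintegral_brM b ε t α S i (Measurable.tsum fun n => Measurable.tsum fun n' => hms n n')]
    rfl
  rw [h1, lintegral_tsum fun n => (Measurable.tsum fun n' => hms n n').aemeasurable]
  refine tsum_congr fun n => ?_
  rw [lintegral_tsum fun n' => (hms n n').aemeasurable]
  refine tsum_congr fun n' => ?_
  rw [lintegral_const_mul _ (Finset.measurable_sum _ fun o' _ => hm n n' o'),
    lintegral_finsetSum _ fun o' _ => hm n n' o']
  congr 1
  refine Finset.sum_congr rfl fun o' _ => ?_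
  rw [lintegral_brM b ε t α S i (hm n n' o')]
  rfl

/-- Two branches, as one iterated integral. -/
theorem BrO_BrO (b ε t : ℝ) (S S' : ℕ → Step) (i i' d n : ℕ) {c : ℝ≥0∞} (hc : c ≠ ∞)
    (f : (Src × ℝ × Ph) × (Src × ℝ × Ph) → ℝ≥0∞) :
    c * BrO b ε t S i d (fun x => BrO b ε t S' i' n fun y => f (x, y)) =
      ∫⁻ e, ∫⁻ β, ∫⁻ p : Fin i → Ph, ∫⁻ m, ∫⁻ β', ∫⁻ p' : Fin i' → Ph,
        c * (HD b ε t S i e β p * (HD b ε t S' i' m β' p' *
          f (brA ε S i d (e, β, p), brA ε S' i' n (m, β', p')))) := by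
  unfold BrO
  have h1 : ∀ e β (p : Fin i → Ph), HD b ε t S i e β p ≠ ∞ := fun e β p =>
    HD_ne_top b ε t S i e β p
  rw [← lintegral_const_mul' _ _ hc]
  refine lintegral_congr fun e => ?_
  rw [← lintegral_const_mul' _ _ hc]
  refine lintegral_congr fun β => ?_
  rw [← lintegral_const_mul' _ _ hc]
  refine lintegral_congr fun p => ?_
  simp_rw [← lintegral_const_mul' _ _ (h1 e β p), ← lintegral_const_mul' _ _ hc]

/-- A chain up to `t` is a chain up to `t' ≥ t`. -/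
theorem chain_le_time {ε t t' : ℝ} (h : t ≤ t') (m : ℕ) : ∀ (S : ℕ → Step) (s : ℝ) (l : Ph)
    (p : Fin m → Ph), Chain ε t S m s l p → Chain ε t' S m s l p := by
  induction m with
  | zero => intro S s l p _; trivial
  | succ m ih =>
    intro S s l p h1
    exact ⟨h1.1, h1.2.1, h1.2.2.1.trans_le h, ih _ _ _ _ h1.2.2.2⟩

/-- Sources with births in `(0, t]` and depths at most `L`. -/
def srcS (t : ℝ) (L : ℕ) : Set Src := {x | 0 < x.1 ∧ x.1 ≤ t ∧ x.2.2 ≤ L}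

theorem measurableSet_srcS (t : ℝ) (L : ℕ) : MeasurableSet (srcS t L) :=
  (measurableSet_lt measurable_const measurable_fst).inter ((measurableSet_le measurable_fst
    measurable_const).inter (measurableSet_le measurable_snd.snd measurable_const))

/-- The weighted measure of the first exhaust. -/
def gI1 (b t t₁ : ℝ) (L : ℕ) (α : ℕ → ℝ≥0∞) (g : Src → ℝ≥0∞) : ℝ≥0∞ :=
  ∑' d, ∑' d', α d * α d' * ∫⁻ e : Ph, ∫⁻ σ in Icc (0 : ℝ) t₁, gw b e.2 *
    (srcS t L).indicator g (σ, e, max d d' + 1)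

/-- The sum over the depths of the second exhaust. -/
def hI2 (α h : ℕ → ℝ≥0∞) : ℝ≥0∞ := ∑' n, ∑' n', α n * α n' * h (max n n' + 1)

/-- The sum over the lengths of the branches. -/
def sumL (b t : ℝ) (K : ℝ≥0∞) (α : ℕ → ℝ≥0∞) (q : ℕ) (A B : ℕ → ℝ≥0∞) : ℝ≥0∞ :=
  ∑' i, ∑' i', cLam b t K α q i i' * (2 ^ i * A i * (2 ^ i' * B i'))

/-- Summation of the bounds of all the terms. -/
theorem lamC_sum (hΦ : IsPotential Φ) (hε : ε ≠ 0) (b t : ℝ) (K : ℝ≥0∞) (α : ℕ → ℝ≥0∞)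
    (L q : ℕ) {G : Src × Src → ℝ≥0∞} (hG : Measurable G) {A B h : ℕ → ℝ≥0∞} {I : ℕ → ℝ≥0∞}
    (hb : ∀ i i' d n (o : Fin i → Bool) (o' : Fin i' → Bool),
      muE ε * BrO (b / 2) ε t (outS hΦ hε i o) i d (fun x =>
        BrO (b / 2) ε t (outS hΦ hε i' o') i' n fun y =>
          (joinS ε t L).indicator (fun z => G (z.1.1, z.2.1)) (x, y)) ≤
      A i * B i' * (h n * I d)) :
    ∫⁻ z, G z ∂(lamC hΦ hε b t K α L q) ≤ sumL b t K α q A B * (hI2 α h *
      ∑' d, ∑' d', α d * α d' * I (max d d' + 1)) := by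
  have hF : Measurable fun z : (Src × ℝ × Ph) × (Src × ℝ × Ph) =>
      (joinS ε t L).indicator (fun z => G (z.1.1, z.2.1)) z :=
    (hG.comp (measurable_fst.fst.prodMk measurable_snd.fst)).indicator
      (measurableSet_joinS ε t L)
  rw [lintegral_lamC hΦ hε b t K α L q hG]
  set IS : ℝ≥0∞ := ∑' d, ∑' d', α d * α d' * I (max d d' + 1) with hIS
  have h1 : ∀ i i', muE ε * (Br (b / 2) ε t α (outS hΦ hε) i fun x =>
      Br (b / 2) ε t α (outS hΦ hε) i' fun y =>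
        (joinS ε t L).indicator (fun z => G (z.1.1, z.2.1)) (x, y)) ≤
      2 ^ i * A i * (2 ^ i' * B i') * (hI2 α h * IS) := by
    intro i i'
    rw [Br_Br _ _ _ _ _ _ _ hF]
    -- push `muE` inside
    have e1 : ∀ (n n' : ℕ) (o' : Fin i' → Bool) (d d' : ℕ) (o : Fin i → Bool),
        muE ε * BrO (b / 2) ε t (outS hΦ hε i o) i (max d d' + 1) (fun x =>
          BrO (b / 2) ε t (outS hΦ hε i' o') i' (max n n' + 1) fun y =>
            (joinS ε t L).indicator (fun z => G (z.1.1, z.2.1)) (x, y)) ≤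
        A i * B i' * (h (max n n' + 1) * I (max d d' + 1)) := fun n n' o' d d' o =>
      hb i i' _ _ o o'
    generalize hX : (fun (n n' : ℕ) (o' : Fin i' → Bool) (d d' : ℕ) (o : Fin i → Bool) =>
        BrO (b / 2) ε t (outS hΦ hε i o) i (max d d' + 1) fun x =>
          BrO (b / 2) ε t (outS hΦ hε i' o') i' (max n n' + 1) fun y =>
            (joinS ε t L).indicator (fun z => G (z.1.1, z.2.1)) (x, y)) = X
    have hX' : ∀ (n n' : ℕ) (o' : Fin i' → Bool) (d d' : ℕ) (o : Fin i → Bool),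
        BrO (b / 2) ε t (outS hΦ hε i o) i (max d d' + 1) (fun x =>
          BrO (b / 2) ε t (outS hΦ hε i' o') i' (max n n' + 1) fun y =>
            (joinS ε t L).indicator (fun z => G (z.1.1, z.2.1)) (x, y)) = X n n' o' d d' o := by
      intro n n' o' d d' o
      rw [← hX]
    simp only [hX'] at e1 ⊢
    rw [← ENNReal.tsum_mul_left]
    have e2 : ∀ n n' d d', α n * α n' * ∑ o' : Fin i' → Bool, (α d * α d' *
        ∑ o : Fin i → Bool, (muE ε * X n n' o' d d' o)) ≤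
        α n * α n' * (2 ^ i' * (α d * α d' * (2 ^ i * (A i * B i' *
          (h (max n n' + 1) * I (max d d' + 1)))))) := by
      intro n n' d d'
      refine mul_le_mul' le_rfl ?_
      calc ∑ o' : Fin i' → Bool, (α d * α d' * ∑ o : Fin i → Bool, (muE ε * X n n' o' d d' o))
          ≤ ∑ _o' : Fin i' → Bool, (α d * α d' * ∑ _o : Fin i → Bool, (A i * B i' *
            (h (max n n' + 1) * I (max d d' + 1)))) :=
            Finset.sum_le_sum fun o' _ => mul_le_mul' le_rfl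
              (Finset.sum_le_sum fun o _ => e1 n n' o' d d' o)
        _ = _ := by
            simp only [Finset.sum_const, Finset.card_univ, Fintype.card_fun, Fintype.card_bool,
              Fintype.card_fin, nsmul_eq_mul]
            push_cast
            ring
    calc ∑' n, muE ε * ∑' n', α n * α n' * ∑ o' : Fin i' → Bool, ∑' d, ∑' d', α d * α d' *
          ∑ o : Fin i → Bool, X n n' o' d d' o
        = ∑' n, ∑' n', ∑' d, ∑' d', α n * α n' * ∑ o' : Fin i' → Bool, (α d * α d' *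
            ∑ o : Fin i → Bool, (muE ε * X n n' o' d d' o)) := by
          refine tsum_congr fun n => ?_
          rw [← ENNReal.tsum_mul_left]
          refine tsum_congr fun n' => ?_
          have e3 : ∀ o' : Fin i' → Bool, ∑' d, ∑' d', α d * α d' *
              ∑ o : Fin i → Bool, X n n' o' d d' o = ∑' y : ℕ × ℕ, α y.1 * α y.2 *
              ∑ o : Fin i → Bool, X n n' o' y.1 y.2 o := fun o' => by
            rw [ENNReal.tsum_prod']
          have e4 : ∑' d, ∑' d', α n * α n' * ∑ o' : Fin i' → Bool, (α d * α d' *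
              ∑ o : Fin i → Bool, (muE ε * X n n' o' d d' o)) =
              ∑' y : ℕ × ℕ, α n * α n' * ∑ o' : Fin i' → Bool, (α y.1 * α y.2 *
              ∑ o : Fin i → Bool, (muE ε * X n n' o' y.1 y.2 o)) := by
            rw [ENNReal.tsum_prod']
          simp_rw [e3]
          rw [e4, ← Summable.tsum_finsetSum fun o' _ => ENNReal.summable,
            ← ENNReal.tsum_mul_left, ← ENNReal.tsum_mul_left]
          refine tsum_congr fun y => ?_
          simp_rw [← Finset.mul_sum]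
          ring
      _ ≤ ∑' n, ∑' n', ∑' d, ∑' d', α n * α n' * (2 ^ i' * (α d * α d' * (2 ^ i * (A i * B i' *
          (h (max n n' + 1) * I (max d d' + 1)))))) :=
          ENNReal.tsum_le_tsum fun n => ENNReal.tsum_le_tsum fun n' =>
            ENNReal.tsum_le_tsum fun d => ENNReal.tsum_le_tsum fun d' => e2 n n' d d'
      _ = _ := by
          have e5 : ∀ n n' d d', α n * α n' * (2 ^ i' * (α d * α d' * (2 ^ i * (A i * B i' *
              (h (max n n' + 1) * I (max d d' + 1)))))) =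
              (2 ^ i * A i * (2 ^ i' * B i')) * ((α n * α n' * h (max n n' + 1)) *
                (α d * α d' * I (max d d' + 1))) := fun n n' d d' => by ring
          simp_rw [e5, ENNReal.tsum_mul_left]
          rw [← hIS]
          simp_rw [ENNReal.tsum_mul_right]
          unfold hI2
          rfl
  unfold sumL
  rw [← ENNReal.tsum_mul_right]
  refine ENNReal.tsum_le_tsum fun i => ?_
  rw [← ENNReal.tsum_mul_right]
  refine ENNReal.tsum_le_tsum fun i' => ?_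
  calc muE ε * cLam b t K α q i i' * (Br (b / 2) ε t α (outS hΦ hε) i fun x =>
      Br (b / 2) ε t α (outS hΦ hε) i' fun y =>
        (joinS ε t L).indicator (fun z => G (z.1.1, z.2.1)) (x, y))
      = cLam b t K α q i i' * (muE ε * (Br (b / 2) ε t α (outS hΦ hε) i fun x =>
      Br (b / 2) ε t α (outS hΦ hε) i' fun y =>
        (joinS ε t L).indicator (fun z => G (z.1.1, z.2.1)) (x, y))) := by ring
    _ ≤ _ := mul_le_mul' le_rfl (h1 i i')
    _ = _ := by ring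

/-- **One term of the law of two branches**: the chains started by the second exhaust are in contact
with a family of targets, which depends on the first exhaust. -/
theorem BrO_fam {c₁ t₁ : ℝ} (hε : 0 < ε) (hε1 : ε ≤ 1) (hb : 0 < b) (hδ : 0 < δ) (hc₁ : 0 ≤ c₁)
    (ht : 0 ≤ t) (htt : t ≤ t₁) {H : Src → ℝ} (hH : ∀ e, H e ∈ Icc 0 t₁) {i i' j d n L : ℕ}
    {S₁ S₂ S₃ : ℕ → Step} (F : PathFam ε S₃ j c₁) {ι : Type*} (I : Src → Finset ι)
    (T : ∀ e : Src, ι → Target (H e)) {g : Src → ℝ≥0∞} (hg : ∀ e, g e ≠ ∞)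
    {h : ℕ → ℝ≥0∞} (hh : h n ≠ ∞) {w : ℝ≥0∞} (hw0 : w ≠ ∞)
    (hw : ∀ e ∈ srcS t L, g e ≠ 0 → ∑ k ∈ I e, (T e k).w ε ≤ w) {G : Src × Src → ℝ≥0∞}
    (hG : ∀ e ∈ srcS t L, ∀ m ∈ srcS t L, G (e, m) ≤ h m.2.2 * (g e *
      cR b ε t₁ F (I e) (T e) m.1 m.2.1)) :
    muE ε * BrO b ε t S₁ i d (fun x => BrO b ε t S₂ i' n fun y =>
      (joinS ε t L).indicator (fun z => G (z.1.1, z.2.1)) (x, y)) ≤
      cO b t₁ i * cC ε b c₁ δ t₁ (t₁ + 1) i' j (2 * w) * (h n * ∫⁻ e : Ph,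
        ∫⁻ σ in Icc (0 : ℝ) t₁, gw (b / 2) e.2 * (srcS t L).indicator g (σ, e, d)) := by
  have ht₁ : 0 ≤ t₁ := ht.trans htt
  rw [BrO_BrO b ε t S₁ S₂ i i' d n muE_ne_top]
  have hcase := caseC' (ε := ε) (b := b) (δ := δ) (t := t₁) (h := fun σ e => H (σ, e, d)) hε hε1
    hb hδ hc₁ ht₁ (fun σ e => hH _) (i := i) (n := i') (j := j) (S₁ := S₁) (S₂ := S₂) (S₃ := S₃) F
    (fun σ e => I (σ, e, d)) (fun σ e => T (σ, e, d))
    (g := fun σ e => h n * (srcS t L).indicator g (σ, e, d)) (by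
      intro σ e
      refine ENNReal.mul_ne_top hh ?_
      by_cases hs : (σ, e, d) ∈ srcS t L
      · rw [indicator_of_mem hs]; exact hg _
      · rw [indicator_of_notMem hs]; exact ENNReal.zero_ne_top)
    hw0 (by
      intro σ e hne
      have hs : (σ, e, d) ∈ srcS t L := by
        by_contra hs
        exact hne (by simp only [indicator_of_notMem hs, mul_zero])
      refine hw _ hs fun h0 => hne ?_
      simp only [indicator_of_mem hs, h0, mul_zero])
    (G := fun e β p m β' p' => muE ε * (HD b ε t S₁ i e β p * (HD b ε t S₂ i' m β' p' *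
      (joinS ε t L).indicator (fun z => G (z.1.1, z.2.1))
        (brA ε S₁ i d (e, β, p), brA ε S₂ i' n (m, β', p'))))) (by
      intro e β p m β' p' hne
      have h1 : (e, β, p) ∈ brS ε t S₁ i := by
        by_contra hs
        refine hne ?_
        unfold HD
        rw [indicator_of_notMem hs]
        simp
      have h2 : (m, β', p') ∈ brS ε t S₂ i' := by
        by_contra hs
        refine hne ?_
        have : HD b ε t S₂ i' m β' p' = 0 := indicator_of_notMem hs _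
        rw [this]
        simp
      have h3 : (brA ε S₁ i d (e, β, p), brA ε S₂ i' n (m, β', p')) ∈ joinS ε t L := by
        by_contra hs
        refine hne ?_
        rw [indicator_of_notMem hs]
        simp
      obtain ⟨a1, a2, a3⟩ := h1
      obtain ⟨b1, b2, b3⟩ := h2
      obtain ⟨⟨c1, c2, c3, c4⟩, c5, c6⟩ := id h3
      have he : (exT ε (e, β), e, d) ∈ srcS t L := c5
      have hm : (exT ε (m, β'), m, n) ∈ srcS t L := c6
      refine ⟨⟨a1, ⟨a2.1, a2.2.trans htt⟩, chain_le_time htt i _ _ _ _ a3⟩,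
        ⟨b1, ⟨b2.1, b2.2.trans htt⟩, chain_le_time htt i' _ _ _ _ b3⟩,
        ⟨c1, c3, c4.trans htt⟩, ?_⟩
      rw [indicator_of_mem h3]
      have e1 : HD b ε t S₁ i e β p = gw b e.2 * (muE ε * gw b β.2 * wt b ε i p) :=
        indicator_of_mem (show (e, β, p) ∈ brS ε t S₁ i from ⟨a1, a2, a3⟩) _
      have e2 : HD b ε t S₂ i' m β' p' = gw b m.2 * (muE ε * gw b β'.2 * wt b ε i' p') :=
        indicator_of_mem (show (m, β', p') ∈ brS ε t S₂ i' from ⟨b1, b2, b3⟩) _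
      have e3 := hG _ he _ hm
      rw [e1, e2, indicator_of_mem he]
      change muE ε * (gw b e.2 * (muE ε * gw b β.2 * wt b ε i p) *
        (gw b m.2 * (muE ε * gw b β'.2 * wt b ε i' p') *
          G ((exT ε (e, β), e, d), (exT ε (m, β'), m, n)))) ≤ _
      have e4 : ∀ v : E3, ENNReal.ofReal (Real.exp (-b * ‖v‖ ^ 2)) = gw b v := fun v => rfl
      rw [e4, e4, e4]
      refine (mul_le_mul' le_rfl (mul_le_mul' le_rfl (mul_le_mul' le_rfl e3))).trans (le_of_eq ?_)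
      ring)
  refine hcase.trans (le_of_eq ?_)
  have e5 : ∀ e : Ph, ∫⁻ σ in Icc (0 : ℝ) t₁, gw (b / 2) e.2 *
      (h n * (srcS t L).indicator g (σ, e, d)) =
      h n * ∫⁻ σ in Icc (0 : ℝ) t₁, gw (b / 2) e.2 * (srcS t L).indicator g (σ, e, d) := by
    intro e
    rw [← lintegral_const_mul' _ _ hh]
    refine lintegral_congr fun σ => ?_
    ring
  simp_rw [e5, lintegral_const_mul' _ _ hh]

/-- **The law of two branches**: the chains started by the second exhaust are in contact with a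
family of targets, which depends on the first exhaust. -/
theorem lamC_fam {c₁ t₁ : ℝ} (hΦ : IsPotential Φ) (hε : 0 < ε) (hε1 : ε ≤ 1) (hb : 0 < b)
    (hδ : 0 < δ) (hc₁ : 0 ≤ c₁) (ht : 0 ≤ t) (htt : t ≤ t₁) {K : ℝ≥0∞} {α : ℕ → ℝ≥0∞} {L q : ℕ}
    {H : Src → ℝ} (hH : ∀ e, H e ∈ Icc 0 t₁) {j : ℕ} {S₃ : ℕ → Step} (F : PathFam ε S₃ j c₁)
    {ι : Type*} (I : Src → Finset ι) (T : ∀ e : Src, ι → Target (H e)) {g : Src → ℝ≥0∞}
    (hg : ∀ e, g e ≠ ∞) {h : ℕ → ℝ≥0∞} (hh : ∀ n, h n ≠ ∞) {w : ℝ≥0∞} (hw0 : w ≠ ∞)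
    (hw : ∀ e ∈ srcS t L, g e ≠ 0 → ∑ k ∈ I e, (T e k).w ε ≤ w) {G : Src × Src → ℝ≥0∞}
    (hGm : Measurable G)
    (hG : ∀ e ∈ srcS t L, ∀ m ∈ srcS t L, G (e, m) ≤ h m.2.2 * (g e *
      cR (b / 2) ε t₁ F (I e) (T e) m.1 m.2.1)) :
    ∫⁻ z, G z ∂(lamC hΦ hε.ne' b t K α L q) ≤
      sumL b t K α q (cO (b / 2) t₁) (fun n => cC ε (b / 2) c₁ δ t₁ (t₁ + 1) n j (2 * w)) *
        (hI2 α h * gI1 (b / 4) t t₁ L α g) := by
  refine (lamC_sum hΦ hε.ne' b t K α L q hGm (A := cO (b / 2) t₁)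
    (B := fun n => cC ε (b / 2) c₁ δ t₁ (t₁ + 1) n j (2 * w)) (h := h)
    (I := fun d => ∫⁻ e : Ph, ∫⁻ σ in Icc (0 : ℝ) t₁, gw (b / 2 / 2) e.2 *
      (srcS t L).indicator g (σ, e, d)) fun i i' d n o o' => ?_).trans (le_of_eq ?_)
  · exact BrO_fam hε hε1 (by positivity) hδ hc₁ ht htt hH F I T hg (hh n) hw0 hw hG
  · unfold gI1
    rw [show b / 2 / 2 = b / 4 by ring]

/-! ### The constants -/

/-- `1 / √n!`. -/
def rf (n : ℕ) : ℝ≥0∞ := ENNReal.ofReal (1 / √(n.factorial : ℝ))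

theorem ofReal_rf {x : ℝ} (hx : 0 ≤ x) (n : ℕ) :
    ENNReal.ofReal (x ^ n / √(n.factorial : ℝ)) = ENNReal.ofReal x ^ n * rf n := by
  unfold rf
  rw [← ENNReal.ofReal_pow hx, ← ENNReal.ofReal_mul (pow_nonneg hx n), mul_one_div]

theorem summable_rf (x : ℝ) (hx : 0 ≤ x) :
    Summable fun n : ℕ => x ^ n * (1 / √(n.factorial : ℝ)) := by
  have h1 : Summable fun n : ℕ => (4 * x ^ 2) ^ n / (n.factorial : ℝ) :=
    Real.summable_pow_div_factorial _
  have h2 : Summable fun n : ℕ => (1 / 4 : ℝ) ^ n :=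
    summable_geometric_of_lt_one (by norm_num) (by norm_num)
  refine Summable.of_nonneg_of_le (fun n => by positivity) (fun n => ?_) (h1.add h2)
  have hf : (0 : ℝ) < n.factorial := by exact_mod_cast n.factorial_pos
  set y : ℝ := (2 * x) ^ n / √(n.factorial : ℝ) with hy
  set z : ℝ := (1 / 2 : ℝ) ^ n with hz
  have e1 : x ^ n * (1 / √(n.factorial : ℝ)) = y * z := by
    rw [hy, hz, mul_pow, one_div_pow]
    field_simp
  have e2 : (4 * x ^ 2) ^ n / (n.factorial : ℝ) = y ^ 2 := by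
    rw [hy, div_pow, Real.sq_sqrt hf.le, ← pow_mul, mul_comm n 2, pow_mul]
    congr 1
    ring
  have e3 : (1 / 4 : ℝ) ^ n = z ^ 2 := by
    rw [hz, ← pow_mul, mul_comm n 2, pow_mul]
    norm_num
  rw [e1, e2, e3]
  nlinarith [sq_nonneg (y - z), sq_nonneg y, sq_nonneg z]

/-- The sum of `c ^ n / √n!`. -/
def sf (c : ℝ≥0∞) : ℝ≥0∞ := ∑' n, c ^ n * rf n

theorem sf_ne_top {c : ℝ≥0∞} (hc : c ≠ ∞) : sf c ≠ ∞ := by
  have h1 : ∀ n, c ^ n * rf n = ENNReal.ofReal (c.toReal ^ n * (1 / √(n.factorial : ℝ))) := by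
    intro n
    unfold rf
    rw [ENNReal.ofReal_mul (by positivity), ENNReal.ofReal_pow ENNReal.toReal_nonneg,
      ENNReal.ofReal_toReal hc]
  unfold sf
  simp_rw [h1]
  rw [← ENNReal.ofReal_tsum_of_nonneg (fun n => by positivity)
    (summable_rf _ ENNReal.toReal_nonneg)]
  exact ENNReal.ofReal_ne_top

theorem cTR_ne_top {K : ℝ≥0∞} (hK : K ≠ ∞) (ht : 0 ≤ t) (q : ℕ) : cTR b t K q ≠ ∞ := by
  unfold cTR
  have h1 : ∀ k, cTr b t K q k = ENNReal.ofReal (Cgp (b / 4) q) *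
      ((K * 2 * ENNReal.ofReal (Kc (b / 2) * t)) ^ k * rf k) := by
    intro k
    unfold cTr
    rw [ofReal_rf (mul_nonneg (Kc_nonneg _) ht), mul_pow, mul_pow]
    ring
  simp_rw [h1]
  rw [ENNReal.tsum_mul_left]
  exact ENNReal.mul_ne_top ENNReal.ofReal_ne_top (sf_ne_top (ENNReal.mul_ne_top
    (ENNReal.mul_ne_top hK (by norm_num)) ENNReal.ofReal_ne_top))

/-- The factor of `cC` which depends on the length of the second branch. -/
def nF (b t : ℝ) (n : ℕ) : ℝ≥0∞ :=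
  K1.sig univ * (ENNReal.ofReal t * (ENNReal.ofReal (√2 * (1 + 1 / √b) ^ 2) * cL b 1 1 t n)) +
    (ENNReal.ofReal Real.pi * I0 (b / 2)) * (ENNReal.ofReal (1 + 1 / √b) * cF1 (b / 2) 1 t n)

/-- The factor of `cC` which depends on the length of the chain of the second exhaust. -/
def jF (b c₁ t t' : ℝ) (j : ℕ) : ℝ≥0∞ :=
  cF1 (b / 2) c₁ t' j + ENNReal.ofReal ((Kc b * t) ^ j / √(j.factorial : ℝ))

/-- The small factor. -/
def dF (ε δ : ℝ) (w : ℝ≥0∞) : ℝ≥0∞ :=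
  ENNReal.ofReal (ε ^ 2) * w * ENNReal.ofReal (1 / δ ^ 3) + ENNReal.ofReal δ

theorem cL_delta (hδ : 0 < δ) (b c₁ t : ℝ) (n : ℕ) :
    cL b c₁ δ t n = ENNReal.ofReal (1 / δ ^ 3) * cL b c₁ 1 t n := by
  unfold cL
  have h1 : ENNReal.ofReal ((4 * √((n : ℝ) + 1) / δ) ^ 3) =
      ENNReal.ofReal (1 / δ ^ 3) * ENNReal.ofReal ((4 * √((n : ℝ) + 1) / 1) ^ 3) := by
    rw [← ENNReal.ofReal_mul (by positivity)]
    congr 1
    field_simp
  rw [h1]
  ring

theorem cC_le {c₁ t' : ℝ} (hδ : 0 < δ) (b t : ℝ) (n j : ℕ) (w : ℝ≥0∞) :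
    cC ε b c₁ δ t t' n j w ≤ dF ε δ w * (jF b c₁ t t' j * nF b t n) := by
  unfold cC cC2H cC1 dF jF nF
  rw [cL_delta hδ]
  set A := ENNReal.ofReal (ε ^ 2)
  set D := ENNReal.ofReal (1 / δ ^ 3)
  set F := cF1 (b / 2) c₁ t' j
  set E := ENNReal.ofReal ((Kc b * t) ^ j / √(j.factorial : ℝ))
  set P := K1.sig univ * (ENNReal.ofReal t * (ENNReal.ofReal (√2 * (1 + 1 / √b) ^ 2) *
    cL b 1 1 t n)) with hP
  set Q := (ENNReal.ofReal Real.pi * I0 (b / 2)) *
    (ENNReal.ofReal (1 + 1 / √b) * cF1 (b / 2) 1 t n) with hQ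
  calc A * (K1.sig univ * (ENNReal.ofReal t * (ENNReal.ofReal (√2 * (1 + 1 / √b) ^ 2) *
        (F * (D * cL b 1 1 t n))))) * w + ENNReal.ofReal δ * (E * (ENNReal.ofReal Real.pi *
        I0 (b / 2)) * (ENNReal.ofReal (1 + 1 / √b) * cF1 (b / 2) 1 t n))
      = A * w * D * (F * P) + ENNReal.ofReal δ * (E * Q) := by
        rw [hP, hQ]
        ring
    _ ≤ A * w * D * ((F + E) * (P + Q)) + ENNReal.ofReal δ * ((F + E) * (P + Q)) := by
        gcongr
        · exact le_self_add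
        · exact le_self_add
        · exact le_add_self
        · exact le_add_self
    _ = _ := by ring

theorem cLam_eq (b t : ℝ) (K : ℝ≥0∞) (α : ℕ → ℝ≥0∞) (q i i' : ℕ) : cLam b t K α q i i' =
    cTR b t (K * ∑' n, α n) q * K ^ 4 * ((K * ∑' n, α n) ^ i * (K * ∑' n, α n) ^ i') := by
  unfold cLam
  rw [pow_add]
  ring

theorem sumL_eq (b t : ℝ) (K : ℝ≥0∞) (α : ℕ → ℝ≥0∞) (q : ℕ) (A B : ℕ → ℝ≥0∞) :
    sumL b t K α q A B = cTR b t (K * ∑' n, α n) q * K ^ 4 *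
      ((∑' i, (2 * (K * ∑' n, α n)) ^ i * A i) * ∑' i, (2 * (K * ∑' n, α n)) ^ i * B i) := by
  unfold sumL
  simp_rw [cLam_eq]
  generalize cTR b t (K * ∑' n, α n) q * K ^ 4 = C
  generalize K * ∑' n, α n = X
  have h1 : ∀ i i', C * (X ^ i * X ^ i') * (2 ^ i * A i * (2 ^ i' * B i')) =
      C * (((2 * X) ^ i * A i) * ((2 * X) ^ i' * B i')) := by
    intro i i'
    rw [mul_pow, mul_pow]
    ring
  simp_rw [h1, ENNReal.tsum_mul_left, ENNReal.tsum_mul_right]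

theorem tsum_cO_ne_top (hb : 0 < b) (ht : 0 ≤ t) {c : ℝ≥0∞} (hc : c ≠ ∞) :
    ∑' i, c ^ i * cO b t i ≠ ∞ := by
  have h1 : ∀ i, c ^ i * cO b t i = (K1.sig univ * (ENNReal.ofReal (1 + t) *
      ENNReal.ofReal (1 + 1 / √b) * I0 (b / 2 / 2) * ENNReal.ofReal (1 + 1 / √b))) *
      ((c * ENNReal.ofReal (Kc (b / 2) * t)) ^ i * rf i) := by
    intro i
    unfold cO cM
    rw [ofReal_rf (mul_nonneg (Kc_nonneg _) ht), mul_pow]
    ring
  simp_rw [h1]
  rw [ENNReal.tsum_mul_left]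
  refine ENNReal.mul_ne_top (ENNReal.mul_ne_top (measure_ne_top K1.sig univ) ?_)
    (sf_ne_top (ENNReal.mul_ne_top hc ENNReal.ofReal_ne_top))
  exact ENNReal.mul_ne_top (ENNReal.mul_ne_top (ENNReal.mul_ne_top ENNReal.ofReal_ne_top
    ENNReal.ofReal_ne_top) (I0_ne_top (by positivity))) ENNReal.ofReal_ne_top

theorem tsum_cF1_ne_top {c₁ : ℝ} (ht : 0 ≤ t) {c : ℝ≥0∞} (hc : c ≠ ∞) :
    ∑' i, c ^ i * cF1 b c₁ t i ≠ ∞ := by
  have h1 : ∀ i, c ^ i * cF1 b c₁ t i = (8 * bv * cF b c₁ * ENNReal.ofReal (D2 b)) *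
      ((c * ENNReal.ofReal (Kc (b / 2) * t)) ^ i * rf i) := by
    intro i
    unfold cF1
    rw [ENNReal.ofReal_mul (D2_nonneg b), ofReal_rf (mul_nonneg (Kc_nonneg _) ht), mul_pow]
    ring
  simp_rw [h1]
  rw [ENNReal.tsum_mul_left]
  exact ENNReal.mul_ne_top (ENNReal.mul_ne_top (ENNReal.mul_ne_top (ENNReal.mul_ne_top
    (by norm_num) bv_ne_top) cF_ne_top) ENNReal.ofReal_ne_top)
    (sf_ne_top (ENNReal.mul_ne_top hc ENNReal.ofReal_ne_top))

theorem four_pow_le (n : ℕ) : (4 * √((n : ℝ) + 1) / 1) ^ 3 ≤ 64 * 4 ^ n := by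
  have h0 : (0 : ℝ) ≤ n := Nat.cast_nonneg n
  have h1 : ((n : ℝ) + 1) ≤ 2 ^ n := by
    exact_mod_cast Nat.lt_two_pow_self (n := n)
  have h2 : √((n : ℝ) + 1) ≤ (n : ℝ) + 1 := by
    rw [Real.sqrt_le_left (by positivity)]
    nlinarith
  have h3 : √((n : ℝ) + 1) ^ 3 ≤ ((n : ℝ) + 1) ^ 2 := by
    have h4 : √((n : ℝ) + 1) ^ 2 = (n : ℝ) + 1 := Real.sq_sqrt (by positivity)
    calc √((n : ℝ) + 1) ^ 3 = √((n : ℝ) + 1) ^ 2 * √((n : ℝ) + 1) := by ring
      _ = ((n : ℝ) + 1) * √((n : ℝ) + 1) := by rw [h4]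
      _ ≤ ((n : ℝ) + 1) * ((n : ℝ) + 1) := by gcongr
      _ = _ := by ring
  calc (4 * √((n : ℝ) + 1) / 1) ^ 3 = 64 * √((n : ℝ) + 1) ^ 3 := by ring
    _ ≤ 64 * ((n : ℝ) + 1) ^ 2 := by gcongr
    _ ≤ 64 * (2 ^ n) ^ 2 := by gcongr
    _ = _ := by rw [← pow_mul, mul_comm n 2, pow_mul]; norm_num

theorem tsum_nF_ne_top (hb : 0 < b) (ht : 0 ≤ t) {c : ℝ≥0∞} (hc : c ≠ ∞) :
    ∑' i, c ^ i * nF b t i ≠ ∞ := by
  have h1 : ∀ i, c ^ i * nF b t i ≤ (K1.sig univ * (ENNReal.ofReal t * (ENNReal.ofReal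
      (√2 * (1 + 1 / √b) ^ 2) * (64 * cF (b / 2) 1 * ENNReal.ofReal (D1 (b / 2)))))) *
      ((4 * c * ENNReal.ofReal (Kc (b / 2 / 4) * t)) ^ i * rf i) +
      ((ENNReal.ofReal Real.pi * I0 (b / 2)) * ENNReal.ofReal (1 + 1 / √b)) *
        (c ^ i * cF1 (b / 2) 1 t i) := by
    intro i
    have hD1 : 0 ≤ D1 (b / 2) := D1_nonneg _
    have h2 : cL b 1 1 t i ≤ 64 * cF (b / 2) 1 * ENNReal.ofReal (D1 (b / 2)) *
        ((4 * ENNReal.ofReal (Kc (b / 2 / 4) * t)) ^ i * rf i) := by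
      unfold cL
      have h3 : ENNReal.ofReal ((4 * √((i : ℝ) + 1) / 1) ^ 3) ≤ 64 * 4 ^ i := by
        refine (ENNReal.ofReal_le_ofReal (four_pow_le i)).trans (le_of_eq ?_)
        rw [ENNReal.ofReal_mul (by norm_num), ENNReal.ofReal_pow (by norm_num)]
        norm_num
      rw [ENNReal.ofReal_mul hD1, ofReal_rf (mul_nonneg (Kc_nonneg _) ht), mul_pow]
      calc _ ≤ 64 * 4 ^ i * cF (b / 2) 1 * (ENNReal.ofReal (D1 (b / 2)) *
            (ENNReal.ofReal (Kc (b / 2 / 4) * t) ^ i * rf i)) := by gcongr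
        _ = _ := by ring
    unfold nF
    rw [mul_add]
    refine add_le_add ?_ (le_of_eq (by ring))
    calc c ^ i * (K1.sig univ * (ENNReal.ofReal t * (ENNReal.ofReal
          (√2 * (1 + 1 / √b) ^ 2) * cL b 1 1 t i)))
        ≤ c ^ i * (K1.sig univ * (ENNReal.ofReal t * (ENNReal.ofReal
          (√2 * (1 + 1 / √b) ^ 2) * (64 * cF (b / 2) 1 * ENNReal.ofReal (D1 (b / 2)) *
        ((4 * ENNReal.ofReal (Kc (b / 2 / 4) * t)) ^ i * rf i))))) := by gcongr
      _ = _ := by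
          rw [mul_pow, mul_pow, mul_pow]
          ring
  refine ne_top_of_le_ne_top ?_ (ENNReal.tsum_le_tsum h1)
  rw [ENNReal.tsum_add, ENNReal.tsum_mul_left, ENNReal.tsum_mul_left]
  refine ENNReal.add_ne_top.2 ⟨ENNReal.mul_ne_top ?_ (sf_ne_top ?_), ENNReal.mul_ne_top ?_
    (tsum_cF1_ne_top ht hc)⟩
  · exact ENNReal.mul_ne_top (measure_ne_top K1.sig univ) (ENNReal.mul_ne_top
      ENNReal.ofReal_ne_top (ENNReal.mul_ne_top ENNReal.ofReal_ne_top (ENNReal.mul_ne_top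
        (ENNReal.mul_ne_top (by norm_num) cF_ne_top) ENNReal.ofReal_ne_top)))
  · exact ENNReal.mul_ne_top (ENNReal.mul_ne_top (by norm_num) hc) ENNReal.ofReal_ne_top
  · exact ENNReal.mul_ne_top (ENNReal.mul_ne_top ENNReal.ofReal_ne_top
      (I0_ne_top (by positivity))) ENNReal.ofReal_ne_top

theorem tsum_jF_ne_top {c₁ t' : ℝ} (ht : 0 ≤ t) (ht' : 0 ≤ t') {c : ℝ≥0∞} (hc : c ≠ ∞) :
    ∑' j, c ^ j * jF b c₁ t t' j ≠ ∞ := by
  unfold jF
  simp_rw [mul_add]
  rw [ENNReal.tsum_add]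
  refine ENNReal.add_ne_top.2 ⟨tsum_cF1_ne_top ht' hc, ?_⟩
  have h1 : ∀ j, c ^ j * ENNReal.ofReal ((Kc b * t) ^ j / √(j.factorial : ℝ)) =
      (c * ENNReal.ofReal (Kc b * t)) ^ j * rf j := by
    intro j
    rw [ofReal_rf (mul_nonneg (Kc_nonneg _) ht), mul_pow]
    ring
  simp_rw [h1]
  exact sf_ne_top (ENNReal.mul_ne_top hc ENNReal.ofReal_ne_top)

/-- The constant of the law of two branches. -/
def cBr (b t t₁ : ℝ) (K : ℝ≥0∞) (α : ℕ → ℝ≥0∞) (q : ℕ) : ℝ≥0∞ :=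
  sumL b t K α q (cO (b / 2) t₁) (nF (b / 2) t₁)

theorem cBr_ne_top (hb : 0 < b) (ht : 0 ≤ t) {t₁ : ℝ} (ht₁ : 0 ≤ t₁) {K : ℝ≥0∞} (hK : K ≠ ∞)
    {α : ℕ → ℝ≥0∞} (hα : ∑' n, α n ≠ ∞) (q : ℕ) : cBr b t t₁ K α q ≠ ∞ := by
  unfold cBr
  rw [sumL_eq]
  have hX : 2 * (K * ∑' n, α n) ≠ ∞ := ENNReal.mul_ne_top (by norm_num) (ENNReal.mul_ne_top hK hα)
  refine ENNReal.mul_ne_top (ENNReal.mul_ne_top (cTR_ne_top (ENNReal.mul_ne_top hK hα) ht q)
    (ENNReal.pow_ne_top hK)) (ENNReal.mul_ne_top ?_ ?_)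
  · exact tsum_cO_ne_top (by positivity) ht₁ hX
  · exact tsum_nF_ne_top (by positivity) ht₁ hX

end Vale.Agent.P119.FL
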