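import Vale.Agent.P119.FL.OneLine

/-!
# P119: the paths after the last hit (`helper690`)
-/

open MeasureTheory Set Filter Topology Metric ProbabilityTheory
open scoped ENNReal

namespace Vale.Agent.P119.FL

open KU

/-- Lower bound of a potential at its regular points. -/
theorem exists_lower {Φ : E3 → ℝ} (hΦ : IsPotential Φ) :
    ∃ m : ℝ, 0 ≤ m ∧ ∀ x, Adm Φ x → -m ≤ Φ x := by
  obtain ⟨m, hm, h⟩ := hΦ.bddBelow
  refine ⟨m, hm, fun x hx => ?_⟩
  by_cases hx0 : x = 0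
  · subst hx0
    have hs : ContDiff ℝ 2 Φ := hx.resolve_right (fun h => h rfl)
    have hc : ContinuousAt Φ 0 := hs.continuous.continuousAt
    have h1 : ∀ᶠ y in 𝓝[≠] (0 : E3), -m ≤ Φ y := by
      filter_upwards [self_mem_nhdsWithin] with y hy using h y hy
    exact ge_of_tendsto (hc.tendsto.mono_left nhdsWithin_le_nhds) h1
  · exact h x hx0

/-- The lower bound of the potential, as a number. -/
noncomputable def low {Φ : E3 → ℝ} (hΦ : IsPotential Φ) : ℝ := (exists_lower hΦ).choose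

theorem low_nonneg {Φ : E3 → ℝ} (hΦ : IsPotential Φ) : 0 ≤ low hΦ :=
  (exists_lower hΦ).choose_spec.1

theorem low_le {Φ : E3 → ℝ} (hΦ : IsPotential Φ) {x : E3} (hx : Adm Φ x) : -low hΦ ≤ Φ x :=
  (exists_lower hΦ).choose_spec.2 x hx

section pair

variable {Φ : E3 → ℝ} {ε : ℝ}

theorem continuous_traj_snd (hΦ : IsPotential Φ) (p : Ph) : Continuous fun t => (traj Φ p t).2 :=
  (continuous_traj hΦ p).snd

theorem hasDerivAt_traj_fst (hΦ : IsPotential Φ) {p : Ph} (hp : p.2 ≠ 0) (t : ℝ) :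
    HasDerivAt (fun s => (traj Φ p s).1) (traj Φ p t).2 t :=
  (traj_isRed hΦ hp t).fst

theorem norm_traj_snd_le (hΦ : IsPotential Φ) {p : Ph} (hp : p.2 ≠ 0) (t : ℝ) :
    ‖(traj Φ p t).2‖ ≤ ‖p.2‖ + 2 * √(low hΦ) := by
  have h1 := en_traj hΦ hp t
  have h2 := low_le hΦ (adm_traj hΦ hp t)
  have h3 := low_nonneg hΦ
  unfold en at h1
  have h4 : ‖(traj Φ p t).2‖ ^ 2 ≤ (‖p.2‖ + 2 * √(low hΦ)) ^ 2 := by
    have h5 : √(low hΦ) ^ 2 = low hΦ := Real.sq_sqrt h3
    nlinarith [mul_nonneg (norm_nonneg p.2) (Real.sqrt_nonneg (low hΦ))]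
  exact abs_le_of_sq_le_sq' h4 (by positivity) |>.2

theorem pos_pairLine1 (q : Ph × Ph) (t : ℝ) : (pairLine Φ ε q t).1.1 =
    (com q).1 + t • (com q).2 + (2 : ℝ)⁻¹ • (ε • (traj Φ (rel ε q) (t / ε)).1) := rfl

theorem pos_pairLine2 (q : Ph × Ph) (t : ℝ) : (pairLine Φ ε q t).2.1 =
    (com q).1 + t • (com q).2 - (2 : ℝ)⁻¹ • (ε • (traj Φ (rel ε q) (t / ε)).1) := rfl

theorem hasDerivAt_pair_rel (hΦ : IsPotential Φ) (hε : ε ≠ 0) {q : Ph × Ph}
    (hv : q.1.2 - q.2.2 ≠ 0) (t : ℝ) :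
    HasDerivAt (fun t => (2 : ℝ)⁻¹ • (ε • (traj Φ (rel ε q) (t / ε)).1))
      ((2 : ℝ)⁻¹ • (traj Φ (rel ε q) (t / ε)).2) t := by
  have h1 := hasDerivAt_traj_fst hΦ (p := rel ε q) hv (t / ε)
  have h2 := HasDerivAt.scomp t h1 ((hasDerivAt_id t).div_const ε)
  have h3 := (h2.const_smul ε).const_smul (2 : ℝ)⁻¹
  have e : (2 : ℝ)⁻¹ • ε • ((1 / ε) • (traj Φ (rel ε q) (t / ε)).2) =
      (2 : ℝ)⁻¹ • (traj Φ (rel ε q) (t / ε)).2 := by
    rw [smul_smul ε, one_div, mul_inv_cancel₀ hε, one_smul]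
  rw [← e]
  exact h3

theorem hasDerivAt_com (q : Ph × Ph) (t : ℝ) :
    HasDerivAt (fun t : ℝ => (com q).1 + t • (com q).2) (com q).2 t := by
  have := ((hasDerivAt_id t).smul_const (com q).2).const_add (com q).1
  simpa using this

theorem hasDerivAt_pairLine1 (hΦ : IsPotential Φ) (hε : ε ≠ 0) {q : Ph × Ph}
    (hv : q.1.2 - q.2.2 ≠ 0) (t : ℝ) :
    HasDerivAt (fun t => (pairLine Φ ε q t).1.1)
      ((com q).2 + (2 : ℝ)⁻¹ • (traj Φ (rel ε q) (t / ε)).2) t := by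
  simp only [pos_pairLine1]
  exact (hasDerivAt_com q t).add (hasDerivAt_pair_rel hΦ hε hv t)

theorem hasDerivAt_pairLine2 (hΦ : IsPotential Φ) (hε : ε ≠ 0) {q : Ph × Ph}
    (hv : q.1.2 - q.2.2 ≠ 0) (t : ℝ) :
    HasDerivAt (fun t => (pairLine Φ ε q t).2.1)
      ((com q).2 - (2 : ℝ)⁻¹ • (traj Φ (rel ε q) (t / ε)).2) t := by
  simp only [pos_pairLine2]
  exact (hasDerivAt_com q t).sub (hasDerivAt_pair_rel hΦ hε hv t)

/-- The constant of the speed bounds. -/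
noncomputable def cS (hΦ : IsPotential Φ) : ℝ := 2 + √(low hΦ)

theorem cS_nonneg (hΦ : IsPotential Φ) : 0 ≤ cS hΦ := by unfold cS; positivity

theorem speed_aux (hΦ : IsPotential Φ) {q : Ph × Ph} (hv : q.1.2 - q.2.2 ≠ 0) (t : ℝ) {E : ℝ}
    (hE : ‖q.1.2‖ ^ 2 + ‖q.2.2‖ ^ 2 ≤ E) :
    ‖(com q).2‖ + ‖(2 : ℝ)⁻¹ • (traj Φ (rel ε q) t).2‖ ≤ cS hΦ * (1 + √E) := by
  have h1 := norm_traj_snd_le hΦ (p := rel ε q) hv t
  have hE0 : 0 ≤ E := le_trans (by positivity) hE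
  have hsE : 0 ≤ √E := Real.sqrt_nonneg _
  have a1 : ‖q.1.2‖ ≤ √E := Real.le_sqrt_of_sq_le (by nlinarith [sq_nonneg ‖q.2.2‖])
  have a2 : ‖q.2.2‖ ≤ √E := Real.le_sqrt_of_sq_le (by nlinarith [sq_nonneg ‖q.1.2‖])
  have h2 : ‖(com q).2‖ ≤ √E := by
    have : ‖(com q).2‖ ≤ 2⁻¹ * (‖q.1.2‖ + ‖q.2.2‖) := by
      unfold com
      rw [norm_smul, Real.norm_eq_abs, abs_of_pos (by norm_num : (0:ℝ) < 2⁻¹)]
      gcongr
      exact norm_add_le _ _
    linarith
  have h3 : ‖(rel ε q).2‖ ≤ 2 * √E := by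
    have : ‖(rel ε q).2‖ ≤ ‖q.1.2‖ + ‖q.2.2‖ := norm_sub_le _ _
    linarith
  rw [norm_smul, Real.norm_eq_abs, abs_of_pos (by norm_num : (0:ℝ) < 2⁻¹)]
  have hl : 0 ≤ √(low hΦ) := Real.sqrt_nonneg _
  unfold cS
  nlinarith

theorem speedOn_pairLine1 (hΦ : IsPotential Φ) (hε : ε ≠ 0) {q : Ph × Ph}
    (hv : q.1.2 - q.2.2 ≠ 0) {E : ℝ} (hE : ‖q.1.2‖ ^ 2 + ‖q.2.2‖ ^ 2 ≤ E) (a t : ℝ) :
    SpeedOn (fun t => (pairLine Φ ε q t).1.1) (fun _ => ENNReal.ofReal (cS hΦ * (1 + √E))) a t := by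
  have hc0 : Continuous fun t => (traj Φ (rel ε q) (t / ε)).2 :=
    (continuous_traj_snd hΦ (rel ε q)).comp (continuous_id.div_const ε)
  have hc : Continuous fun t => (com q).2 + (2 : ℝ)⁻¹ • (traj Φ (rel ε q) (t / ε)).2 := by
    fun_prop
  refine (speedOn_of_hasDerivAt (hasDerivAt_pairLine1 hΦ hε hv) hc a t).mono le_rfl le_rfl ?_
  intro τ _
  apply ENNReal.ofReal_le_ofReal
  exact (norm_add_le _ _).trans (speed_aux hΦ hv _ hE)

theorem speedOn_pairLine2 (hΦ : IsPotential Φ) (hε : ε ≠ 0) {q : Ph × Ph}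
    (hv : q.1.2 - q.2.2 ≠ 0) {E : ℝ} (hE : ‖q.1.2‖ ^ 2 + ‖q.2.2‖ ^ 2 ≤ E) (a t : ℝ) :
    SpeedOn (fun t => (pairLine Φ ε q t).2.1) (fun _ => ENNReal.ofReal (cS hΦ * (1 + √E))) a t := by
  have hc0 : Continuous fun t => (traj Φ (rel ε q) (t / ε)).2 :=
    (continuous_traj_snd hΦ (rel ε q)).comp (continuous_id.div_const ε)
  have hc : Continuous fun t => (com q).2 - (2 : ℝ)⁻¹ • (traj Φ (rel ε q) (t / ε)).2 := by
    fun_prop
  refine (speedOn_of_hasDerivAt (hasDerivAt_pairLine2 hΦ hε hv) hc a t).mono le_rfl le_rfl ?_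
  intro τ _
  apply ENNReal.ofReal_le_ofReal
  exact (norm_sub_le _ _).trans (speed_aux hΦ hv _ hE)

end pair

/-! ### Energies along a chain -/

theorem line_energy (m : ℕ) : ∀ (S : ℕ → Step) (l : Ph) (p : Fin m → Ph),
    ‖(line S m l p).2‖ ^ 2 ≤ ‖l.2‖ ^ 2 + ∑ i, ‖(p i).2‖ ^ 2 := by
  induction m with
  | zero => intro S l p; simp [line]
  | succ m ih =>
    intro S l p
    have h1 := ih (fun n => S (n + 1)) ((S 0).f (l, p 0)) (fun i => p i.succ)
    have h2 := (S 0).energy (l, p 0)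
    rw [Fin.sum_univ_succ]
    simp only [line]
    simp only at h2
    linarith

theorem lastPair_energy (m : ℕ) : ∀ (S : ℕ → Step) (l : Ph) (p : Fin (m + 1) → Ph),
    ‖(lastPair S m l p).1.2‖ ^ 2 + ‖(lastPair S m l p).2.2‖ ^ 2 ≤
      ‖l.2‖ ^ 2 + ∑ i, ‖(p i).2‖ ^ 2 := by
  induction m with
  | zero => intro S l p; simp [lastPair]
  | succ m ih =>
    intro S l p
    have h1 := ih (fun n => S (n + 1)) ((S 0).f (l, p 0)) (fun i => p i.succ)
    have h2 := (S 0).energy (l, p 0)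
    rw [Fin.sum_univ_succ]
    simp only [lastPair]
    simp only at h2
    linarith

theorem meets_lastPair {ε t : ℝ} (m : ℕ) : ∀ (S : ℕ → Step) (s : ℝ) (l : Ph)
    (p : Fin (m + 1) → Ph), Chain ε t S (m + 1) s l p → Meets ε (lastPair S m l p) := by
  induction m with
  | zero => intro S s l p h; exact h.1
  | succ m ih => intro S s l p h; exact ih _ _ _ _ h.2.2.2

theorem time_lastPair {ε : ℝ} (m : ℕ) : ∀ (S : ℕ → Step) (s : ℝ) (l : Ph)
    (p : Fin (m + 1) → Ph), time ε S (m + 1) s l p = hitT ε (lastPair S m l p) := by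
  induction m with
  | zero => intro S s l p; rfl
  | succ m ih =>
    intro S s l p
    exact ih (fun n => S (n + 1)) (hitT ε (l, p 0)) ((S 0).f (l, p 0)) (fun i => p i.succ)

/-! ### The paths -/

/-- The last line itself, as a straight path. -/
noncomputable def linePath (ε t : ℝ) (S : ℕ → Step) (m : ℕ) : ChainPath ε t S m 1 where
  X l p τ := (line S m l p).1 + τ • (line S m l p).2
  boost c l p τ := by
    rw [line_boost]
    unfold KU.boost
    module
  cont s l p _ := by fun_prop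
  speed s l p _ := by
    have h1 := speedOn_lin (line S m l p).2 (line S m l p).1 0 (time ε S m s l p) t
    simp only [sub_zero] at h1
    refine h1.mono le_rfl le_rfl fun τ _ => ?_
    apply ENNReal.ofReal_le_ofReal
    rw [one_mul]
    have h2 := line_energy m S l p
    have h3 : ‖(line S m l p).2‖ ≤ √(‖l.2‖ ^ 2 + ∑ i, ‖(p i).2‖ ^ 2) := Real.le_sqrt_of_sq_le h2
    linarith

/-- The interacting path of the particle which hits, after the last hit. -/
noncomputable def pairPath1 {Φ : E3 → ℝ} (hΦ : IsPotential Φ) {ε : ℝ} (hε : ε ≠ 0) (t : ℝ)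
    (S : ℕ → Step) (m : ℕ) : ChainPath ε t S (m + 1) (cS hΦ) where
  X l p τ := (pairLine Φ ε (lastPair S m l p) τ).1.1
  boost c l p τ := by
    rw [lastPair_boost, pairLine_boost]
    rfl
  cont s l p h := by
    have hv := (meets_lastPair m S s l p h).1
    exact fun τ _ => (hasDerivAt_pairLine1 hΦ hε hv τ).continuousAt.continuousWithinAt
  speed s l p h := by
    have hv := (meets_lastPair m S s l p h).1
    exact speedOn_pairLine1 hΦ hε hv (lastPair_energy m S l p) _ _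

/-- The interacting path of the partner, after the last hit. -/
noncomputable def pairPath2 {Φ : E3 → ℝ} (hΦ : IsPotential Φ) {ε : ℝ} (hε : ε ≠ 0) (t : ℝ)
    (S : ℕ → Step) (m : ℕ) : ChainPath ε t S (m + 1) (cS hΦ) where
  X l p τ := (pairLine Φ ε (lastPair S m l p) τ).2.1
  boost c l p τ := by
    rw [lastPair_boost, pairLine_boost]
    rfl
  cont s l p h := by
    have hv := (meets_lastPair m S s l p h).1
    exact fun τ _ => (hasDerivAt_pairLine2 hΦ hε hv τ).continuousAt.continuousWithinAt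
  speed s l p h := by
    have hv := (meets_lastPair m S s l p h).1
    exact speedOn_pairLine2 hΦ hε hv (lastPair_energy m S l p) _ _

/-- The old line of the last partner. -/
noncomputable def oldPath (ε t : ℝ) (S : ℕ → Step) (m : ℕ) : ChainPath ε t S (m + 1) 1 where
  X l p τ := (lastPair S m l p).2.1 + τ • (lastPair S m l p).2.2
  boost c l p τ := by
    rw [lastPair_boost]
    unfold KU.boost
    module
  cont s l p _ := by fun_prop
  speed s l p _ := by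
    have h1 := speedOn_lin (lastPair S m l p).2.2 (lastPair S m l p).2.1 0
      (time ε S (m + 1) s l p) t
    simp only [sub_zero] at h1
    refine h1.mono le_rfl le_rfl fun τ _ => ?_
    apply ENNReal.ofReal_le_ofReal
    rw [one_mul]
    have h2 := lastPair_energy m S l p
    have h3 : ‖(lastPair S m l p).2.2‖ ≤ √(‖l.2‖ ^ 2 + ∑ i, ‖(p i).2‖ ^ 2) := by
      apply Real.le_sqrt_of_sq_le
      linarith [sq_nonneg ‖(lastPair S m l p).1.2‖]
    linarith

end Vale.Agent.P119.FL
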