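import Vale.Agent.P119.FL.Front
import Vale.Agent.P119.EN.GhostVel
import Vale.Agent.P119.RB.Birth3

/-!
# P119: the exposed particles as targets (`helper690`)

* `rightTarget`: a path with a continuous right derivative;
* `bwTarget`: the path of a particle of the real world with births;
* `sum_w_le`: the total size of a family of targets;
* `Expo.mem_iff`: `c` is exposed at the time `t` iff `tau c ≤ t`.
-/

open MeasureTheory Set Filter Topology Metric ProbabilityTheory
open scoped ENNReal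

namespace Vale.Agent.P119.FL

open KU

/-- A path with a continuous right derivative has its speed as speed bound. -/
theorem speedOn_of_right {Z Z' : ℝ → E3} (hZ : Continuous Z)
    (h : ∀ t, HasDerivWithinAt Z (Z' t) (Ici t) t) (hc : Continuous Z') (a t : ℝ) :
    SpeedOn Z (fun τ => ‖Z' τ‖ₑ) a t := by
  intro s _ s' _ hss
  have h1 : ∫ τ in s..s', Z' τ = Z s' - Z s := by
    refine intervalIntegral.integral_eq_sub_of_hasDeriv_right hZ.continuousOn (fun τ _ => ?_)
      (hc.intervalIntegrable _ _)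
    exact (h τ).mono Ioi_subset_Ici_self
  rw [← h1, intervalIntegral.integral_of_le hss, ← integral_Icc_eq_integral_Ioc]
  have h2 : ‖∫ τ in Icc s s', Z' τ‖ ≤ ∫ τ in Icc s s', ‖Z' τ‖ := norm_integral_le_integral_norm _
  refine (ENNReal.ofReal_le_ofReal h2).trans ?_
  rw [ofReal_integral_eq_lintegral_ofReal]
  · exact (lintegral_congr fun τ => ofReal_norm _).le
  · exact (hc.norm.continuousOn).integrableOn_Icc
  · exact Eventually.of_forall fun τ => norm_nonneg _

/-- A path with a continuous right derivative, as a target. -/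
noncomputable def rightTarget {Z Z' : ℝ → E3} (hZ : Continuous Z)
    (h : ∀ t, HasDerivWithinAt Z (Z' t) (Ici t) t) (hc : Continuous Z') (t a : ℝ) : Target t where
  Y := Z
  a := a
  y' τ := ‖Z' τ‖ₑ
  cont := hZ.continuousOn
  speed := speedOn_of_right hZ h hc a t
  meas := hc.enorm.aemeasurable

section bw

variable {α : Type*} {Ψ : E3 → ℝ} {ε : ℝ} {β : α → ℝ} {ℓ : α → Ph} {W : Finset α}
  {x : ℝ → α → Ph}

/-- The position of a particle of the real world with births, as a target. -/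
noncomputable def bwTarget (hx : RB.IsBW Ψ ε β ℓ W x) {c : α} (hc : c ∈ W) (t a : ℝ) : Target t :=
  rightTarget (Z := fun s => (x s c).1) (Z' := fun s => (x s c).2) (hx.cont c).fst
    (fun s => hx.hasDeriv_pos hc s) (hx.cont c).snd t a

theorem bwTarget_Y (hx : RB.IsBW Ψ ε β ℓ W x) {c : α} (hc : c ∈ W) (t a : ℝ) :
    (bwTarget hx hc t a).Y = fun s => (x s c).1 := rfl

theorem bwTarget_a (hx : RB.IsBW Ψ ε β ℓ W x) {c : α} (hc : c ∈ W) (t a : ℝ) :
    (bwTarget hx hc t a).a = a := rfl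

theorem bwTarget_y' (hx : RB.IsBW Ψ ε β ℓ W x) {c : α} (hc : c ∈ W) (t a : ℝ) :
    (bwTarget hx hc t a).y' = fun s => ‖(x s c).2‖ₑ := rfl

end bw

/-- **The total size of a family of targets.** -/
theorem sum_w_le {ι : Type*} {t ε : ℝ} (I : Finset ι) (T : ι → Target t) (B : ℝ → Finset ι)
    (h0 : ∀ i ∈ I, 0 ≤ (T i).a) (hB : ∀ i ∈ I, ∀ s, (T i).a ≤ s → s ≤ t → i ∈ B s) :
    ∑ i ∈ I, (T i).w ε ≤ I.card * ENNReal.ofReal ε +
      ∫⁻ s in Icc 0 t, ∑ i ∈ B s, (1 + (T i).y' s) := by
  have h1 : ∀ i ∈ I, ∫⁻ τ in Icc (T i).a t, (1 + (T i).y' τ) =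
      ∫⁻ τ in Icc 0 t, (Icc (T i).a t).indicator (fun τ => 1 + (T i).y' τ) τ := by
    intro i hi
    have hsub : Icc (T i).a t ⊆ Icc 0 t := Icc_subset_Icc_left (h0 i hi)
    rw [lintegral_indicator measurableSet_Icc, Measure.restrict_restrict measurableSet_Icc,
      inter_eq_left.2 hsub]
  have h2 : ∀ i ∈ I, AEMeasurable ((Icc (T i).a t).indicator fun τ => 1 + (T i).y' τ)
      (volume.restrict (Icc 0 t)) := by
    intro i hi
    rw [aemeasurable_indicator_iff measurableSet_Icc, Measure.restrict_restrict measurableSet_Icc,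
      inter_eq_left.2 (Icc_subset_Icc_left (h0 i hi))]
    exact aemeasurable_const.add (T i).meas
  calc ∑ i ∈ I, (T i).w ε
      = ∑ _i ∈ I, ENNReal.ofReal ε + ∑ i ∈ I, ∫⁻ τ in Icc (T i).a t, (1 + (T i).y' τ) := by
        rw [← Finset.sum_add_distrib]; rfl
    _ = I.card * ENNReal.ofReal ε + ∫⁻ s in Icc 0 t, ∑ i ∈ I,
          (Icc (T i).a t).indicator (fun τ => 1 + (T i).y' τ) s := by
        rw [Finset.sum_const, nsmul_eq_mul, Finset.sum_congr rfl h1, lintegral_finsetSum' _ h2]
    _ ≤ _ := by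
        refine add_le_add le_rfl (setLIntegral_mono' measurableSet_Icc fun s hs => ?_)
        classical
        calc ∑ i ∈ I, (Icc (T i).a t).indicator (fun τ => 1 + (T i).y' τ) s
            = ∑ i ∈ I.filter (fun i => s ∈ Icc (T i).a t), (1 + (T i).y' s) := by
              rw [Finset.sum_filter]
              refine Finset.sum_congr rfl fun i _ => ?_
              rw [indicator_apply]
          _ ≤ _ := by
              refine Finset.sum_le_sum_of_subset fun i hi => ?_
              obtain ⟨h3, h4⟩ := Finset.mem_filter.1 hi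
              exact hB i h3 s h4.1 h4.2

/-! ### Exposure times -/

section expo

open EN M

variable {Φ : E3 → ℝ} {ε : ℝ} {L : ℕ} {W : Finset Src} {A : ℝ → Finset Src}

theorem bddBelow_expo (h : Expo Φ ε L W A) (c : Src) : BddBelow {t | c ∈ A t} :=
  ⟨c.1, fun t ht => h.born t c ht⟩

theorem tau_le (h : Expo Φ ε L W A) {c : Src} {t : ℝ} (hc : c ∈ A t) : tau A c ≤ t :=
  csInf_le (bddBelow_expo h c) hc

theorem born_le_tau (h : Expo Φ ε L W A) {c : Src} {t : ℝ} (hc : c ∈ A t) : c.1 ≤ tau A c :=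
  le_csInf ⟨t, hc⟩ fun s hs => h.born s c hs

/-- The first exposed time is attained. -/
theorem mem_tau (h : Expo Φ ε L W A) {c : Src} {t : ℝ} (hc : c ∈ A t) : c ∈ A (tau A c) := by
  obtain ⟨u, hu, h1⟩ := mem_nhdsGT_iff_exists_Ioo_subset.1 (h.right (tau A c))
  obtain ⟨s, hs, hlt⟩ := exists_lt_of_csInf_lt (s := {t | c ∈ A t}) ⟨t, hc⟩
    (show sInf {t | c ∈ A t} < u from hu)
  rcases (show tau A c ≤ s from csInf_le (bddBelow_expo h c) hs).lt_or_eq with h2 | h2
  · have h3 : A s = A (tau A c) := h1 ⟨h2, hlt⟩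
    rw [← h3]
    exact hs
  · rw [h2]
    exact hs

theorem mem_of_tau_le (h : Expo Φ ε L W A) {c : Src} {s t : ℝ} (hc : c ∈ A t)
    (hs : tau A c ≤ s) : c ∈ A s := h.mono _ _ hs (mem_tau h hc)

theorem tau_nonneg (h : Expo Φ ε L W A) {c : Src} {t : ℝ} (hc : c ∈ A t) : 0 ≤ tau A c :=
  (h.nonneg c (h.sub t hc)).trans (born_le_tau h hc)

/-- **The total size of the family of the targets of the exposed labels.** -/
theorem sum_expo_le (h : Expo Φ ε L W A) {t : ℝ} (T : Src → Target t)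
    (ha : ∀ c ∈ A t, tau A c ≤ (T c).a) {D : ℝ → ℝ≥0∞}
    (hD : ∀ s ∈ Icc 0 t, ∑ c ∈ A s, (1 + (T c).y' s) ≤ D s) :
    ∑ c ∈ A t, (T c).w ε ≤ (A t).card * ENNReal.ofReal ε + ∫⁻ s in Icc 0 t, D s := by
  refine (sum_w_le (A t) T A (fun c hc => (tau_nonneg h hc).trans (ha c hc))
    fun c hc s h1 _ => mem_of_tau_le h hc ((ha c hc).trans h1)).trans ?_
  exact add_le_add le_rfl (setLIntegral_mono' measurableSet_Icc fun s hs => hD s hs)

end expo

end Vale.Agent.P119.FL
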