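import Vale.Agent.P119.FL.Front
import Vale.Agent.P119.PB.SE1

/-!
# P119: families of targets with a horizon (`helper690`)

The horizon `h` of the targets (for instance a stopping time) is not the final time of the chains, and
hits at the horizon are allowed.  No measurability of the integrand is needed.

* `first_flux_H`: chains started by a free line;
* `sister_aux_H`: chains of the sister of a given line, for a fixed exit time.
-/

open MeasureTheory Set Filter Topology Metric ProbabilityTheory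
open scoped ENNReal

namespace Vale.Agent.P119.FL

open KU

/-- A chain up to `t` whose last hit is before `t'` is a chain up to `t'`. -/
theorem chain_of_time_lt {ε t t' : ℝ} (m : ℕ) : ∀ (S : ℕ → Step) (s : ℝ) (l : Ph)
    (p : Fin m → Ph), Chain ε t S m s l p → time ε S m s l p < t' → Chain ε t' S m s l p := by
  induction m with
  | zero => intro S s l p _ _; trivial
  | succ m ih =>
    intro S s l p h h'
    have h1 := ih _ _ _ _ h.2.2.2 h'
    refine ⟨h.1, h.2.1, ?_, h1⟩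
    -- the first hit is before the last one
    have key : ∀ (m : ℕ) (S : ℕ → Step) (s : ℝ) (l : Ph) (p : Fin m → Ph),
        Chain ε t S m s l p → s ≤ time ε S m s l p := by
      intro m
      induction m with
      | zero => intro S s l p _; exact le_rfl
      | succ m ih =>
        intro S s l p h
        exact h.2.1.le.trans (ih _ _ _ _ h.2.2.2)
    exact (key m _ _ _ _ h.2.2.2).trans_lt h'

theorem le_time {ε t : ℝ} (m : ℕ) : ∀ (S : ℕ → Step) (s : ℝ) (l : Ph) (p : Fin m → Ph),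
    Chain ε t S m s l p → s ≤ time ε S m s l p := by
  induction m with
  | zero => intro S s l p _; exact le_rfl
  | succ m ih =>
    intro S s l p h
    exact h.2.1.le.trans (ih _ _ _ _ h.2.2.2)

/-- The extension of a target after its horizon, by a constant path. -/
noncomputable def Target.extend {h : ℝ} (T : Target h) (t : ℝ) : Target t where
  Y s := T.Y (max T.a (min s h))
  a := T.a
  y' := (Icc T.a h).indicator T.y'
  cont := by
    rcases le_or_gt T.a h with hah | hah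
    · have h1 : Continuous fun s : ℝ => max T.a (min s h) := by fun_prop
      exact (T.cont.comp_continuous h1 fun s =>
        ⟨le_max_left _ _, max_le hah (min_le_right _ _)⟩).continuousOn
    · have h1 : ∀ s, max T.a (min s h) = T.a := fun s =>
        max_eq_left ((min_le_right s h).trans hah.le)
      simp only [h1]
      exact continuousOn_const
  speed := by
    intro s hs s' hs' hss
    change ENNReal.ofReal ‖T.Y (max T.a (min s' h)) - T.Y (max T.a (min s h))‖ ≤ _
    rcases le_or_gt T.a h with hah | hah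
    swap
    · rw [max_eq_left ((min_le_right s h).trans hah.le),
        max_eq_left ((min_le_right s' h).trans hah.le), sub_self, norm_zero, ENNReal.ofReal_zero]
      exact zero_le
    have e1 : max T.a (min s h) = min s h := max_eq_right (le_min hs.1 hah)
    have e2 : max T.a (min s' h) = min s' h := max_eq_right (le_min hs'.1 hah)
    have h3 := T.speed (min s h) ⟨le_min hs.1 hah, min_le_right _ _⟩ (min s' h)
      ⟨le_min hs'.1 hah, min_le_right _ _⟩ (min_le_min_right h hss)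
    rw [e1, e2]
    refine h3.trans ?_
    rcases le_or_gt h s with h4 | h4
    · rw [min_eq_right h4, min_eq_right (h4.trans hss), Icc_self,
        Measure.restrict_singleton, Real.volume_singleton, zero_smul, lintegral_zero_measure]
      exact zero_le
    · rw [min_eq_left h4.le]
      have h5 : Icc s (min s' h) ⊆ Icc T.a h := Icc_subset_Icc hs.1 (min_le_right _ _)
      calc ∫⁻ τ in Icc s (min s' h), T.y' τ
          = ∫⁻ τ in Icc s (min s' h), (Icc T.a h).indicator T.y' τ := by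
            refine setLIntegral_congr_fun measurableSet_Icc fun τ hτ => ?_
            exact (indicator_of_mem (h5 hτ) _).symm
        _ ≤ _ := lintegral_mono_set (Icc_subset_Icc_right (min_le_left _ _))
  meas := by
    rw [aemeasurable_indicator_iff measurableSet_Icc, Measure.restrict_restrict measurableSet_Icc]
    exact T.meas.mono_measure (Measure.restrict_mono inter_subset_left le_rfl)

theorem Target.extend_Y {h : ℝ} (T : Target h) (t : ℝ) {s : ℝ} (h1 : T.a ≤ s) (h2 : s ≤ h) :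
    (T.extend t).Y s = T.Y s := by
  change T.Y (max T.a (min s h)) = _
  rw [min_eq_left h2, max_eq_right h1]

theorem Target.extend_w {h : ℝ} (T : Target h) {t ε : ℝ} (ht : h ≤ t) :
    (T.extend t).w ε ≤ T.w ε + ENNReal.ofReal (t - h) := by
  unfold Target.w
  rw [add_assoc]
  refine add_le_add le_rfl ?_
  change ∫⁻ τ in Icc T.a t, (1 + (Icc T.a h).indicator T.y' τ) ≤ _
  have e1 : ∫⁻ τ in Icc T.a t, (1 + (Icc T.a h).indicator T.y' τ) =
      ENNReal.ofReal (t - T.a) + ∫⁻ τ in Icc T.a t, (Icc T.a h).indicator T.y' τ := by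
    rw [lintegral_add_left measurable_const, setLIntegral_const, Real.volume_Icc, one_mul]
  have e2 : ∫⁻ τ in Icc T.a t, (Icc T.a h).indicator T.y' τ = ∫⁻ τ in Icc T.a h, T.y' τ := by
    rw [lintegral_indicator measurableSet_Icc, Measure.restrict_restrict measurableSet_Icc,
      inter_eq_left.2 (Icc_subset_Icc_right ht)]
  have e3 : ∫⁻ τ in Icc T.a h, (1 + T.y' τ) =
      ENNReal.ofReal (h - T.a) + ∫⁻ τ in Icc T.a h, T.y' τ := by
    rw [lintegral_add_left measurable_const, setLIntegral_const, Real.volume_Icc, one_mul]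
  rw [e1, e2, e3]
  have h4 : ENNReal.ofReal (t - T.a) ≤ ENNReal.ofReal (h - T.a) + ENNReal.ofReal (t - h) := by
    calc ENNReal.ofReal (t - T.a) = ENNReal.ofReal ((h - T.a) + (t - h)) := by ring_nf
      _ ≤ _ := ENNReal.ofReal_add_le
  calc _ ≤ (ENNReal.ofReal (h - T.a) + ENNReal.ofReal (t - h)) +
        ∫⁻ τ in Icc T.a h, T.y' τ := add_le_add h4 le_rfl
    _ = _ := by ring

/-- The families of paths for all horizons. -/
structure PathFam (ε : ℝ) (S : ℕ → Step) (m : ℕ) (c₁ : ℝ) where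
  X : Ph → (Fin m → Ph) → ℝ → E3
  P : ∀ t, ChainPath ε t S m c₁
  good : ∀ t, (P t).Good
  eq : ∀ t, (P t).X = X

/-- The straight path of the last line. -/
noncomputable def lineFam (ε : ℝ) (S : ℕ → Step) (m : ℕ) : PathFam ε S m 1 where
  X l p τ := (line S m l p).1 + τ • (line S m l p).2
  P t := linePath ε t S m
  good t := good_linePath ε t S m
  eq _ := rfl

/-- The old line of the last partner. -/
noncomputable def oldFam (ε : ℝ) (S : ℕ → Step) (m : ℕ) : PathFam ε S (m + 1) 1 where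
  X l p τ := (lastPair S m l p).2.1 + τ • (lastPair S m l p).2.2
  P t := oldPath ε t S m
  good t := good_oldPath ε t S m
  eq _ := rfl

/-- The path of the first particle of the last pair. -/
noncomputable def pairFam1 {Φ : E3 → ℝ} (hΦ : IsPotential Φ) {ε : ℝ} (hε : ε ≠ 0)
    (S : ℕ → Step) (m : ℕ) : PathFam ε S (m + 1) (cS hΦ) where
  X l p τ := (pairLine Φ ε (lastPair S m l p) τ).1.1
  P t := pairPath1 hΦ hε t S m
  good t := good_pairPath1 hΦ hε t S m
  eq _ := rfl

/-- The path of the second particle of the last pair. -/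
noncomputable def pairFam2 {Φ : E3 → ℝ} (hΦ : IsPotential Φ) {ε : ℝ} (hε : ε ≠ 0)
    (S : ℕ → Step) (m : ℕ) : PathFam ε S (m + 1) (cS hΦ) where
  X l p τ := (pairLine Φ ε (lastPair S m l p) τ).2.1
  P t := pairPath2 hΦ hε t S m
  good t := good_pairPath2 hΦ hε t S m
  eq _ := rfl

/-- A contact before the horizon is a contact for all larger final times. -/
theorem mem_ctc_extend {ε t h t' s a : ℝ} {S : ℕ → Step} {m : ℕ} {c₁ : ℝ}
    (F : PathFam ε S m c₁) (T : Target h) (hht : h < t') {l : Ph} {p : Fin m → Ph}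
    (hc : Chain ε t S m s l p) (haT : T.a ≤ a)
    (hr : ∃ τ ∈ Icc (max a (time ε S m s l p)) h, ‖F.X l p τ - T.Y τ‖ ≤ ε) :
    (l, p) ∈ ctc (F.P t') s a (T.extend t').Y := by
  obtain ⟨τ, ⟨h1, h2⟩, h3⟩ := hr
  have h4 : time ε S m s l p ≤ h := (le_max_right _ _).trans (h1.trans h2)
  refine ⟨chain_of_time_lt m S s l p hc (h4.trans_lt hht), τ, ⟨h1, h2.trans hht.le⟩, ?_⟩
  rw [T.extend_Y t' (haT.trans ((le_max_left _ _).trans h1)) h2, F.eq]
  exact h3

/-- Passage to the limit `t' → h`. -/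
theorem le_of_extend {A C S : ℝ≥0∞} (hC : C ≠ ∞) (n : ℕ) {h t₁ : ℝ} (ht₁ : h < t₁)
    (H : ∀ t', h < t' → t' ≤ t₁ → A ≤ C * (S + n * ENNReal.ofReal (t' - h))) : A ≤ C * S := by
  have hlim : Tendsto (fun t' : ℝ => C * (S + n * ENNReal.ofReal (t' - h))) (𝓝[>] h)
      (𝓝 (C * S)) := by
    have h1 : Tendsto (fun t' : ℝ => ENNReal.ofReal (t' - h)) (𝓝[>] h) (𝓝 0) := by
      have h2 : Tendsto (fun t' : ℝ => t' - h) (𝓝[>] h) (𝓝 0) := by
        have h3 : Tendsto (fun t' : ℝ => t' - h) (𝓝 h) (𝓝 (h - h)) :=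
          (continuous_id.sub continuous_const).tendsto h
        rw [sub_self] at h3
        exact h3.mono_left nhdsWithin_le_nhds
      have h4 := ENNReal.tendsto_ofReal h2
      rwa [ENNReal.ofReal_zero] at h4
    have h5 : Tendsto (fun t' : ℝ => S + n * ENNReal.ofReal (t' - h)) (𝓝[>] h) (𝓝 (S + n * 0)) :=
      tendsto_const_nhds.add (ENNReal.Tendsto.const_mul h1 (Or.inr (ENNReal.natCast_ne_top n)))
    rw [mul_zero, add_zero] at h5
    exact ENNReal.Tendsto.const_mul h5 (Or.inr hC)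
  refine ge_of_tendsto hlim ?_
  filter_upwards [Ioc_mem_nhdsGT ht₁] with t' ht' using H t' ht'.1 ht'.2

theorem pow_mono_time {b s t t' : ℝ} (hst : s ≤ t) (htt : t ≤ t') (m : ℕ) :
    (Kc b * (t - s)) ^ m / √(m.factorial : ℝ) ≤ (Kc b * (t' - s)) ^ m / √(m.factorial : ℝ) := by
  have h1 := Kc_nonneg b
  have h2 : Kc b * (t - s) ≤ Kc b * (t' - s) := mul_le_mul_of_nonneg_left (by linarith) h1
  have h3 : 0 ≤ Kc b * (t - s) := mul_nonneg h1 (by linarith)
  gcongr

/-- **First-order flux into a family of targets with a horizon.** -/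
theorem first_flux_H {ε b s t h t₁ c₁ : ℝ} (hε : 0 < ε) (hb : 0 < b) (hc₁ : 0 ≤ c₁)
    (ht₁ : h < t₁) {m : ℕ} {S : ℕ → Step} (F : PathFam ε S m c₁) {ι : Type*} (I : Finset ι)
    (T : ι → Target h) {Ψ : Ph → (Fin m → Ph) → ℝ≥0∞}
    (hΨ : ∀ l p, Ψ l p ≠ 0 → Chain ε t S m s l p ∧
      (∃ i ∈ I, ∃ τ ∈ Icc (max (T i).a (time ε S m s l p)) h, ‖F.X l p τ - (T i).Y τ‖ ≤ ε) ∧
      Ψ l p ≤ ENNReal.ofReal (Real.exp (-b * ‖l.2‖ ^ 2)) * wt b ε m p) :
    ∫⁻ l, ∫⁻ p, Ψ l p ≤ ENNReal.ofReal (ε ^ 2) * (8 * bv * cF b c₁) *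
      ENNReal.ofReal (D2 b * ((Kc (b / 2) * (t₁ - s)) ^ m / √(m.factorial : ℝ))) *
      ∑ i ∈ I, (T i).w ε := by
  by_cases hsh : s ≤ h
  swap
  · -- no contact
    have h0 : ∀ l p, Ψ l p = 0 := by
      intro l p
      by_contra hne
      obtain ⟨h1, ⟨i, -, τ, h2, -⟩, -⟩ := hΨ l p hne
      exact hsh ((le_time m S s l p h1).trans ((le_max_right _ _).trans (h2.1.trans h2.2)))
    simp [h0]
  have hbv : bv ≠ ∞ := bv_ne_top
  refine le_of_extend (ENNReal.mul_ne_top (ENNReal.mul_ne_top ENNReal.ofReal_ne_top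
    (ENNReal.mul_ne_top (ENNReal.mul_ne_top (by norm_num) hbv) cF_ne_top))
    ENNReal.ofReal_ne_top) I.card ht₁ fun t' ht' ht'' => ?_
  have h1 := first_flux_family (Ψ := Ψ) hε hb hc₁ (hsh.trans ht'.le) (F.good t') I
    (fun i => (T i).extend t') (by
      intro l p hne
      obtain ⟨h1, ⟨i, hi, hr⟩, h3⟩ := hΨ l p hne
      exact ⟨⟨i, hi, mem_ctc_extend F (T i) ht' h1 le_rfl hr⟩, h3⟩)
  have hD := D2_nonneg b
  have h2 := pow_mono_time (b := b / 2) (hsh.trans ht'.le) ht'' m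
  refine h1.trans (mul_le_mul' (mul_le_mul' le_rfl (ENNReal.ofReal_le_ofReal
    (mul_le_mul_of_nonneg_left h2 hD))) ?_)
  calc ∑ i ∈ I, ((T i).extend t').w ε ≤ ∑ i ∈ I, ((T i).w ε + ENNReal.ofReal (t' - h)) :=
        Finset.sum_le_sum fun i _ => (T i).extend_w ht'.le
    _ = _ := by rw [Finset.sum_add_distrib, Finset.sum_const, nsmul_eq_mul]

/-- The constant of `sister_aux_H`. -/
noncomputable def cH (b c₁ δ r : ℝ) (m : ℕ) : ℝ≥0∞ :=
  (ENNReal.ofReal ((4 * √(m + 1) / δ) ^ 3) * cF (b / 2) c₁) *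
    ENNReal.ofReal (D1 (b / 2) * ((Kc (b / 2 / 4) * r) ^ m / √(m.factorial : ℝ)))

theorem cH_ne_top {b c₁ δ r : ℝ} {m : ℕ} : cH b c₁ δ r m ≠ ∞ :=
  ENNReal.mul_ne_top (ENNReal.mul_ne_top ENNReal.ofReal_ne_top cF_ne_top) ENNReal.ofReal_ne_top

/-- **Flux of the sister of a given line, for a fixed exit time and impact parameter**, into a family of
targets with a horizon. -/
theorem sister_aux_H {ε b t h t₁ δ c₁ : ℝ} (hε : 0 < ε) (hb : 0 < b) (hδ : 0 < δ)
    (hc₁ : 0 ≤ c₁) (ht₁ : h < t₁) {m : ℕ} {S : ℕ → Step} (F : PathFam ε S m c₁) (e : Ph)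
    {σ : ℝ} {ξ : E3} (hσ : 0 ≤ σ) (hξ : ξ ∈ K1.disc K1.e0) {ι : Type*} (I : Finset ι)
    (T : ι → Target h) {g : ℝ≥0∞} (hg : g ≠ ∞) {Ψ : Ph → (Fin m → Ph) → ℝ≥0∞}
    (hΨ : ∀ β p, exT ε (e, β) = σ → Ψ β p ≠ 0 → Chain ε t S m σ β p ∧
      (∃ i ∈ I, ∃ τ ∈ Icc (max (max (T i).a (σ + δ)) (time ε S m σ β p)) h,
        ‖F.X β p τ - (T i).Y τ‖ ≤ ε) ∧
      Ψ β p ≤ g * (muE ε * ENNReal.ofReal (Real.exp (-b * ‖β.2‖ ^ 2)) * wt b ε m p)) :
    ∫⁻ u : E3, ∫⁻ p, (ENNReal.ofReal (ε ^ 2) * ‖e.2 - u‖ₑ) * Ψ (sis ε e u σ ξ) p ≤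
      g * ENNReal.ofReal (Ke b e) * (ENNReal.ofReal (ε ^ 2) * cH b c₁ δ (t₁ - σ) m) *
        ∑ i ∈ I, (T i).w ε := by
  by_cases hsh : σ + δ ≤ h
  swap
  · -- no contact
    have h0 : ∀ u p, (ENNReal.ofReal (ε ^ 2) * ‖e.2 - u‖ₑ) * Ψ (sis ε e u σ ξ) p = 0 := by
      intro u p
      by_cases hV : e.2 - u = 0
      · simp [hV]
      have hex : exT ε (e, sis ε e u σ ξ) = σ := exT_sis hε.ne' e hV σ hξ
      by_cases hne : Ψ (sis ε e u σ ξ) p = 0
      · rw [hne, mul_zero]
      obtain ⟨-, ⟨i, -, τ, h2, -⟩, -⟩ := hΨ _ p hex hne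
      exact absurd ((le_max_right _ _).trans ((le_max_left _ _).trans (h2.1.trans h2.2))) hsh
    simp [h0]
  have hσh : σ ≤ h := by linarith
  refine le_of_extend (ENNReal.mul_ne_top (ENNReal.mul_ne_top hg ENNReal.ofReal_ne_top)
    (ENNReal.mul_ne_top ENNReal.ofReal_ne_top cH_ne_top)) I.card ht₁ fun t' ht' ht'' => ?_
  -- the majorant
  set G : Ph × (Fin m → Ph) → ℝ≥0∞ := fun q =>
    g * (muE ε * ENNReal.ofReal (Real.exp (-b * ‖q.1.2‖ ^ 2)) * wt b ε m q.2) with hG
  have hGm : Measurable G := (measurable_sw b ε m).const_mul g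
  set A : ι → Set (Ph × (Fin m → Ph)) := fun i =>
    ctc (F.P t') σ (max (T i).a (σ + δ)) ((T i).extend t').Y with hA
  have hAm : ∀ i, MeasurableSet (A i) := fun i => measurableSet_ctc (F.good t')
    (((T i).extend t').cont.mono (Icc_subset_Icc_left (le_max_left _ _)))
  -- each target
  have h1 : ∀ i, ∫⁻ u : E3, ∫⁻ p, (ENNReal.ofReal (ε ^ 2) * ‖e.2 - u‖ₑ) *
      (A i).indicator G (sis ε e u σ ξ, p) ≤ g * (ENNReal.ofReal (Ke b e) *
        B1 ε (b / 2) σ ((T i).extend t').a t' δ 1 c₁ m ((T i).extend t').y') := by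
    intro i
    refine PB.sister_aux hε hb hδ hc₁ (F.P t') e ⟨hσ, hσh.trans ht'.le⟩ hξ
      ((T i).extend t').cont ((T i).extend t').speed ((T i).extend t').meas hg
      (Ψ := fun β p => (A i).indicator G (β, p)) ?_ ?_
    · exact hGm.indicator (hAm i)
    · intro β p _ hne
      have hq : (β, p) ∈ A i := by
        by_contra h
        exact hne (indicator_of_notMem h _)
      refine ⟨hq.1, ?_, ?_⟩
      · exact hq.2
      · rw [indicator_of_mem hq]
  have h2 : ∀ i, B1 ε (b / 2) σ ((T i).extend t').a t' δ 1 c₁ m ((T i).extend t').y' ≤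
      (ENNReal.ofReal (ε ^ 2) * cH b c₁ δ (t₁ - σ) m) *
        ((T i).w ε + ENNReal.ofReal (t' - h)) := by
    intro i
    refine (B1_le hε hδ ((T i).extend t')).trans ?_
    have hD := D1_nonneg (b / 2)
    have h3 := pow_mono_time (b := b / 2 / 4) (hσh.trans ht'.le) ht'' m
    unfold cH
    calc _ ≤ ENNReal.ofReal (ε ^ 2) *
          (ENNReal.ofReal ((4 * √((m : ℝ) + 1) / δ) ^ 3) * cF (b / 2) c₁) *
          ENNReal.ofReal (D1 (b / 2) * ((Kc (b / 2 / 4) * (t₁ - σ)) ^ m /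
            √(m.factorial : ℝ))) * ((T i).w ε + ENNReal.ofReal (t' - h)) := by
          refine mul_le_mul' (mul_le_mul' le_rfl (ENNReal.ofReal_le_ofReal
            (mul_le_mul_of_nonneg_left h3 hD))) ((T i).extend_w ht'.le)
      _ = _ := by ring
  -- the sum
  have hpt : ∀ u p, (ENNReal.ofReal (ε ^ 2) * ‖e.2 - u‖ₑ) * Ψ (sis ε e u σ ξ) p ≤
      ∑ i ∈ I, (ENNReal.ofReal (ε ^ 2) * ‖e.2 - u‖ₑ) *
        (A i).indicator G (sis ε e u σ ξ, p) := by
    intro u p
    by_cases hV : e.2 - u = 0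
    · simp [hV]
    have hex : exT ε (e, sis ε e u σ ξ) = σ := exT_sis hε.ne' e hV σ hξ
    by_cases hne : Ψ (sis ε e u σ ξ) p = 0
    · rw [hne, mul_zero]; exact zero_le
    obtain ⟨a1, ⟨i, hi, hr⟩, a3⟩ := hΨ _ p hex hne
    have hmem : (sis ε e u σ ξ, p) ∈ A i :=
      mem_ctc_extend F (T i) ht' a1 (le_max_left _ _) hr
    rw [← Finset.mul_sum]
    refine mul_le_mul' le_rfl (a3.trans ?_)
    calc G (sis ε e u σ ξ, p) = (A i).indicator G (sis ε e u σ ξ, p) :=
          (indicator_of_mem hmem _).symm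
      _ ≤ _ := Finset.single_le_sum (f := fun i => (A i).indicator G (sis ε e u σ ξ, p))
        (fun _ _ => zero_le) hi
  have hsm : Measurable fun q : E3 × (Fin m → Ph) => (sis ε e q.1 σ ξ, q.2) :=
    ((measurable_sis_u e σ ξ).comp measurable_fst).prodMk measurable_snd
  have hjm : ∀ i, Measurable fun q : E3 × (Fin m → Ph) => (ENNReal.ofReal (ε ^ 2) *
      ‖e.2 - q.1‖ₑ) * (A i).indicator G (sis ε e q.1 σ ξ, q.2) := by
    intro i
    refine Measurable.mul (by fun_prop) ?_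
    exact (hGm.indicator (hAm i)).comp hsm
  calc ∫⁻ u : E3, ∫⁻ p, (ENNReal.ofReal (ε ^ 2) * ‖e.2 - u‖ₑ) * Ψ (sis ε e u σ ξ) p
      ≤ ∫⁻ u : E3, ∫⁻ p, ∑ i ∈ I, (ENNReal.ofReal (ε ^ 2) * ‖e.2 - u‖ₑ) *
        (A i).indicator G (sis ε e u σ ξ, p) :=
        lintegral_mono fun u => lintegral_mono fun p => hpt u p
    _ = ∑ i ∈ I, ∫⁻ u : E3, ∫⁻ p, (ENNReal.ofReal (ε ^ 2) * ‖e.2 - u‖ₑ) *
        (A i).indicator G (sis ε e u σ ξ, p) := by
        rw [← lintegral_finsetSum' _ fun i _ => ((hjm i).lintegral_prod_right').aemeasurable]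
        refine lintegral_congr fun u => ?_
        exact lintegral_finsetSum' _ fun i _ =>
          ((hjm i).comp (measurable_const.prodMk measurable_id)).aemeasurable
    _ ≤ ∑ i ∈ I, g * (ENNReal.ofReal (Ke b e) *
        ((ENNReal.ofReal (ε ^ 2) * cH b c₁ δ (t₁ - σ) m) *
          ((T i).w ε + ENNReal.ofReal (t' - h)))) :=
        Finset.sum_le_sum fun i _ => (h1 i).trans (mul_le_mul' le_rfl (mul_le_mul' le_rfl (h2 i)))
    _ = _ := by
        rw [← Finset.mul_sum, ← Finset.mul_sum, ← Finset.mul_sum, Finset.sum_add_distrib,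
          Finset.sum_const, nsmul_eq_mul]
        ring

end Vale.Agent.P119.FL
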