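import Vale.Agent.P119.PB.SE6
import Vale.Agent.P119.FL.Horizon
import Vale.Agent.P119.M.Alive

/-!
# P119: second events in two branches, line level (`helper690`)

`x` is the line which comes from the branch of the first marked line.  The second marked line `m` has
the sister `β`, whose chain ends in a line which hits `x`.

* `cR`: the mass of the chains started by `m` in contact with a family of targets before the horizon;
* `caseC2_H`: `x` is hit at least `δ` after the birth of `m`;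
* `caseC1`: `x` is hit less than `δ` after the birth of `m`.
-/

open MeasureTheory Set Filter Topology Metric ProbabilityTheory
open scoped ENNReal

namespace Vale.Agent.P119.FL

open KU PB

variable {ε b t δ : ℝ}

/-! ### Chains in contact with a family of targets before the horizon -/

/-- The chains started by `m` at the time `σ` in contact with one of the targets. -/
def ctcF (ε t : ℝ) {S : ℕ → Step} {j : ℕ} {c₁ h : ℝ} (F : PathFam ε S j c₁) {ι : Type*}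
    (I : Finset ι) (T : ι → Target h) (σ : ℝ) (m : Ph) : Set (Fin j → Ph) :=
  {q | Chain ε t S j σ m q ∧ ∃ i ∈ I, ∃ τ ∈ Icc (max (T i).a (time ε S j σ m q)) h,
    ‖F.X m q τ - (T i).Y τ‖ ≤ ε}

/-- The mass of the chains started by `m` at the time `σ` in contact with one of the targets. -/
noncomputable def cR (b ε t : ℝ) {S : ℕ → Step} {j : ℕ} {c₁ h : ℝ} (F : PathFam ε S j c₁)
    {ι : Type*} (I : Finset ι) (T : ι → Target h) (σ : ℝ) (m : Ph) : ℝ≥0∞ :=
  ∫⁻ q, (ctcF ε t F I T σ m).indicator (wt b ε j) q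

section cR

variable {S : ℕ → Step} {j : ℕ} {c₁ h : ℝ} {F : PathFam ε S j c₁} {ι : Type*} {I : Finset ι}
  {T : ι → Target h} {σ : ℝ} {m : Ph}

theorem cR_of_lt (hσ : h < σ) : cR b ε t F I T σ m = 0 := by
  unfold cR
  have : ctcF ε t F I T σ m = ∅ := by
    ext q
    simp only [ctcF, mem_ofPred_eq, mem_empty_iff_false, iff_false, not_and, not_exists]
    intro h1 i _ τ h2
    have h3 := le_time j S σ m q h1
    have h4 := (le_max_right (T i).a (time ε S j σ m q)).trans (h2.1.trans h2.2)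
    exact absurd (h3.trans h4) (not_le.2 hσ)
  rw [this]
  simp

/-- Comparison with the mass of `helper778`. -/
theorem cR_le_rr {t' : ℝ} (ht : h < t') :
    cR b ε t F I T σ m ≤ rr b (F.P t') I (fun i => (T i).extend t') σ m := by
  unfold cR rr
  have hm : ∀ i, Measurable fun q : Fin j → Ph =>
      (ctc (F.P t') σ ((T i).extend t').a ((T i).extend t').Y).indicator
        (fun q => wt b ε j q.2) (m, q) := fun i =>
    (((measurable_wt b ε j).comp measurable_snd).indicator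
      (measurableSet_ctc (F.good t') ((T i).extend t').cont)).comp
        (measurable_const.prodMk measurable_id)
  rw [← lintegral_finsetSum' _ fun i _ => (hm i).aemeasurable]
  refine lintegral_mono fun q => ?_
  by_cases hq : q ∈ ctcF ε t F I T σ m
  · rw [indicator_of_mem hq]
    obtain ⟨h1, i, hi, hr⟩ := hq
    have h2 : (m, q) ∈ ctc (F.P t') σ ((T i).extend t').a ((T i).extend t').Y :=
      mem_ctc_extend F (T i) ht h1 le_rfl hr
    have h3 : wt b ε j q = (ctc (F.P t') σ ((T i).extend t').a ((T i).extend t').Y).indicator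
        (fun q : Ph × (Fin j → Ph) => wt b ε j q.2) (m, q) := by
      rw [indicator_of_mem h2]
    rw [h3]
    exact Finset.single_le_sum (f := fun i =>
      (ctc (F.P t') σ ((T i).extend t').a ((T i).extend t').Y).indicator
        (fun q : Ph × (Fin j → Ph) => wt b ε j q.2) (m, q)) (fun _ _ => zero_le) hi
  · rw [indicator_of_notMem hq]
    exact zero_le

/-- Comparison with the mass of all chains. -/
theorem cR_le_mass (hε : 0 < ε) (hb : 0 < b) (hσ : σ ∈ Icc 0 t) :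
    cR b ε t F I T σ m ≤ ENNReal.ofReal ((Kc b * t) ^ j / √(j.factorial : ℝ)) *
      ENNReal.ofReal (Real.exp (b / 2 * ‖m.2‖ ^ 2)) := by
  refine le_trans ?_ (chain_mass' hε hb j S hσ m)
  unfold cR
  exact lintegral_mono fun q => indicator_le_indicator_of_subset (fun q hq => hq.1)
    (fun _ => zero_le) q

end cR

/-! ### Hits at lag at least `δ` -/

/-- The constant of `caseC2_H`. -/
noncomputable def cC2H (b c₁ δ t t' : ℝ) (n j : ℕ) : ℝ≥0∞ :=
  K1.sig univ * (ENNReal.ofReal t * (ENNReal.ofReal (√2 * (1 + 1 / √b) ^ 2) *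
    (cF1 (b / 2) c₁ t' j * cL b 1 δ t n)))

theorem cF1_ne_top (b c₁ t : ℝ) (j : ℕ) : cF1 b c₁ t j ≠ ∞ :=
  ENNReal.mul_ne_top (ENNReal.mul_ne_top (ENNReal.mul_ne_top (by norm_num) bv_ne_top) cF_ne_top)
    ENNReal.ofReal_ne_top

theorem cC2H_ne_top (b c₁ δ t t' : ℝ) (n j : ℕ) : cC2H b c₁ δ t t' n j ≠ ∞ :=
  ENNReal.mul_ne_top (measure_ne_top K1.sig univ) (ENNReal.mul_ne_top ENNReal.ofReal_ne_top
    (ENNReal.mul_ne_top ENNReal.ofReal_ne_top
      (ENNReal.mul_ne_top (cF1_ne_top _ _ _ _) (cL_ne_top _ _ _ _ _))))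

/-- **Case C2**: the chain of the sister `β` of the free line `m` meets the path `X` at lag `≥ δ`,
and the chain of `m` meets one of the targets `T i` before the horizon `h`. -/
theorem caseC2_H {c₁ h t' : ℝ} (hε : 0 < ε) (hb : 0 < b) (hδ : 0 < δ) (hc₁ : 0 ≤ c₁)
    (ht' : h < t') {n j : ℕ} {S S' : ℕ → Step} (F : PathFam ε S' j c₁) {ι : Type*}
    (I : Finset ι) (T : ι → Target h) (X : Target t) {G : Ph → Ph → (Fin n → Ph) → ℝ≥0∞}
    (hG : ∀ m β p, G m β p ≠ 0 → Meets ε (m, β) ∧ exT ε (m, β) ∈ Icc 0 t ∧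
      (β, p) ∈ ctc (linePath ε t S n) (exT ε (m, β)) (max X.a (exT ε (m, β) + δ)) X.Y ∧
      G m β p ≤ (muE ε * ENNReal.ofReal (Real.exp (-b * ‖m.2‖ ^ 2)) *
          cR b ε t F I T (exT ε (m, β)) m) *
        (muE ε * ENNReal.ofReal (Real.exp (-b * ‖β.2‖ ^ 2)) * wt b ε n p)) :
    ∫⁻ m, ∫⁻ β, ∫⁻ p, G m β p ≤ ENNReal.ofReal (ε ^ 2) * cC2H b c₁ δ t t' n j *
      (X.w ε * ∑ i ∈ I, ((T i).extend t').w ε) := by
  have hP := F.good t'
  set T' : ι → Target t' := fun i => (T i).extend t' with hT'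
  have hrm := measurable_rr (b := b) hP I T'
  set R : ℝ → Ph → ℝ≥0∞ := fun σ m => (Iic h).indicator (fun σ => rr b (F.P t') I T' σ m) σ
    with hR
  have hRm : Measurable fun z : ℝ × Ph => R z.1 z.2 := by
    have : (fun z : ℝ × Ph => R z.1 z.2) = (Prod.fst ⁻¹' (Iic h)).indicator
        (fun z : ℝ × Ph => rr b (F.P t') I T' z.1 z.2) := rfl
    rw [this]
    exact hrm.indicator (measurable_fst measurableSet_Iic)
  have hR0 : ∀ σ m, 0 ≤ σ → R σ m ≠ ∞ := by
    intro σ m hσ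
    rw [hR]
    simp only
    by_cases h1 : σ ∈ Iic h
    · rw [indicator_of_mem h1]
      exact rr_ne_top hε hb I T' ⟨hσ, (mem_Iic.1 h1).trans ht'.le⟩ m
    · rw [indicator_of_notMem h1]; exact ENNReal.zero_ne_top
  have hcR : ∀ σ m, cR b ε t F I T σ m ≤ R σ m := by
    intro σ m
    rw [hR]
    simp only
    by_cases h1 : σ ∈ Iic h
    · rw [indicator_of_mem h1]
      exact cR_le_rr ht'
    · rw [cR_of_lt (not_le.1 h1)]; exact zero_le
  -- for fixed `m`
  have h2 : ∀ m : Ph, ∫⁻ β, ∫⁻ p, G m β p ≤ K1.sig univ * ∫⁻ σ in Icc (0 : ℝ) t,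
      (muE ε * ENNReal.ofReal (Real.exp (-b * ‖m.2‖ ^ 2)) * R σ m) *
        (ENNReal.ofReal (Ke b m) * (ENNReal.ofReal (ε ^ 2) * cL b 1 δ t n * X.w ε)) := by
    intro m
    have hex : ∀ β, (∫⁻ p, G m β p) ≠ 0 → ∃ p, G m β p ≠ 0 := by
      intro β h
      by_contra hcon
      push Not at hcon
      exact h (by simp [hcon])
    refine (sister_param_le (t := t) hε m fun β h => ?_).trans (param_le fun σ hσ ξ hξ => ?_)
    · obtain ⟨p, h3⟩ := hex β h
      exact ⟨(hG m β p h3).1, (hG m β p h3).2.1⟩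
    · have hg : muE ε * ENNReal.ofReal (Real.exp (-b * ‖m.2‖ ^ 2)) * R σ m ≠ ∞ :=
        ENNReal.mul_ne_top (ENNReal.mul_ne_top muE_ne_top ENNReal.ofReal_ne_top) (hR0 σ m hσ.1)
      have h3 := sis_family hε hb hδ zero_le_one (good_linePath ε t S n) m hσ hξ
        (Finset.univ : Finset Unit) (fun _ => X) hg (Ψ := fun β p => G m β p)
        (by
          intro β p hβ hne
          have h4 := hG m β p hne
          rw [hβ] at h4
          refine ⟨⟨(), Finset.mem_univ _, h4.2.2.1⟩, h4.2.2.2.trans ?_⟩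
          exact mul_le_mul' (mul_le_mul' le_rfl (hcR σ m)) le_rfl)
      refine le_trans (le_of_eq ?_) (h3.trans (le_of_eq ?_))
      · refine lintegral_congr fun u => ?_
        rw [lintegral_const_mul' _ _ (ENNReal.mul_ne_top ENNReal.ofReal_ne_top enorm_ne_top)]
      · simp
  -- integrate over `m`
  have hAm : Measurable fun m : Ph => muE ε * ENNReal.ofReal (Real.exp (-b * ‖m.2‖ ^ 2)) *
      ENNReal.ofReal (Ke b m) := by
    unfold Ke; fun_prop
  set D : ℝ≥0∞ := ENNReal.ofReal (ε ^ 2) * cL b 1 δ t n * X.w ε with hD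
  calc ∫⁻ m, ∫⁻ β, ∫⁻ p, G m β p
      ≤ ∫⁻ m : Ph, K1.sig univ * ∫⁻ σ in Icc (0 : ℝ) t,
        (muE ε * ENNReal.ofReal (Real.exp (-b * ‖m.2‖ ^ 2)) * R σ m) *
        (ENNReal.ofReal (Ke b m) * D) := lintegral_mono h2
    _ = K1.sig univ * ∫⁻ σ in Icc (0 : ℝ) t, ∫⁻ m : Ph, (muE ε *
        ENNReal.ofReal (Real.exp (-b * ‖m.2‖ ^ 2)) * ENNReal.ofReal (Ke b m)) *
          (R σ m * D) := by
        rw [lintegral_const_mul' _ _ (measure_ne_top K1.sig univ),
          ← swap_ms hAm (r := fun σ m => R σ m * D) (hRm.mul_const D)]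
        congr 1
        refine lintegral_congr fun m => lintegral_congr fun σ => ?_
        ring
    _ ≤ K1.sig univ * ∫⁻ _ in Icc (0 : ℝ) t, (muE ε * (ENNReal.ofReal (√2 * (1 + 1 / √b) ^ 2) *
        (ENNReal.ofReal (ε ^ 2) * cF1 (b / 2) c₁ t' j * ∑ i ∈ I, (T' i).w ε)) * D) := by
        refine mul_le_mul' le_rfl (setLIntegral_mono' measurableSet_Icc fun σ hσ => ?_)
        by_cases hσh : σ ∈ Iic h
        swap
        · have : ∀ m, R σ m = 0 := fun m => indicator_of_notMem hσh _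
          simp [this]
        have hRe : ∀ m, R σ m = rr b (F.P t') I T' σ m := fun m => indicator_of_mem hσh _
        have h4 : ∀ m : Ph, (muE ε * ENNReal.ofReal (Real.exp (-b * ‖m.2‖ ^ 2)) *
            ENNReal.ofReal (Ke b m)) * (R σ m * D) ≤
            (muE ε * ENNReal.ofReal (√2 * (1 + 1 / √b) ^ 2) * D) *
              (ENNReal.ofReal (Real.exp (-(b / 2) * ‖m.2‖ ^ 2)) *
                rr (b / 2) (F.P t') I T' σ m) := by
          intro m
          have h5 := Ke_gauss hb m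
          have h6 : R σ m ≤ rr (b / 2) (F.P t') I T' σ m := by
            rw [hRe]
            unfold rr
            gcongr with i hi p
            exact wt_mono (by linarith) _ _
          calc _ = (muE ε * D) * ((ENNReal.ofReal (Ke b m) *
                ENNReal.ofReal (Real.exp (-b * ‖m.2‖ ^ 2))) * R σ m) := by ring
            _ ≤ (muE ε * D) * ((ENNReal.ofReal (√2 * (1 + 1 / √b) ^ 2) *
                ENNReal.ofReal (Real.exp (-(b / 2) * ‖m.2‖ ^ 2))) *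
                  rr (b / 2) (F.P t') I T' σ m) := by gcongr
            _ = _ := by ring
        refine (lintegral_mono h4).trans ?_
        have hm7 : Measurable fun m : Ph => ENNReal.ofReal (Real.exp (-(b / 2) * ‖m.2‖ ^ 2)) *
            rr (b / 2) (F.P t') I T' σ m := by
          refine Measurable.mul (by fun_prop) ?_
          exact (measurable_rr (b := b / 2) hP I T').comp (measurable_const.prodMk measurable_id)
        rw [lintegral_const_mul _ hm7]
        have h7 := rr_flux hε (by positivity : 0 < b / 2) hc₁ hP I T'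
          ⟨hσ.1, (mem_Iic.1 hσh).trans ht'.le⟩
        calc _ ≤ (muE ε * ENNReal.ofReal (√2 * (1 + 1 / √b) ^ 2) * D) *
              (ENNReal.ofReal (ε ^ 2) * cF1 (b / 2) c₁ t' j * ∑ i ∈ I, (T' i).w ε) := by gcongr
          _ = _ := by ring
    _ = _ := by
        rw [lintegral_const, Measure.restrict_apply_univ, Real.volume_Icc, sub_zero, hD]
        unfold cC2H
        calc K1.sig univ * (muE ε * (ENNReal.ofReal (√2 * (1 + 1 / √b) ^ 2) *
              (ENNReal.ofReal (ε ^ 2) * cF1 (b / 2) c₁ t' j * ∑ i ∈ I, (T' i).w ε)) *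
              (ENNReal.ofReal (ε ^ 2) * cL b 1 δ t n * X.w ε) * ENNReal.ofReal t)
            = (muE ε * ENNReal.ofReal (ε ^ 2)) * (K1.sig univ *
              (ENNReal.ofReal (√2 * (1 + 1 / √b) ^ 2) *
              (cF1 (b / 2) c₁ t' j * ∑ i ∈ I, (T' i).w ε)) *
              (ENNReal.ofReal (ε ^ 2) * cL b 1 δ t n * X.w ε) * ENNReal.ofReal t) := by ring
          _ = _ := by rw [muE_mul hε, one_mul]; ring

/-! ### Hits at lag less than `δ` -/

theorem chain_start {ε t : ℝ} {m : ℕ} {S : ℕ → Step} {s s' : ℝ} (h : s' ≤ s) {l : Ph}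
    {p : Fin m → Ph} (hc : Chain ε t S m s l p) : Chain ε t S m s' l p := by
  cases m with
  | zero => trivial
  | succ m => exact ⟨hc.1, h.trans_lt hc.2.1, hc.2.2⟩

theorem time_start {ε : ℝ} {m : ℕ} {S : ℕ → Step} {s s' : ℝ} (h : s' ≤ s) {l : Ph}
    {p : Fin m → Ph} : time ε S m s' l p ≤ time ε S m s l p := by
  cases m with
  | zero => exact h
  | succ m => exact le_rfl

/-- The constant of `caseC1`. -/
noncomputable def cC1 (b t : ℝ) (n j : ℕ) : ℝ≥0∞ :=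
  ENNReal.ofReal ((Kc b * t) ^ j / √(j.factorial : ℝ)) * (ENNReal.ofReal Real.pi * I0 (b / 2)) *
    (ENNReal.ofReal (1 + 1 / √b) * cF1 (b / 2) 1 t n)

theorem cC1_ne_top (hb : 0 < b) (t : ℝ) (n j : ℕ) : cC1 b t n j ≠ ∞ :=
  ENNReal.mul_ne_top (ENNReal.mul_ne_top ENNReal.ofReal_ne_top
    (ENNReal.mul_ne_top ENNReal.ofReal_ne_top (I0_ne_top (by positivity))))
      (ENNReal.mul_ne_top ENNReal.ofReal_ne_top (cF1_ne_top _ _ _ _))

/-- The law of the sister `m` of `β`, with exit time in the window `[r - δ, r]`. -/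
theorem sister_window (hε : 0 < ε) (hb : 0 < b) (β : Ph) (r : ℝ) :
    ∫⁻ m in {m : Ph | Meets ε (m, β)}, gw b m.2 * (Icc (r - δ) r).indicator (fun _ => 1)
      (exT ε (m, β)) ≤ ENNReal.ofReal (ε ^ 2) * (ENNReal.ofReal Real.pi * I0 b) *
        (ENNReal.ofReal (1 + ‖β.2‖) * ENNReal.ofReal δ) := by
  have h1 := flux_inner (T := exT ε) (fluxTime_outT hε) hb le_rfl β
    (g := (Icc (r - δ) r).indicator fun _ => (1 : ℝ≥0∞))
    (measurable_const.indicator measurableSet_Icc)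
  rw [lintegral_indicator measurableSet_Icc, lintegral_const, Measure.restrict_apply_univ,
    Real.volume_Icc, one_mul, show r - (r - δ) = δ by ring] at h1
  refine le_trans (le_of_eq ?_) h1
  have e1 : {m : Ph | Meets ε (m, β)} = {l' : Ph | Meets ε (β, l')} := by
    ext m
    exact meets_swap (β, m)
  rw [e1]
  refine lintegral_congr fun m => ?_
  rw [show exT ε (m, β) = exT ε (β, m) from exT_swap (β, m)]

/-- The chains of `caseC1` in contact with the line `x`. -/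
def aC1 (ε t : ℝ) (S : ℕ → Step) (n : ℕ) (x : Ph) : Set (Ph × (Fin n → Ph)) :=
  ctc (linePath ε t S n) 0 (lineTarget t 0 x).a (lineTarget t 0 x).Y

theorem measurableSet_aC1 (ε t : ℝ) (S : ℕ → Step) (n : ℕ) (x : Ph) :
    MeasurableSet (aC1 ε t S n x) :=
  measurableSet_ctc (good_linePath ε t S n) (lineTarget t 0 x).cont

/-- The weight of the sister in `caseC1`. -/
noncomputable def uC1 (ε b δ : ℝ) (S : ℕ → Step) (n : ℕ) (x : Ph) (m : Ph)
    (q : Ph × (Fin n → Ph)) : ℝ≥0∞ :=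
  ({m : Ph | Meets ε (m, q.1)}).indicator (fun m => gw (b / 2) m.2 *
    (Icc (hitT ε (x, line S n q.1 q.2) - δ) (hitT ε (x, line S n q.1 q.2))).indicator
      (fun _ => 1) (exT ε (m, q.1))) m

/-- The majorant of `caseC1`. -/
noncomputable def hC1 (ε b t δ : ℝ) (S : ℕ → Step) (n : ℕ) (x : Ph) (m : Ph)
    (q : Ph × (Fin n → Ph)) : ℝ≥0∞ :=
  uC1 ε b δ S n x m q * (aC1 ε t S n x).indicator (fun q => muE ε *
    ENNReal.ofReal (Real.exp (-b * ‖q.1.2‖ ^ 2)) * wt b ε n q.2) q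

theorem measurable_uC1 (ε b δ : ℝ) (S : ℕ → Step) (n : ℕ) (x : Ph) :
    Measurable fun z : Ph × (Ph × (Fin n → Ph)) => uC1 ε b δ S n x z.1 z.2 := by
  have hrm : Measurable fun q : Ph × (Fin n → Ph) => hitT ε (x, line S n q.1 q.2) :=
    measurable_hitT.comp (measurable_const.prodMk measurable_line_q)
  have hMm : MeasurableSet {z : Ph × (Ph × (Fin n → Ph)) | Meets ε (z.1, z.2.1)} := by
    have : Measurable fun z : Ph × (Ph × (Fin n → Ph)) => (z.1, z.2.1) := by fun_prop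
    exact this measurableSet_meets
  have hwm : MeasurableSet {z : Ph × (Ph × (Fin n → Ph)) | exT ε (z.1, z.2.1) ∈
      Icc (hitT ε (x, line S n z.2.1 z.2.2) - δ) (hitT ε (x, line S n z.2.1 z.2.2))} := by
    have e1 : Measurable fun z : Ph × (Ph × (Fin n → Ph)) => exT ε (z.1, z.2.1) :=
      measurable_exT.comp (by fun_prop)
    have e2 : Measurable fun z : Ph × (Ph × (Fin n → Ph)) =>
      hitT ε (x, line S n z.2.1 z.2.2) := hrm.comp measurable_snd
    exact (measurableSet_le (e2.sub_const δ) e1).inter (measurableSet_le e1 e2)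
  have e1 : (fun z : Ph × (Ph × (Fin n → Ph)) => uC1 ε b δ S n x z.1 z.2) =
      {z : Ph × (Ph × (Fin n → Ph)) | Meets ε (z.1, z.2.1)}.indicator (fun z =>
        gw (b / 2) z.1.2 * {z : Ph × (Ph × (Fin n → Ph)) | exT ε (z.1, z.2.1) ∈
          Icc (hitT ε (x, line S n z.2.1 z.2.2) - δ)
            (hitT ε (x, line S n z.2.1 z.2.2))}.indicator (fun _ => 1) z) := rfl
  rw [e1]
  exact Measurable.indicator (((measurable_gw _).comp measurable_fst.snd).mul
    (measurable_const.indicator hwm)) hMm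

theorem measurable_hC1 (ε b t δ : ℝ) (S : ℕ → Step) (n : ℕ) (x : Ph) :
    Measurable fun z : Ph × (Ph × (Fin n → Ph)) => hC1 ε b t δ S n x z.1 z.2 := by
  have h1 := measurable_uC1 ε b δ S n x
  have h2 : Measurable fun z : Ph × (Ph × (Fin n → Ph)) => (aC1 ε t S n x).indicator
      (fun q => muE ε * ENNReal.ofReal (Real.exp (-b * ‖q.1.2‖ ^ 2)) * wt b ε n q.2) z.2 :=
    ((measurable_sw b ε n).indicator (measurableSet_aC1 ε t S n x)).comp measurable_snd
  exact h1.mul h2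

theorem lintegral_hC1_pair (ε b t δ : ℝ) (S : ℕ → Step) (n : ℕ) (x m : Ph) :
    ∫⁻ β, ∫⁻ p, hC1 ε b t δ S n x m (β, p) =
      ∫⁻ q : Ph × (Fin n → Ph), hC1 ε b t δ S n x m q := by
  have h1 := measurable_hC1 ε b t δ S n x
  have h0 : Measurable fun q : Ph × (Fin n → Ph) => (m, q) :=
    measurable_const.prodMk measurable_id
  have hm := h1.comp h0
  simp only [Function.comp_def] at hm
  rw [Measure.volume_eq_prod Ph (Fin n → Ph), lintegral_prod _ hm.aemeasurable]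

/-- The integral over the sister. -/
theorem lintegral_uC1 (hε : 0 < ε) (hb : 0 < b) (S : ℕ → Step) (n : ℕ) (x : Ph)
    (q : Ph × (Fin n → Ph)) : ∫⁻ m, uC1 ε b δ S n x m q ≤
      ENNReal.ofReal (ε ^ 2) * (ENNReal.ofReal Real.pi * I0 (b / 2)) *
        (ENNReal.ofReal (1 + ‖q.1.2‖) * ENNReal.ofReal δ) := by
  have hmm : MeasurableSet {m : Ph | Meets ε (m, q.1)} := by
    have : Measurable fun m : Ph => (m, q.1) := by fun_prop
    exact this measurableSet_meets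
  have h3 := sister_window (δ := δ) hε (by positivity : 0 < b / 2) q.1
    (hitT ε (x, line S n q.1 q.2))
  rw [← lintegral_indicator hmm] at h3
  exact h3

theorem lintegral_hC1 (hε : 0 < ε) (hb : 0 < b) (ht : 0 ≤ t) (S : ℕ → Step) (n : ℕ) (x : Ph) :
    muE ε * ∫⁻ m, ∫⁻ q : Ph × (Fin n → Ph), hC1 ε b t δ S n x m q ≤
      ENNReal.ofReal δ * ((ENNReal.ofReal Real.pi * I0 (b / 2)) *
        (ENNReal.ofReal (1 + 1 / √b) * cF1 (b / 2) 1 t n)) * (lineTarget t 0 x).w ε := by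
  have hHm := measurable_hC1 ε b t δ S n x
  have hAm := measurableSet_aC1 ε t S n x
  have h2 : ∀ q : Ph × (Fin n → Ph), ∫⁻ m, hC1 ε b t δ S n x m q ≤
      (ENNReal.ofReal (ε ^ 2) * (ENNReal.ofReal δ * (ENNReal.ofReal Real.pi * I0 (b / 2)))) *
      (ENNReal.ofReal (1 + ‖q.1.2‖) * (aC1 ε t S n x).indicator (fun q => muE ε *
        ENNReal.ofReal (Real.exp (-b * ‖q.1.2‖ ^ 2)) * wt b ε n q.2) q) := by
    intro q
    have h3 := lintegral_uC1 (δ := δ) hε hb S n x q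
    have hgm : Measurable fun m : Ph => uC1 ε b δ S n x m q :=
      (measurable_uC1 ε b δ S n x).comp (measurable_id.prodMk measurable_const)
    unfold hC1
    rw [lintegral_mul_const _ hgm]
    refine (mul_le_mul' h3 le_rfl).trans (le_of_eq ?_)
    ring
  -- the weight
  have h3 : ∀ q : Ph × (Fin n → Ph), ENNReal.ofReal (1 + ‖q.1.2‖) *
      (aC1 ε t S n x).indicator (fun q => muE ε *
        ENNReal.ofReal (Real.exp (-b * ‖q.1.2‖ ^ 2)) * wt b ε n q.2) q ≤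
      (muE ε * ENNReal.ofReal (1 + 1 / √b)) * (aC1 ε t S n x).indicator (fun q =>
        ENNReal.ofReal (Real.exp (-(b / 2) * ‖q.1.2‖ ^ 2)) * wt (b / 2) ε n q.2) q := by
    intro q
    by_cases hq : q ∈ aC1 ε t S n x
    · rw [indicator_of_mem hq, indicator_of_mem hq]
      have h4 := gw_one_add hb q.1.2
      unfold gw at h4
      calc _ = muE ε * ((ENNReal.ofReal (Real.exp (-b * ‖q.1.2‖ ^ 2)) *
            ENNReal.ofReal (1 + ‖q.1.2‖)) * wt b ε n q.2) := by ring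
        _ ≤ muE ε * ((ENNReal.ofReal (1 + 1 / √b) *
            ENNReal.ofReal (Real.exp (-(b / 2) * ‖q.1.2‖ ^ 2))) * wt (b / 2) ε n q.2) := by
            gcongr
            exact wt_mono (by linarith) _ _
        _ = _ := by ring
    · rw [indicator_of_notMem hq, indicator_of_notMem hq, mul_zero, mul_zero]
  have hwA : Measurable fun q : Ph × (Fin n → Ph) => (aC1 ε t S n x).indicator (fun q =>
        ENNReal.ofReal (Real.exp (-(b / 2) * ‖q.1.2‖ ^ 2)) * wt (b / 2) ε n q.2) q :=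
    (measurable_ew (b / 2) ε n).indicator hAm
  have h5 : ∫⁻ q : Ph × (Fin n → Ph), (aC1 ε t S n x).indicator (fun q =>
        ENNReal.ofReal (Real.exp (-(b / 2) * ‖q.1.2‖ ^ 2)) * wt (b / 2) ε n q.2) q ≤
      ENNReal.ofReal (ε ^ 2) * cF1 (b / 2) 1 t n * (lineTarget t 0 x).w ε := by
    rw [Measure.volume_eq_prod Ph (Fin n → Ph), lintegral_prod _ hwA.aemeasurable]
    have h6 := first_flux_set (b := b / 2) (s := 0) hε (by positivity) zero_le_one ht
      (good_linePath ε t S n) (lineTarget t 0 x)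
    refine h6.trans (le_of_eq ?_)
    unfold cF1
    rw [sub_zero]
    ring
  calc muE ε * ∫⁻ m, ∫⁻ q : Ph × (Fin n → Ph), hC1 ε b t δ S n x m q
      = muE ε * ∫⁻ q : Ph × (Fin n → Ph), ∫⁻ m, hC1 ε b t δ S n x m q := by
        rw [lintegral_lintegral_swap hHm.aemeasurable]
    _ ≤ muE ε * ∫⁻ q : Ph × (Fin n → Ph), (ENNReal.ofReal (ε ^ 2) * (ENNReal.ofReal δ *
        (ENNReal.ofReal Real.pi * I0 (b / 2)))) * ((muE ε * ENNReal.ofReal (1 + 1 / √b)) *
        (aC1 ε t S n x).indicator (fun q => ENNReal.ofReal (Real.exp (-(b / 2) * ‖q.1.2‖ ^ 2)) *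
          wt (b / 2) ε n q.2) q) :=
        mul_le_mul' le_rfl (lintegral_mono fun q => (h2 q).trans (mul_le_mul' le_rfl (h3 q)))
    _ = muE ε * ((ENNReal.ofReal (ε ^ 2) * (ENNReal.ofReal δ *
        (ENNReal.ofReal Real.pi * I0 (b / 2)))) * ((muE ε * ENNReal.ofReal (1 + 1 / √b)) *
        ∫⁻ q : Ph × (Fin n → Ph), (aC1 ε t S n x).indicator (fun q =>
          ENNReal.ofReal (Real.exp (-(b / 2) * ‖q.1.2‖ ^ 2)) * wt (b / 2) ε n q.2) q)) := by
        rw [lintegral_const_mul _ (hwA.const_mul _), lintegral_const_mul _ hwA]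
    _ ≤ muE ε * ((ENNReal.ofReal (ε ^ 2) * (ENNReal.ofReal δ *
        (ENNReal.ofReal Real.pi * I0 (b / 2)))) * ((muE ε * ENNReal.ofReal (1 + 1 / √b)) *
          (ENNReal.ofReal (ε ^ 2) * cF1 (b / 2) 1 t n * (lineTarget t 0 x).w ε))) := by gcongr
    _ = (muE ε * ENNReal.ofReal (ε ^ 2)) * (muE ε * ENNReal.ofReal (ε ^ 2)) *
        (ENNReal.ofReal δ * ((ENNReal.ofReal Real.pi * I0 (b / 2)) *
        (ENNReal.ofReal (1 + 1 / √b) * cF1 (b / 2) 1 t n)) * (lineTarget t 0 x).w ε) := by ring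
    _ = _ := by rw [muE_mul hε, one_mul, one_mul]

/-- The majorant. -/
theorem le_hC1 {c₁ h : ℝ} (hε : 0 < ε) (hb : 0 < b) {n j : ℕ}
    {S S' : ℕ → Step} (F : PathFam ε S' j c₁) {ι : Type*} (I : Finset ι) (T : ι → Target h)
    (x : Ph) {m β : Ph} {p : Fin n → Ph} (a1 : Meets ε (m, β)) (a2 : exT ε (m, β) ∈ Icc 0 t)
    (a3 : Chain ε t S n (exT ε (m, β)) β p) (a4 : Meets ε (x, line S n β p))
    (a5 : time ε S n (exT ε (m, β)) β p ≤ hitT ε (x, line S n β p))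
    (a6 : hitT ε (x, line S n β p) ≤ t) (a7 : hitT ε (x, line S n β p) ≤ exT ε (m, β) + δ)
    {G : ℝ≥0∞} (a8 : G ≤ (muE ε * ENNReal.ofReal (Real.exp (-b * ‖m.2‖ ^ 2)) *
          cR b ε t F I T (exT ε (m, β)) m) *
        (muE ε * ENNReal.ofReal (Real.exp (-b * ‖β.2‖ ^ 2)) * wt b ε n p)) :
    G ≤ (ENNReal.ofReal ((Kc b * t) ^ j / √(j.factorial : ℝ)) * muE ε) *
      hC1 ε b t δ S n x m (β, p) := by
  set C : ℝ≥0∞ := ENNReal.ofReal ((Kc b * t) ^ j / √(j.factorial : ℝ)) with hC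
  have h3 : (β, p) ∈ aC1 ε t S n x := by
    refine ⟨chain_start a2.1 a3, hitT ε (x, line S n β p),
      ⟨max_le (a2.1.trans ((le_time n S _ β p a3).trans a5)) ((time_start a2.1).trans a5), a6⟩, ?_⟩
    have h4 := M.dist_hitT hε a4
    rw [norm_sub_rev] at h4
    exact h4.le
  have h4 : exT ε (m, β) ∈ Icc (hitT ε (x, line S n β p) - δ) (hitT ε (x, line S n β p)) :=
    ⟨by linarith, (le_time n S _ β p a3).trans a5⟩
  have h5 : hC1 ε b t δ S n x m (β, p) = gw (b / 2) m.2 *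
      (muE ε * ENNReal.ofReal (Real.exp (-b * ‖β.2‖ ^ 2)) * wt b ε n p) := by
    unfold hC1 uC1
    rw [indicator_of_mem (show m ∈ {m : Ph | Meets ε (m, β)} from a1), indicator_of_mem h4,
      indicator_of_mem h3, mul_one]
  rw [h5]
  refine a8.trans ?_
  have h6 := cR_le_mass (F := F) (I := I) (T := T) (m := m) hε hb a2
  have h7 : ENNReal.ofReal (Real.exp (-b * ‖m.2‖ ^ 2)) *
      ENNReal.ofReal (Real.exp (b / 2 * ‖m.2‖ ^ 2)) = gw (b / 2) m.2 := by
    unfold gw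
    rw [← ENNReal.ofReal_mul (Real.exp_nonneg _), ← Real.exp_add]
    congr 2; ring
  calc _ ≤ (muE ε * ENNReal.ofReal (Real.exp (-b * ‖m.2‖ ^ 2)) *
        (C * ENNReal.ofReal (Real.exp (b / 2 * ‖m.2‖ ^ 2)))) *
        (muE ε * ENNReal.ofReal (Real.exp (-b * ‖β.2‖ ^ 2)) * wt b ε n p) := by gcongr
    _ = (C * muE ε) * ((ENNReal.ofReal (Real.exp (-b * ‖m.2‖ ^ 2)) *
        ENNReal.ofReal (Real.exp (b / 2 * ‖m.2‖ ^ 2))) *
        (muE ε * ENNReal.ofReal (Real.exp (-b * ‖β.2‖ ^ 2)) * wt b ε n p)) := by ring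
    _ = _ := by rw [h7]

/-- **Case C1**: the last line of the chain of the sister `β` of the free line `m` hits `x` less than
`δ` after the birth of `m`. -/
theorem caseC1 {c₁ h : ℝ} (hε : 0 < ε) (hb : 0 < b) (ht : 0 ≤ t) {n j : ℕ}
    {S S' : ℕ → Step} (F : PathFam ε S' j c₁) {ι : Type*} (I : Finset ι) (T : ι → Target h)
    (x : Ph) {G : Ph → Ph → (Fin n → Ph) → ℝ≥0∞}
    (hG : ∀ m β p, G m β p ≠ 0 → Meets ε (m, β) ∧ exT ε (m, β) ∈ Icc 0 t ∧
      Chain ε t S n (exT ε (m, β)) β p ∧ Meets ε (x, line S n β p) ∧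
      time ε S n (exT ε (m, β)) β p ≤ hitT ε (x, line S n β p) ∧ hitT ε (x, line S n β p) ≤ t ∧
      hitT ε (x, line S n β p) ≤ exT ε (m, β) + δ ∧
      G m β p ≤ (muE ε * ENNReal.ofReal (Real.exp (-b * ‖m.2‖ ^ 2)) *
          cR b ε t F I T (exT ε (m, β)) m) *
        (muE ε * ENNReal.ofReal (Real.exp (-b * ‖β.2‖ ^ 2)) * wt b ε n p)) :
    ∫⁻ m, ∫⁻ β, ∫⁻ p, G m β p ≤ ENNReal.ofReal δ * cC1 b t n j * (lineTarget t 0 x).w ε := by
  set C : ℝ≥0∞ := ENNReal.ofReal ((Kc b * t) ^ j / √(j.factorial : ℝ)) with hC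
  have hHm := measurable_hC1 ε b t δ S n x
  have h1 : ∀ m β p, G m β p ≤ (C * muE ε) * hC1 ε b t δ S n x m (β, p) := by
    intro m β p
    by_cases h0 : G m β p = 0
    · rw [h0]; exact zero_le
    obtain ⟨a1, a2, a3, a4, a5, a6, a7, a8⟩ := hG m β p h0
    exact le_hC1 hε hb F I T x a1 a2 a3 a4 a5 a6 a7 a8
  have hCm : C * muE ε ≠ ∞ := ENNReal.mul_ne_top ENNReal.ofReal_ne_top muE_ne_top
  calc ∫⁻ m, ∫⁻ β, ∫⁻ p, G m β p
      ≤ ∫⁻ m, ∫⁻ β, ∫⁻ p, (C * muE ε) * hC1 ε b t δ S n x m (β, p) :=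
        lintegral_mono fun m => lintegral_mono fun β => lintegral_mono fun p => h1 m β p
    _ = C * (muE ε * ∫⁻ m, ∫⁻ q : Ph × (Fin n → Ph), hC1 ε b t δ S n x m q) := by
        simp_rw [lintegral_const_mul' _ _ hCm, lintegral_hC1_pair]
        rw [mul_assoc]
    _ ≤ C * (ENNReal.ofReal δ * ((ENNReal.ofReal Real.pi * I0 (b / 2)) *
        (ENNReal.ofReal (1 + 1 / √b) * cF1 (b / 2) 1 t n)) * (lineTarget t 0 x).w ε) :=
        mul_le_mul' le_rfl (lintegral_hC1 hε hb ht S n x)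
    _ = _ := by unfold cC1; ring

/-! ### The integral over the branch of the second marked line -/

/-- The constant of the inner integral of case C. -/
noncomputable def cC (ε b c₁ δ t t' : ℝ) (n j : ℕ) (w : ℝ≥0∞) : ℝ≥0∞ :=
  ENNReal.ofReal (ε ^ 2) * cC2H b c₁ δ t t' n j * w + ENNReal.ofReal δ * cC1 b t n j

/-- **The integral over the branch of `m`**: the last line of the chain of the sister `β` of `m` hits
`x`, and the chain of `m` is in contact with a target before the horizon. -/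
theorem caseC_inner {c₁ h t' : ℝ} (hε : 0 < ε) (hb : 0 < b) (hδ : 0 < δ) (hc₁ : 0 ≤ c₁)
    (ht : 0 ≤ t) (ht' : h < t') {n j : ℕ} {S S' : ℕ → Step} (F : PathFam ε S' j c₁) {ι : Type*}
    (I : Finset ι) (T : ι → Target h) (x : Ph) {G : Ph → Ph → (Fin n → Ph) → ℝ≥0∞}
    (hG : ∀ m β p, G m β p ≠ 0 → Meets ε (m, β) ∧ exT ε (m, β) ∈ Icc 0 t ∧
      Chain ε t S n (exT ε (m, β)) β p ∧ Meets ε (x, line S n β p) ∧
      time ε S n (exT ε (m, β)) β p ≤ hitT ε (x, line S n β p) ∧ hitT ε (x, line S n β p) ≤ t ∧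
      G m β p ≤ (muE ε * ENNReal.ofReal (Real.exp (-b * ‖m.2‖ ^ 2)) *
          cR b ε t F I T (exT ε (m, β)) m) *
        (muE ε * ENNReal.ofReal (Real.exp (-b * ‖β.2‖ ^ 2)) * wt b ε n p)) :
    ∫⁻ m, ∫⁻ β, ∫⁻ p, G m β p ≤
      cC ε b c₁ δ t t' n j (∑ i ∈ I, ((T i).extend t').w ε) * (lineTarget t 0 x).w ε := by
  classical
  set C : ℝ≥0∞ := ENNReal.ofReal ((Kc b * t) ^ j / √(j.factorial : ℝ)) with hC
  have hCm : C * muE ε ≠ ∞ := ENNReal.mul_ne_top ENNReal.ofReal_ne_top muE_ne_top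
  set near : Ph → Ph → (Fin n → Ph) → Prop := fun m β p =>
    hitT ε (x, line S n β p) ≤ exT ε (m, β) + δ with hnear
  set G1 : Ph → Ph → (Fin n → Ph) → ℝ≥0∞ := fun m β p => if near m β p then G m β p else 0
    with hG1
  set G2 : Ph → Ph → (Fin n → Ph) → ℝ≥0∞ := fun m β p => if near m β p then 0 else G m β p
    with hG2
  have hHm := measurable_hC1 ε b t δ S n x
  have h1 : ∀ m β p, G m β p ≤ (C * muE ε) * hC1 ε b t δ S n x m (β, p) + G2 m β p := by
    intro m β p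
    by_cases hn : near m β p
    · have h2 : G2 m β p = 0 := if_pos hn
      rw [h2, add_zero]
      by_cases h0 : G m β p = 0
      · rw [h0]; exact zero_le
      obtain ⟨a1, a2, a3, a4, a5, a6, a8⟩ := hG m β p h0
      exact le_hC1 hε hb F I T x a1 a2 a3 a4 a5 a6 hn a8
    · have h2 : G2 m β p = G m β p := if_neg hn
      rw [h2]
      exact le_add_self
  -- the sum
  have hm3 : Measurable fun z : Ph × (Ph × (Fin n → Ph)) =>
      (C * muE ε) * hC1 ε b t δ S n x z.1 z.2 := hHm.const_mul _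
  have h2 : ∀ m, ∫⁻ β, ∫⁻ p, ((C * muE ε) * hC1 ε b t δ S n x m (β, p) + G2 m β p) =
      (∫⁻ β, ∫⁻ p, (C * muE ε) * hC1 ε b t δ S n x m (β, p)) + ∫⁻ β, ∫⁻ p, G2 m β p := by
    intro m
    have e0 : Measurable fun q : Ph × (Fin n → Ph) => (m, q) :=
      measurable_const.prodMk measurable_id
    have e1 := hm3.comp e0
    simp only [Function.comp_def] at e1
    have e2 : ∀ β : Ph, ∫⁻ p, ((C * muE ε) * hC1 ε b t δ S n x m (β, p) + G2 m β p) =
        (∫⁻ p, (C * muE ε) * hC1 ε b t δ S n x m (β, p)) + ∫⁻ p, G2 m β p := by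
      intro β
      have e3 : Measurable fun p : Fin n → Ph => (β, p) := measurable_const.prodMk measurable_id
      have e4 := e1.comp e3
      simp only [Function.comp_def] at e4
      exact lintegral_add_left e4 _
    simp_rw [e2]
    exact lintegral_add_left e1.lintegral_prod_right' _
  have h3 : ∫⁻ m, ∫⁻ β, ∫⁻ p, ((C * muE ε) * hC1 ε b t δ S n x m (β, p) + G2 m β p) =
      (∫⁻ m, ∫⁻ β, ∫⁻ p, (C * muE ε) * hC1 ε b t δ S n x m (β, p)) +
        ∫⁻ m, ∫⁻ β, ∫⁻ p, G2 m β p := by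
    simp_rw [h2]
    have e1 : Measurable fun z : Ph × Ph =>
        ∫⁻ p : Fin n → Ph, (C * muE ε) * hC1 ε b t δ S n x z.1 (z.2, p) := by
      have e2 : Measurable fun z : (Ph × Ph) × (Fin n → Ph) => (z.1.1, (z.1.2, z.2)) :=
        measurable_fst.fst.prodMk (measurable_fst.snd.prodMk measurable_snd)
      have e3 := hm3.comp e2
      simp only [Function.comp_def] at e3
      exact e3.lintegral_prod_right'
    exact lintegral_add_left e1.lintegral_prod_right' _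
  -- the two parts
  have h4 : ∫⁻ m, ∫⁻ β, ∫⁻ p, (C * muE ε) * hC1 ε b t δ S n x m (β, p) ≤
      ENNReal.ofReal δ * cC1 b t n j * (lineTarget t 0 x).w ε := by
    simp_rw [lintegral_const_mul' _ _ hCm, lintegral_hC1_pair]
    rw [mul_assoc]
    refine (mul_le_mul' le_rfl (lintegral_hC1 hε hb ht S n x)).trans (le_of_eq ?_)
    unfold cC1
    ring
  have h5 : ∫⁻ m, ∫⁻ β, ∫⁻ p, G2 m β p ≤ ENNReal.ofReal (ε ^ 2) * cC2H b c₁ δ t t' n j *
      ((lineTarget t 0 x).w ε * ∑ i ∈ I, ((T i).extend t').w ε) := by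
    refine caseC2_H hε hb hδ hc₁ ht' (S := S) F I T (lineTarget t 0 x) fun m β p hne => ?_
    have hn : ¬near m β p := fun h => hne (if_pos h)
    have e1 : G2 m β p = G m β p := if_neg hn
    rw [e1] at hne ⊢
    obtain ⟨a1, a2, a3, a4, a5, a6, a8⟩ := hG m β p hne
    refine ⟨a1, a2, ⟨a3, hitT ε (x, line S n β p), ⟨max_le (max_le ?_ ?_) a5, a6⟩, ?_⟩, a8⟩
    · exact a2.1.trans ((le_time n S _ β p a3).trans a5)
    · exact (not_le.1 hn).le
    · have h6 := M.dist_hitT hε a4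
      rw [norm_sub_rev] at h6
      exact h6.le
  calc ∫⁻ m, ∫⁻ β, ∫⁻ p, G m β p
      ≤ ∫⁻ m, ∫⁻ β, ∫⁻ p, ((C * muE ε) * hC1 ε b t δ S n x m (β, p) + G2 m β p) :=
        lintegral_mono fun m => lintegral_mono fun β => lintegral_mono fun p => h1 m β p
    _ ≤ _ := by
        rw [h3]
        refine (add_le_add h4 h5).trans (le_of_eq ?_)
        unfold cC
        ring

/-! ### The integral over the branch of the first marked line -/

theorem lineTarget_w_le (hε1 : ε ≤ 1) (ht : 0 ≤ t) (x : Ph) :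
    (lineTarget t 0 x).w ε ≤ ENNReal.ofReal (1 + t) * ENNReal.ofReal (1 + ‖x.2‖) := by
  have h0 := norm_nonneg x.2
  rw [lineTarget_w, sub_zero, ← ofReal_norm, ← ENNReal.ofReal_one,
    ← ENNReal.ofReal_add zero_le_one h0, ← ENNReal.ofReal_mul (by positivity),
    ← ENNReal.ofReal_mul (by positivity)]
  refine (add_le_add (ENNReal.ofReal_le_ofReal hε1) le_rfl).trans ?_
  rw [← ENNReal.ofReal_add zero_le_one (by positivity)]
  apply ENNReal.ofReal_le_ofReal
  nlinarith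

theorem wt_ne_top (b ε : ℝ) (m : ℕ) (p : Fin m → Ph) : wt b ε m p ≠ ∞ := by
  unfold wt
  exact ENNReal.prod_ne_top fun i _ => ENNReal.mul_ne_top muE_ne_top ENNReal.ofReal_ne_top

/-- The constant of the outer integral of case C. -/
noncomputable def cO (b t : ℝ) (i : ℕ) : ℝ≥0∞ :=
  K1.sig univ * (ENNReal.ofReal (1 + t) * ENNReal.ofReal (1 + 1 / √b) * cM (b / 2) t i *
    ENNReal.ofReal (1 + 1 / √b))

theorem cO_ne_top (hb : 0 < b) (t : ℝ) (i : ℕ) : cO b t i ≠ ∞ :=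
  ENNReal.mul_ne_top (measure_ne_top K1.sig univ) (ENNReal.mul_ne_top (ENNReal.mul_ne_top
    (ENNReal.mul_ne_top ENNReal.ofReal_ne_top ENNReal.ofReal_ne_top)
      (cM_ne_top (by positivity) _)) ENNReal.ofReal_ne_top)

/-- **The integral over the branch of `e`**: `Ψ` is bounded by a function of the source `e`, with a
weight of the last line of the chain of its sister. -/
theorem caseC_outer (hε : 0 < ε) (hε1 : ε ≤ 1) (hb : 0 < b) (ht : 0 ≤ t) {i : ℕ} {S : ℕ → Step}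
    {g : ℝ → Ph → ℝ≥0∞} {Ψ : Ph → Ph → (Fin i → Ph) → ℝ≥0∞}
    (hΨ : ∀ e β p, Ψ e β p ≠ 0 → Meets ε (e, β) ∧ exT ε (e, β) ∈ Icc 0 t ∧
      Chain ε t S i (exT ε (e, β)) β p ∧
      Ψ e β p ≤ g (exT ε (e, β)) e * (gw b e.2 *
        (muE ε * ENNReal.ofReal (Real.exp (-b * ‖β.2‖ ^ 2)) * wt b ε i p) *
          (lineTarget t 0 (line S i β p)).w ε)) :
    ∫⁻ e, ∫⁻ β, ∫⁻ p, Ψ e β p ≤
      cO b t i * ∫⁻ e : Ph, ∫⁻ σ in Icc (0 : ℝ) t, gw (b / 2) e.2 * g σ e := by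
  have hex : ∀ e β, (∫⁻ p, Ψ e β p) ≠ 0 → ∃ p, Ψ e β p ≠ 0 := by
    intro e β h
    by_contra hcon
    push Not at hcon
    exact h (by simp [hcon])
  set A : ℝ≥0∞ := ENNReal.ofReal (1 + t) * ENNReal.ofReal (1 + 1 / √b) with hA
  have h1 := caseA' (t := t) (F := fun e β => ∫⁻ p, Ψ e β p) hε (fun e β h => by
      obtain ⟨p, hp⟩ := hex e β h
      exact ⟨(hΨ e β p hp).1, (hΨ e β p hp).2.1⟩)
    (h := fun e σ => (A * cM (b / 2) t i * ENNReal.ofReal (1 + 1 / √b)) *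
      (gw (b / 2) e.2 * g σ e))
    (by
      intro e σ hσ ξ hξ
      have h2 := sis_mass (b := b / 2) (t := t) (S := S) (g := A * (gw b e.2 * g σ e)) hε
        (by positivity) e hσ hξ (Ψ := Ψ e) (by
          intro β p hβ hne
          obtain ⟨-, -, a3, a4⟩ := hΨ e β p hne
          rw [hβ] at a3 a4
          refine ⟨a3, a4.trans ?_⟩
          have h3 := weight_line (ε := ε) hb S i β p
          have h4 := lineTarget_w_le hε1 ht (line S i β p)
          calc g σ e * (gw b e.2 * (muE ε * ENNReal.ofReal (Real.exp (-b * ‖β.2‖ ^ 2)) *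
                wt b ε i p) * (lineTarget t 0 (line S i β p)).w ε)
              ≤ g σ e * (gw b e.2 * (muE ε * ENNReal.ofReal (Real.exp (-b * ‖β.2‖ ^ 2)) *
                wt b ε i p) * (ENNReal.ofReal (1 + t) *
                  ENNReal.ofReal (1 + ‖(line S i β p).2‖))) := by gcongr
            _ = (ENNReal.ofReal (1 + t) * (gw b e.2 * g σ e)) * muE ε *
                (ENNReal.ofReal (1 + ‖(line S i β p).2‖) *
                (ENNReal.ofReal (Real.exp (-b * ‖β.2‖ ^ 2)) * wt b ε i p)) := by ring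
            _ ≤ (ENNReal.ofReal (1 + t) * (gw b e.2 * g σ e)) * muE ε *
                (ENNReal.ofReal (1 + 1 / √b) *
                (ENNReal.ofReal (Real.exp (-(b / 2) * ‖β.2‖ ^ 2)) * wt (b / 2) ε i p)) :=
                mul_le_mul' le_rfl h3
            _ = _ := by rw [hA]; ring)
      have h5 := gw_one_add hb e.2
      calc ∫⁻ u : E3, (ENNReal.ofReal (ε ^ 2) * ‖e.2 - u‖ₑ) * ∫⁻ p, Ψ e (sis ε e u σ ξ) p
          = ∫⁻ u : E3, ∫⁻ p, (ENNReal.ofReal (ε ^ 2) * ‖e.2 - u‖ₑ) *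
            Ψ e (sis ε e u σ ξ) p := by
            refine lintegral_congr fun u => ?_
            rw [lintegral_const_mul' _ _ (ENNReal.mul_ne_top ENNReal.ofReal_ne_top enorm_ne_top)]
        _ ≤ _ := h2
        _ = A * g σ e * cM (b / 2) t i * (gw b e.2 * ENNReal.ofReal (1 + ‖e.2‖)) := by ring
        _ ≤ A * g σ e * cM (b / 2) t i * (ENNReal.ofReal (1 + 1 / √b) * gw (b / 2) e.2) := by
            gcongr
        _ = _ := by ring)
  refine h1.trans (le_of_eq ?_)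
  have hK : A * cM (b / 2) t i * ENNReal.ofReal (1 + 1 / √b) ≠ ∞ :=
    ENNReal.mul_ne_top (ENNReal.mul_ne_top (ENNReal.mul_ne_top ENNReal.ofReal_ne_top
      ENNReal.ofReal_ne_top) (cM_ne_top (by positivity) _)) ENNReal.ofReal_ne_top
  simp_rw [lintegral_const_mul' _ _ hK]
  unfold cO
  rw [← mul_assoc]

/-- **Case C.**  `e` with its sister `β` and its chain `p`, ending in the line `x`; `m` with its sister
`β'` and its chain `p'`, ending in a line which hits `x`; the targets `T` and the horizon `h` depend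
on the source `e`. -/
theorem caseC {c₁ : ℝ} (hε : 0 < ε) (hε1 : ε ≤ 1) (hb : 0 < b) (hδ : 0 < δ) (hc₁ : 0 ≤ c₁)
    (ht : 0 ≤ t) {h t' : ℝ → Ph → ℝ} (ht' : ∀ σ e, h σ e < t' σ e) {i n j : ℕ}
    {S₁ S₂ S₃ : ℕ → Step} (F : PathFam ε S₃ j c₁) {ι : Type*} (I : ℝ → Ph → Finset ι)
    (T : ∀ (σ : ℝ) (e : Ph), ι → Target (h σ e)) {g : ℝ → Ph → ℝ≥0∞} (hg : ∀ σ e, g σ e ≠ ∞)
    {G : Ph → Ph → (Fin i → Ph) → Ph → Ph → (Fin n → Ph) → ℝ≥0∞}
    (hG : ∀ e β p m β' p', G e β p m β' p' ≠ 0 →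
      (Meets ε (e, β) ∧ exT ε (e, β) ∈ Icc 0 t ∧ Chain ε t S₁ i (exT ε (e, β)) β p) ∧
      (Meets ε (m, β') ∧ exT ε (m, β') ∈ Icc 0 t ∧ Chain ε t S₂ n (exT ε (m, β')) β' p') ∧
      (Meets ε (line S₁ i β p, line S₂ n β' p') ∧
        time ε S₂ n (exT ε (m, β')) β' p' ≤ hitT ε (line S₁ i β p, line S₂ n β' p') ∧
        hitT ε (line S₁ i β p, line S₂ n β' p') ≤ t) ∧
      G e β p m β' p' ≤ g (exT ε (e, β)) e * (gw b e.2 *
        (muE ε * ENNReal.ofReal (Real.exp (-b * ‖β.2‖ ^ 2)) * wt b ε i p)) *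
        ((muE ε * ENNReal.ofReal (Real.exp (-b * ‖m.2‖ ^ 2)) *
          cR b ε t F (I (exT ε (e, β)) e) (T (exT ε (e, β)) e) (exT ε (m, β')) m) *
        (muE ε * ENNReal.ofReal (Real.exp (-b * ‖β'.2‖ ^ 2)) * wt b ε n p'))) :
    ∫⁻ e, ∫⁻ β, ∫⁻ p, ∫⁻ m, ∫⁻ β', ∫⁻ p', G e β p m β' p' ≤
      cO b t i * ∫⁻ e : Ph, ∫⁻ σ in Icc (0 : ℝ) t, gw (b / 2) e.2 * (g σ e *
        cC ε b c₁ δ t (t' σ e) n j (∑ k ∈ I σ e, ((T σ e k).extend (t' σ e)).w ε)) := by
  refine caseC_outer hε hε1 hb ht (S := S₁) (g := fun σ e => g σ e * cC ε b c₁ δ t (t' σ e) n j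
    (∑ k ∈ I σ e, ((T σ e k).extend (t' σ e)).w ε)) fun e β p hne => ?_
  obtain ⟨m, β', p', h0⟩ : ∃ m β' p', G e β p m β' p' ≠ 0 := by
    by_contra hcon
    push Not at hcon
    exact hne (by simp [hcon])
  obtain ⟨⟨a1, a2, a3⟩, -⟩ := hG e β p m β' p' h0
  refine ⟨a1, a2, a3, ?_⟩
  set σ := exT ε (e, β) with hσ
  set A : ℝ≥0∞ := g σ e * (gw b e.2 *
    (muE ε * ENNReal.ofReal (Real.exp (-b * ‖β.2‖ ^ 2)) * wt b ε i p)) with hA
  have hA0 : A ≠ ∞ := ENNReal.mul_ne_top (hg σ e) (ENNReal.mul_ne_top ENNReal.ofReal_ne_top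
    (ENNReal.mul_ne_top (ENNReal.mul_ne_top muE_ne_top ENNReal.ofReal_ne_top) (wt_ne_top _ _ _ _)))
  classical
  set x := line S₁ i β p with hx
  set cond : Ph → Ph → (Fin n → Ph) → Prop := fun m β' p' =>
    (Meets ε (m, β') ∧ exT ε (m, β') ∈ Icc 0 t ∧ Chain ε t S₂ n (exT ε (m, β')) β' p') ∧
      (Meets ε (x, line S₂ n β' p') ∧
        time ε S₂ n (exT ε (m, β')) β' p' ≤ hitT ε (x, line S₂ n β' p') ∧
        hitT ε (x, line S₂ n β' p') ≤ t) with hcond
  set G' : Ph → Ph → (Fin n → Ph) → ℝ≥0∞ := fun m β' p' => if cond m β' p' then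
    (muE ε * ENNReal.ofReal (Real.exp (-b * ‖m.2‖ ^ 2)) *
      cR b ε t F (I σ e) (T σ e) (exT ε (m, β')) m) *
      (muE ε * ENNReal.ofReal (Real.exp (-b * ‖β'.2‖ ^ 2)) * wt b ε n p') else 0 with hG'
  have h1 : ∀ m β' p', G e β p m β' p' ≤ A * G' m β' p' := by
    intro m β' p'
    by_cases h2 : G e β p m β' p' = 0
    · rw [h2]; exact zero_le
    obtain ⟨-, b1, b2, b3⟩ := hG e β p m β' p' h2
    have h3 : cond m β' p' := ⟨b1, b2⟩
    rw [hG']
    simp only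
    rw [if_pos h3]
    exact b3
  have h2 := caseC_inner (t' := t' σ e) hε hb hδ hc₁ ht (ht' σ e) (S := S₂) F (I σ e) (T σ e) x
    (G := G') (by
      intro m β' p' hne
      have h3 : cond m β' p' := by
        by_contra hcon
        exact hne (if_neg hcon)
      obtain ⟨⟨b1, b2, b3⟩, b4, b5, b6⟩ := h3
      refine ⟨b1, b2, b3, b4, b5, b6, ?_⟩
      have h4 : G' m β' p' = _ := if_pos ⟨⟨b1, b2, b3⟩, b4, b5, b6⟩
      exact h4.le)
  calc ∫⁻ m, ∫⁻ β', ∫⁻ p', G e β p m β' p' ≤ ∫⁻ m, ∫⁻ β', ∫⁻ p', A * G' m β' p' :=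
        lintegral_mono fun m => lintegral_mono fun β' => lintegral_mono fun p' => h1 m β' p'
    _ = A * ∫⁻ m, ∫⁻ β', ∫⁻ p', G' m β' p' := by
        simp_rw [lintegral_const_mul' _ _ hA0]
    _ ≤ A * (cC ε b c₁ δ t (t' σ e) n j (∑ k ∈ I σ e, ((T σ e k).extend (t' σ e)).w ε) *
        (lineTarget t 0 x).w ε) := mul_le_mul' le_rfl h2
    _ = _ := by rw [hA]; ring

theorem cF1_mono {b c₁ t t' : ℝ} (h0 : 0 ≤ t) (h : t ≤ t') (j : ℕ) :
    cF1 b c₁ t j ≤ cF1 b c₁ t' j := by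
  unfold cF1
  have h1 := Kc_nonneg (b / 2)
  have h2 := D2_nonneg b
  have h3 : 0 ≤ Kc (b / 2) * t := mul_nonneg h1 h0
  gcongr

theorem cC_mono {b c₁ δ t t₁ t₂ : ℝ} (h0 : 0 ≤ t₁) (h : t₁ ≤ t₂) (n j : ℕ) {w w' : ℝ≥0∞}
    (hw : w ≤ w') : cC ε b c₁ δ t t₁ n j w ≤ cC ε b c₁ δ t t₂ n j w' := by
  unfold cC cC2H
  have := cF1_mono (b := b / 2) (c₁ := c₁) h0 h j
  gcongr

theorem cC_ne_top (hb : 0 < b) (c₁ δ t t' : ℝ) (n j : ℕ) {w : ℝ≥0∞} (hw : w ≠ ∞) :
    cC ε b c₁ δ t t' n j w ≠ ∞ :=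
  ENNReal.add_ne_top.2 ⟨ENNReal.mul_ne_top (ENNReal.mul_ne_top ENNReal.ofReal_ne_top
    (cC2H_ne_top _ _ _ _ _ _ _)) hw, ENNReal.mul_ne_top ENNReal.ofReal_ne_top
      (cC1_ne_top hb _ _ _)⟩

theorem Target.extend_w' {h : ℝ} (hε : 0 < ε) (T : Target h) :
    (T.extend (h + ε)).w ε ≤ 2 * T.w ε := by
  refine (T.extend_w (by linarith)).trans ?_
  rw [show h + ε - h = ε by ring, two_mul]
  refine add_le_add le_rfl ?_
  unfold Target.w
  exact le_self_add

/-- **Case C**, with horizons in `[0, t]`. -/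
theorem caseC' {c₁ : ℝ} (hε : 0 < ε) (hε1 : ε ≤ 1) (hb : 0 < b) (hδ : 0 < δ) (hc₁ : 0 ≤ c₁)
    (ht : 0 ≤ t) {h : ℝ → Ph → ℝ} (hh : ∀ σ e, h σ e ∈ Icc 0 t) {i n j : ℕ}
    {S₁ S₂ S₃ : ℕ → Step} (F : PathFam ε S₃ j c₁) {ι : Type*} (I : ℝ → Ph → Finset ι)
    (T : ∀ (σ : ℝ) (e : Ph), ι → Target (h σ e)) {g : ℝ → Ph → ℝ≥0∞} (hg : ∀ σ e, g σ e ≠ ∞)
    {w : ℝ≥0∞} (hw0 : w ≠ ∞) (hw : ∀ σ e, g σ e ≠ 0 → ∑ k ∈ I σ e, (T σ e k).w ε ≤ w)
    {G : Ph → Ph → (Fin i → Ph) → Ph → Ph → (Fin n → Ph) → ℝ≥0∞}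
    (hG : ∀ e β p m β' p', G e β p m β' p' ≠ 0 →
      (Meets ε (e, β) ∧ exT ε (e, β) ∈ Icc 0 t ∧ Chain ε t S₁ i (exT ε (e, β)) β p) ∧
      (Meets ε (m, β') ∧ exT ε (m, β') ∈ Icc 0 t ∧ Chain ε t S₂ n (exT ε (m, β')) β' p') ∧
      (Meets ε (line S₁ i β p, line S₂ n β' p') ∧
        time ε S₂ n (exT ε (m, β')) β' p' ≤ hitT ε (line S₁ i β p, line S₂ n β' p') ∧
        hitT ε (line S₁ i β p, line S₂ n β' p') ≤ t) ∧
      G e β p m β' p' ≤ g (exT ε (e, β)) e * (gw b e.2 *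
        (muE ε * ENNReal.ofReal (Real.exp (-b * ‖β.2‖ ^ 2)) * wt b ε i p)) *
        ((muE ε * ENNReal.ofReal (Real.exp (-b * ‖m.2‖ ^ 2)) *
          cR b ε t F (I (exT ε (e, β)) e) (T (exT ε (e, β)) e) (exT ε (m, β')) m) *
        (muE ε * ENNReal.ofReal (Real.exp (-b * ‖β'.2‖ ^ 2)) * wt b ε n p'))) :
    ∫⁻ e, ∫⁻ β, ∫⁻ p, ∫⁻ m, ∫⁻ β', ∫⁻ p', G e β p m β' p' ≤
      cO b t i * cC ε b c₁ δ t (t + 1) n j (2 * w) *
        ∫⁻ e : Ph, ∫⁻ σ in Icc (0 : ℝ) t, gw (b / 2) e.2 * g σ e := by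
  have h1 := caseC (h := h) (t' := fun σ e => h σ e + ε) hε hε1 hb hδ hc₁ ht
    (fun σ e => by linarith) F I T hg hG
  refine h1.trans ?_
  have h2 : ∀ σ e, gw (b / 2) e.2 * (g σ e * cC ε b c₁ δ t (h σ e + ε) n j
      (∑ k ∈ I σ e, ((T σ e k).extend (h σ e + ε)).w ε)) ≤
      cC ε b c₁ δ t (t + 1) n j (2 * w) * (gw (b / 2) e.2 * g σ e) := by
    intro σ e
    by_cases h0 : g σ e = 0
    · rw [h0]; simp
    have h3 : ∑ k ∈ I σ e, ((T σ e k).extend (h σ e + ε)).w ε ≤ 2 * w := by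
      refine (Finset.sum_le_sum fun k _ => (T σ e k).extend_w' hε).trans ?_
      rw [← Finset.mul_sum]
      exact mul_le_mul' le_rfl (hw σ e h0)
    have h4 := cC_mono (ε := ε) (b := b) (c₁ := c₁) (δ := δ) (t := t)
      (by linarith [(hh σ e).1] : 0 ≤ h σ e + ε)
      (by linarith [(hh σ e).2] : h σ e + ε ≤ t + 1) n j h3
    calc _ ≤ gw (b / 2) e.2 * (g σ e * cC ε b c₁ δ t (t + 1) n j (2 * w)) := by gcongr
      _ = _ := by ring
  rw [mul_assoc]
  refine mul_le_mul' le_rfl ?_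
  have hC : cC ε b c₁ δ t (t + 1) n j (2 * w) ≠ ∞ :=
    cC_ne_top hb _ _ _ _ _ _ (ENNReal.mul_ne_top (by norm_num) hw0)
  rw [← lintegral_const_mul' _ _ hC]
  refine lintegral_mono fun e => ?_
  simp only
  rw [← lintegral_const_mul' _ _ hC]
  exact lintegral_mono fun σ => h2 σ e

end Vale.Agent.P119.FL
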