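import Vale.Agent.P119.FL.Hit

/-!
# P119: chains of collisions of a line with given partner lines (`helper690`)

A chain starts with a line `l` at time `s`; the partners are lines `p 0, …, p (m-1)` (points of
`Ph`).  At each hit the current line is replaced by `(S i).f (l, p i)` (one of the two outgoing lines,
or the old line of the partner, …).
-/

open MeasureTheory Set Filter Topology Metric ProbabilityTheory
open scoped ENNReal

namespace Vale.Agent.P119.FL

open KU

/-- A rule giving the next line of a chain after a hit of two lines. -/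
structure Step where
  f : Ph × Ph → Ph
  meas : Measurable f
  boost : ∀ (c : Ph) (q : Ph × Ph), f (KU.boost c q.1, KU.boost c q.2) = KU.boost c (f q)
  energy : ∀ q : Ph × Ph, ‖(f q).2‖ ^ 2 ≤ ‖q.1.2‖ ^ 2 + ‖q.2.2‖ ^ 2

/-- The line which hits continues undeflected. -/
def Step.keep : Step where
  f q := q.1
  meas := measurable_fst
  boost _ _ := rfl
  energy q := le_add_of_nonneg_right (by positivity)

/-- The undeflected continuation of the partner. -/
def Step.old : Step where
  f q := q.2
  meas := measurable_snd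
  boost _ _ := rfl
  energy q := le_add_of_nonneg_left (by positivity)

/-- The outgoing line of the particle which hits. -/
noncomputable def Step.out1 {Φ : E3 → ℝ} {ε : ℝ} (hΦ : IsPotential Φ) (hε : ε ≠ 0) : Step where
  f q := (sc2 Φ ε q).1
  meas := (measurable_sc2 hΦ hε).fst
  boost c q := by rw [sc2_boost]
  energy q := by
    have := energy_sc2 hΦ hε q
    nlinarith [sq_nonneg ‖(sc2 Φ ε q).2.2‖]

/-- The outgoing line of the partner. -/
noncomputable def Step.out2 {Φ : E3 → ℝ} {ε : ℝ} (hΦ : IsPotential Φ) (hε : ε ≠ 0) : Step where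
  f q := (sc2 Φ ε q).2
  meas := (measurable_sc2 hΦ hε).snd
  boost c q := by rw [sc2_boost]
  energy q := by
    have := energy_sc2 hΦ hε q
    nlinarith [sq_nonneg ‖(sc2 Φ ε q).1.2‖]

/-- The line after `m` hits. -/
def line (S : ℕ → Step) : (m : ℕ) → Ph → (Fin m → Ph) → Ph
  | 0, l, _ => l
  | m + 1, l, p => line (fun n => S (n + 1)) m ((S 0).f (l, p 0)) (fun i => p i.succ)

/-- The time of the last hit. -/
noncomputable def time (ε : ℝ) (S : ℕ → Step) : (m : ℕ) → ℝ → Ph → (Fin m → Ph) → ℝ
  | 0, s, _, _ => s
  | m + 1, _, l, p => time ε (fun n => S (n + 1)) m (hitT ε (l, p 0)) ((S 0).f (l, p 0))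
      (fun i => p i.succ)

/-- All the hits exist, in the right order, between the times `s` and `t`. -/
def Chain (ε t : ℝ) (S : ℕ → Step) : (m : ℕ) → ℝ → Ph → (Fin m → Ph) → Prop
  | 0, _, _, _ => True
  | m + 1, s, l, p => Meets ε (l, p 0) ∧ s < hitT ε (l, p 0) ∧ hitT ε (l, p 0) < t ∧
      Chain ε t (fun n => S (n + 1)) m (hitT ε (l, p 0)) ((S 0).f (l, p 0)) (fun i => p i.succ)

/-- The last pair of lines which hit each other. -/
def lastPair (S : ℕ → Step) : (m : ℕ) → Ph → (Fin (m + 1) → Ph) → Ph × Ph
  | 0, l, p => (l, p 0)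
  | m + 1, l, p => lastPair (fun n => S (n + 1)) m ((S 0).f (l, p 0)) (fun i => p i.succ)

theorem line_boost (c : Ph) (m : ℕ) : ∀ (S : ℕ → Step) (l : Ph) (p : Fin m → Ph),
    line S m (boost c l) (fun i => boost c (p i)) = boost c (line S m l p) := by
  induction m with
  | zero => intro S l p; rfl
  | succ m ih =>
    intro S l p
    have h := (S 0).boost c (l, p 0)
    simp only [line]
    rw [h]
    exact ih _ _ _

theorem lastPair_boost (c : Ph) (m : ℕ) : ∀ (S : ℕ → Step) (l : Ph) (p : Fin (m + 1) → Ph),
    lastPair S m (boost c l) (fun i => boost c (p i)) =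
      (boost c (lastPair S m l p).1, boost c (lastPair S m l p).2) := by
  induction m with
  | zero => intro S l p; rfl
  | succ m ih =>
    intro S l p
    have h := (S 0).boost c (l, p 0)
    simp only [lastPair]
    rw [h]
    exact ih _ _ _

theorem meets_boost {ε : ℝ} (c : Ph) (q : Ph × Ph) :
    Meets ε (boost c q.1, boost c q.2) ↔ Meets ε q := by
  unfold Meets
  rw [rel_boost]
  have : (boost c q.1).2 - (boost c q.2).2 = q.1.2 - q.2.2 := by
    unfold boost; simp
  rw [this]

theorem time_boost {ε : ℝ} (c : Ph) (m : ℕ) : ∀ (S : ℕ → Step) (s : ℝ) (l : Ph)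
    (p : Fin m → Ph), time ε S m s (boost c l) (fun i => boost c (p i)) = time ε S m s l p := by
  induction m with
  | zero => intro S s l p; rfl
  | succ m ih =>
    intro S s l p
    have h := (S 0).boost c (l, p 0)
    have h2 := hitT_boost (ε := ε) c (l, p 0)
    simp only [time]
    simp only at h h2
    rw [h, h2]
    exact ih _ _ _ _

theorem chain_boost {ε t : ℝ} (c : Ph) (m : ℕ) : ∀ (S : ℕ → Step) (s : ℝ) (l : Ph)
    (p : Fin m → Ph),
    Chain ε t S m s (boost c l) (fun i => boost c (p i)) ↔ Chain ε t S m s l p := by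
  induction m with
  | zero => intro S s l p; rfl
  | succ m ih =>
    intro S s l p
    have h := (S 0).boost c (l, p 0)
    have h2 := hitT_boost (ε := ε) c (l, p 0)
    have h3 := meets_boost (ε := ε) c (l, p 0)
    simp only [Chain]
    simp only at h h2 h3
    rw [h, h2, h3, ih]

theorem measurable_line (m : ℕ) : ∀ S : ℕ → Step,
    Measurable fun q : Ph × (Fin m → Ph) => line S m q.1 q.2 := by
  induction m with
  | zero => intro S; exact measurable_fst
  | succ m ih =>
    intro S
    have h1 : Measurable fun q : Ph × (Fin (m + 1) → Ph) => (S 0).f (q.1, q.2 0) :=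
      (S 0).meas.comp (measurable_fst.prodMk ((measurable_pi_apply 0).comp measurable_snd))
    have h2 : Measurable fun q : Ph × (Fin (m + 1) → Ph) => fun i : Fin m => q.2 i.succ :=
      measurable_pi_iff.2 fun i => (measurable_pi_apply i.succ).comp measurable_snd
    exact (ih fun n => S (n + 1)).comp (h1.prodMk h2)

theorem measurable_lastPair (m : ℕ) : ∀ S : ℕ → Step,
    Measurable fun q : Ph × (Fin (m + 1) → Ph) => lastPair S m q.1 q.2 := by
  induction m with
  | zero =>
    intro S
    exact measurable_fst.prodMk ((measurable_pi_apply 0).comp measurable_snd)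
  | succ m ih =>
    intro S
    have h1 : Measurable fun q : Ph × (Fin (m + 1 + 1) → Ph) => (S 0).f (q.1, q.2 0) :=
      (S 0).meas.comp (measurable_fst.prodMk ((measurable_pi_apply 0).comp measurable_snd))
    have h2 : Measurable fun q : Ph × (Fin (m + 1 + 1) → Ph) => fun i : Fin (m + 1) => q.2 i.succ :=
      measurable_pi_iff.2 fun i => (measurable_pi_apply i.succ).comp measurable_snd
    exact (ih fun n => S (n + 1)).comp (h1.prodMk h2)

theorem measurable_time {ε : ℝ} (m : ℕ) : ∀ S : ℕ → Step,
    Measurable fun q : ℝ × Ph × (Fin m → Ph) => time ε S m q.1 q.2.1 q.2.2 := by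
  induction m with
  | zero => intro S; exact measurable_fst
  | succ m ih =>
    intro S
    have h0 : Measurable fun q : ℝ × Ph × (Fin (m + 1) → Ph) => (q.2.1, q.2.2 0) :=
      (measurable_fst.comp measurable_snd).prodMk
        ((measurable_pi_apply 0).comp (measurable_snd.comp measurable_snd))
    have h2 : Measurable fun q : ℝ × Ph × (Fin (m + 1) → Ph) => fun i : Fin m => q.2.2 i.succ :=
      measurable_pi_iff.2 fun i =>
        (measurable_pi_apply i.succ).comp (measurable_snd.comp measurable_snd)
    exact (ih fun n => S (n + 1)).comp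
      ((measurable_hitT.comp h0).prodMk (((S 0).meas.comp h0).prodMk h2))

theorem measurableSet_chain {ε t : ℝ} (m : ℕ) : ∀ S : ℕ → Step,
    MeasurableSet {q : ℝ × Ph × (Fin m → Ph) | Chain ε t S m q.1 q.2.1 q.2.2} := by
  induction m with
  | zero => intro S; simp [Chain]
  | succ m ih =>
    intro S
    have h0 : Measurable fun q : ℝ × Ph × (Fin (m + 1) → Ph) => (q.2.1, q.2.2 0) :=
      (measurable_fst.comp measurable_snd).prodMk
        ((measurable_pi_apply 0).comp (measurable_snd.comp measurable_snd))
    have h2 : Measurable fun q : ℝ × Ph × (Fin (m + 1) → Ph) => fun i : Fin m => q.2.2 i.succ :=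
      measurable_pi_iff.2 fun i =>
        (measurable_pi_apply i.succ).comp (measurable_snd.comp measurable_snd)
    have hh : Measurable fun q : ℝ × Ph × (Fin (m + 1) → Ph) => hitT ε (q.2.1, q.2.2 0) :=
      measurable_hitT.comp h0
    refine (h0 measurableSet_meets).inter ((measurableSet_lt measurable_fst hh).inter
      ((measurableSet_lt hh measurable_const).inter ?_))
    exact (hh.prodMk (((S 0).meas.comp h0).prodMk h2)) (ih fun n => S (n + 1))

theorem chain_lt {ε t : ℝ} (m : ℕ) : ∀ (S : ℕ → Step) (s : ℝ) (l : Ph) (p : Fin (m + 1) → Ph),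
    Chain ε t S (m + 1) s l p → s < t := by
  intro S s l p h
  exact h.2.1.trans h.2.2.1

theorem chain_time {ε t : ℝ} (m : ℕ) : ∀ (S : ℕ → Step) (s : ℝ) (l : Ph) (p : Fin m → Ph),
    Chain ε t S m s l p → s ≤ time ε S m s l p := by
  induction m with
  | zero => intro S s l p _; exact le_rfl
  | succ m ih =>
    intro S s l p h
    exact h.2.1.le.trans (ih _ _ _ _ h.2.2.2)

/-- Integration over one more partner. -/
theorem lintegral_cons {m : ℕ} {F : (Fin (m + 1) → Ph) → ℝ≥0∞} (hF : Measurable F) :
    ∫⁻ p : Fin (m + 1) → Ph, F p = ∫⁻ a : Ph, ∫⁻ q : Fin m → Ph, F (Fin.cons a q) := by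
  have h1 := (volume_preserving_piFinSuccAbove (fun _ : Fin (m + 1) => Ph) 0).symm
  have h2 := h1.lintegral_comp_emb (MeasurableEquiv.measurableEmbedding _) F
  rw [← h2, Measure.volume_eq_prod, lintegral_prod]
  · refine lintegral_congr fun a => lintegral_congr fun q => ?_
    congr 1
    exact Fin.insertNth_zero' a q
  · exact (hF.comp (MeasurableEquiv.measurable _)).aemeasurable

end Vale.Agent.P119.FL
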