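import Vale.Agent.P119.Bdl.B1

/-!
# P119: contact of two paths and flux bounds (`helper690`)

`SpeedOn Z g a t` says that `g` bounds the speed of the (relative) path `Z` on `[a, t]`.  A contact
`‖Z τ₀‖ ≤ ε` of a path with `‖Z a‖ > 2 ε` costs at least `ε` in `∫ 1{‖Z‖ ≤ 2 ε} g`.
-/

open MeasureTheory Set Filter Topology
open scoped ENNReal

namespace Vale.Agent.P119.FL

/-- `g` bounds the speed of `Z` on `[a, t]`. -/
def SpeedOn (Z : ℝ → E3) (g : ℝ → ℝ≥0∞) (a t : ℝ) : Prop :=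
  ∀ s ∈ Icc a t, ∀ s' ∈ Icc a t, s ≤ s' → ENNReal.ofReal ‖Z s' - Z s‖ ≤ ∫⁻ τ in Icc s s', g τ

theorem SpeedOn.mono {Z : ℝ → E3} {g g' : ℝ → ℝ≥0∞} {a t a' t' : ℝ} (h : SpeedOn Z g a t)
    (ha : a ≤ a') (ht : t' ≤ t) (hg : ∀ τ ∈ Icc a t, g τ ≤ g' τ) : SpeedOn Z g' a' t' := by
  intro s hs s' hs' hss
  have h1 : s ∈ Icc a t := ⟨ha.trans hs.1, hs.2.trans ht⟩
  have h2 : s' ∈ Icc a t := ⟨ha.trans hs'.1, hs'.2.trans ht⟩
  refine (h s h1 s' h2 hss).trans ?_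
  exact setLIntegral_mono' measurableSet_Icc fun τ hτ => hg τ ⟨h1.1.trans hτ.1, hτ.2.trans h2.2⟩

theorem SpeedOn.add_const {Z : ℝ → E3} {g : ℝ → ℝ≥0∞} {a t : ℝ} (h : SpeedOn Z g a t) (y : E3) :
    SpeedOn (fun τ => y + Z τ) g a t := by
  intro s hs s' hs' hss
  have : y + Z s' - (y + Z s) = Z s' - Z s := by abel
  simp only [this]
  exact h s hs s' hs' hss

theorem SpeedOn.neg {Z : ℝ → E3} {g : ℝ → ℝ≥0∞} {a t : ℝ} (h : SpeedOn Z g a t) :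
    SpeedOn (fun τ => -Z τ) g a t := by
  intro s hs s' hs' hss
  have : -Z s' - -Z s = -(Z s' - Z s) := by abel
  simp only [this, norm_neg]
  exact h s hs s' hs' hss

theorem SpeedOn.add {Z W : ℝ → E3} {g k : ℝ → ℝ≥0∞} {a t : ℝ} (hZ : SpeedOn Z g a t)
    (hW : SpeedOn W k a t) (hg : AEMeasurable g (volume.restrict (Icc a t))) :
    SpeedOn (fun τ => Z τ + W τ) (fun τ => g τ + k τ) a t := by
  intro s hs s' hs' hss
  have h1 : Z s' + W s' - (Z s + W s) = (Z s' - Z s) + (W s' - W s) := by abel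
  simp only [h1]
  have hsub : Icc s s' ⊆ Icc a t := Icc_subset_Icc hs.1 hs'.2
  rw [lintegral_add_left' (hg.mono_measure (Measure.restrict_mono hsub le_rfl))]
  calc ENNReal.ofReal ‖(Z s' - Z s) + (W s' - W s)‖
      ≤ ENNReal.ofReal (‖Z s' - Z s‖ + ‖W s' - W s‖) :=
        ENNReal.ofReal_le_ofReal (norm_add_le _ _)
    _ = ENNReal.ofReal ‖Z s' - Z s‖ + ENNReal.ofReal ‖W s' - W s‖ :=
        ENNReal.ofReal_add (norm_nonneg _) (norm_nonneg _)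
    _ ≤ _ := add_le_add (hZ s hs s' hs' hss) (hW s hs s' hs' hss)

theorem speedOn_lin (v y : E3) (b a t : ℝ) :
    SpeedOn (fun τ => y + (τ - b) • v) (fun _ => ENNReal.ofReal ‖v‖) a t := by
  intro s _ s' _ hss
  have h1 : y + (s' - b) • v - (y + (s - b) • v) = (s' - s) • v := by module
  simp only [h1, norm_smul, Real.norm_eq_abs, abs_of_nonneg (sub_nonneg.2 hss)]
  rw [setLIntegral_const, Real.volume_Icc, ENNReal.ofReal_mul (sub_nonneg.2 hss), mul_comm]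

/-- A `C¹` path has its speed as speed bound. -/
theorem speedOn_of_hasDerivAt {Z Z' : ℝ → E3} (h : ∀ t, HasDerivAt Z (Z' t) t)
    (hc : Continuous Z') (a t : ℝ) : SpeedOn Z (fun τ => ENNReal.ofReal ‖Z' τ‖) a t := by
  intro s _ s' _ hss
  have h1 : ∫ τ in s..s', Z' τ = Z s' - Z s :=
    intervalIntegral.integral_eq_sub_of_hasDerivAt (fun τ _ => h τ) (hc.intervalIntegrable _ _)
  rw [← h1, intervalIntegral.integral_of_le hss, ← integral_Icc_eq_integral_Ioc]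
  have h2 : ‖∫ τ in Icc s s', Z' τ‖ ≤ ∫ τ in Icc s s', ‖Z' τ‖ := norm_integral_le_integral_norm _
  refine (ENNReal.ofReal_le_ofReal h2).trans ?_
  rw [ofReal_integral_eq_lintegral_ofReal]
  · exact (hc.norm.continuousOn).integrableOn_Icc
  · exact Eventually.of_forall fun τ => norm_nonneg _

/-- **Contact lemma.** -/
theorem contact_le {Z : ℝ → E3} {g : ℝ → ℝ≥0∞} {a t ε τ₀ : ℝ} (hc : ContinuousOn Z (Icc a t))
    (hg : SpeedOn Z g a t) (h0 : 2 * ε < ‖Z a‖) (hτ : τ₀ ∈ Icc a t) (hh : ‖Z τ₀‖ ≤ ε) :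
    ENNReal.ofReal ε ≤ ∫⁻ τ in Icc a τ₀, {τ | ‖Z τ‖ ≤ 2 * ε}.indicator g τ := by
  rcases le_or_gt ε 0 with hε | hε
  · rw [ENNReal.ofReal_of_nonpos hε]; exact zero_le
  have hcn : ContinuousOn (fun τ => ‖Z τ‖) (Icc a τ₀) :=
    (hc.mono (Icc_subset_Icc le_rfl hτ.2)).norm
  have hcomp : IsCompact (Icc a τ₀ ∩ (fun τ => ‖Z τ‖) ⁻¹' (Ici (2 * ε))) :=
    isCompact_Icc.of_isClosed_subset
      (hcn.preimage_isClosed_of_isClosed isClosed_Icc isClosed_Ici) inter_subset_left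
  have hne : (Icc a τ₀ ∩ (fun τ => ‖Z τ‖) ⁻¹' (Ici (2 * ε))).Nonempty :=
    ⟨a, ⟨left_mem_Icc.2 hτ.1, h0.le⟩⟩
  obtain ⟨s, ⟨⟨hsI, hs2⟩, hsmax⟩⟩ := hcomp.exists_isGreatest hne
  have hs2' : 2 * ε ≤ ‖Z s‖ := hs2
  have hlt : ∀ τ ∈ Ioc s τ₀, ‖Z τ‖ ≤ 2 * ε := by
    intro τ hτ'
    by_contra hcon
    have : τ ≤ s := hsmax ⟨⟨hsI.1.trans hτ'.1.le, hτ'.2⟩, (not_le.1 hcon).le⟩
    exact absurd hτ'.1 (not_lt.2 this)
  have h1 := hg s ⟨hsI.1, hsI.2.trans hτ.2⟩ τ₀ hτ hsI.2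
  have h2 : ε ≤ ‖Z τ₀ - Z s‖ := by
    have := norm_sub_norm_le (Z s) (Z τ₀)
    rw [norm_sub_rev] at this
    linarith
  calc ENNReal.ofReal ε ≤ ENNReal.ofReal ‖Z τ₀ - Z s‖ := ENNReal.ofReal_le_ofReal h2
    _ ≤ ∫⁻ τ in Icc s τ₀, g τ := h1
    _ = ∫⁻ τ in Ioc s τ₀, g τ := by rw [setLIntegral_congr Ioc_ae_eq_Icc.symm]
    _ = ∫⁻ τ in Ioc s τ₀, {τ | ‖Z τ‖ ≤ 2 * ε}.indicator g τ := by
        refine setLIntegral_congr_fun measurableSet_Ioc fun τ hτ' => ?_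
        rw [indicator_of_mem]
        exact hlt τ hτ'
    _ ≤ _ := lintegral_mono_set (Ioc_subset_Icc_self.trans (Icc_subset_Icc_left hsI.1))

/-- Contact lemma with an antitone weight of the contact time. -/
theorem contact_weight_le {Z : ℝ → E3} {g F : ℝ → ℝ≥0∞} {a t ε τ₀ : ℝ}
    (hε : 0 < ε) (hc : ContinuousOn Z (Icc a t))
    (hg : SpeedOn Z g a t) (hF : AntitoneOn F (Icc a t)) (hτ : τ₀ ∈ Icc a t) (hh : ‖Z τ₀‖ ≤ ε) :
    F τ₀ ≤ {y : E3 | ‖y‖ ≤ 2 * ε}.indicator (fun _ => F a) (Z a) + (ENNReal.ofReal ε)⁻¹ *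
      ∫⁻ τ in Icc a t, {y : E3 | ‖y‖ ≤ 2 * ε}.indicator (fun _ => g τ * F τ) (Z τ) := by
  have haI : a ∈ Icc a t := ⟨le_rfl, hτ.1.trans hτ.2⟩
  by_cases h0 : ‖Z a‖ ≤ 2 * ε
  · refine le_add_right ?_
    rw [indicator_of_mem (show Z a ∈ {y : E3 | ‖y‖ ≤ 2 * ε} from h0)]
    exact hF haI hτ hτ.1
  · refine le_add_left ?_
    have h1 := contact_le hc hg (not_le.1 h0) hτ hh
    have hε0 : ENNReal.ofReal ε ≠ 0 := by simpa using hε
    have hεt : ENNReal.ofReal ε ≠ ∞ := ENNReal.ofReal_ne_top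
    have h2 : ENNReal.ofReal ε * F τ₀ ≤
        ∫⁻ τ in Icc a t, {y : E3 | ‖y‖ ≤ 2 * ε}.indicator (fun _ => g τ * F τ) (Z τ) := by
      calc ENNReal.ofReal ε * F τ₀
          ≤ (∫⁻ τ in Icc a τ₀, {τ | ‖Z τ‖ ≤ 2 * ε}.indicator g τ) * F τ₀ := by gcongr
        _ ≤ ∫⁻ τ in Icc a τ₀, {τ | ‖Z τ‖ ≤ 2 * ε}.indicator g τ * F τ₀ :=
            lintegral_mul_const_le _ _
        _ ≤ ∫⁻ τ in Icc a τ₀, {y : E3 | ‖y‖ ≤ 2 * ε}.indicator (fun _ => g τ * F τ) (Z τ) := by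
            refine setLIntegral_mono' measurableSet_Icc fun τ hτ' => ?_
            by_cases h : ‖Z τ‖ ≤ 2 * ε
            · rw [indicator_of_mem (show τ ∈ {τ | ‖Z τ‖ ≤ 2 * ε} from h),
                indicator_of_mem (show Z τ ∈ {y : E3 | ‖y‖ ≤ 2 * ε} from h)]
              gcongr
              exact hF ⟨hτ'.1, hτ'.2.trans hτ.2⟩ hτ hτ'.2
            · rw [indicator_of_notMem (show τ ∉ {τ | ‖Z τ‖ ≤ 2 * ε} from h), zero_mul]
              exact zero_le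
        _ ≤ _ := lintegral_mono_set (Icc_subset_Icc le_rfl hτ.2)
    calc F τ₀ = (ENNReal.ofReal ε)⁻¹ * (ENNReal.ofReal ε * F τ₀) := by
          rw [← mul_assoc, ENNReal.inv_mul_cancel hε0 hεt, one_mul]
      _ ≤ _ := by gcongr

end Vale.Agent.P119.FL
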