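import Vale.Agent.P119.FL.MPath
import Vale.Agent.P119.EN.Inst

/-!
# P119: the family of targets of the exposed sources of a world (`helper690`)

For a finite world `W` and a time `h`: every exposed source `c` (exposed at the time `tau c ≤ h`) has
two targets on `[tau c, h]`: `realT`, its real path, and `ghostT`, its M-path (stopped when it dies).

* `realT_Y`, `ghostT_Y`: contact with an exposed source is contact with one of the targets;
* `sum_real_w`, `sum_ghost_w`, `sum_w`: the total size of the targets is at most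
  `2 ε |A_h| + C ∫₀^h DD`.
-/

open MeasureTheory Set Filter Topology Metric ProbabilityTheory
open scoped ENNReal

namespace Vale.Agent.P119.FL

open KU M M.CTree RB EN

variable {Φ : E3 → ℝ} {ε : ℝ} {L : ℕ}

/-- The exposure time. -/
noncomputable def tauX (Φ : E3 → ℝ) (ε : ℝ) (L : ℕ) (hΦ : IsPotential Φ) (hε : 0 < ε)
    (W : Finset Src) (c : Src) : ℝ := tau (AX Φ ε L hΦ hε W) c

open Classical in
/-- The real path of `c`, as a target. -/
noncomputable def realT (Φ : E3 → ℝ) (ε : ℝ) (L : ℕ) (hΦ : IsPotential Φ) (hε : 0 < ε)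
    (W : Finset Src) (h : ℝ) (c : Src) : Target h :=
  if hc : c ∈ W then bwTarget (XR_isBW hΦ hε W) hc h (tauX Φ ε L hΦ hε W c)
  else lineTarget h (tauX Φ ε L hΦ hε W c) c.2.1

theorem realT_eq {hΦ : IsPotential Φ} {hε : 0 < ε} {W : Finset Src} {h : ℝ} {c : Src}
    (hc : c ∈ W) : realT Φ ε L hΦ hε W h c =
      bwTarget (XR_isBW hΦ hε W) hc h (tauX Φ ε L hΦ hε W c) := by
  unfold realT
  rw [dif_pos hc]

theorem realT_a {hΦ : IsPotential Φ} {hε : 0 < ε} {W : Finset Src} {h : ℝ} {c : Src} :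
    (realT Φ ε L hΦ hε W h c).a = tauX Φ ε L hΦ hε W c := by
  unfold realT
  split_ifs <;> rfl

theorem realT_Y {hΦ : IsPotential Φ} {hε : 0 < ε} {W : Finset Src} {h : ℝ} {c : Src}
    (hc : c ∈ W) (r : ℝ) : (realT Φ ε L hΦ hε W h c).Y r = (XR Φ ε W r c).1 := by
  rw [realT_eq hc]
  rfl

theorem realT_y' {hΦ : IsPotential Φ} {hε : 0 < ε} {W : Finset Src} {h : ℝ} {c : Src}
    (hc : c ∈ W) (r : ℝ) : (realT Φ ε L hΦ hε W h c).y' r = ‖(XR Φ ε W r c).2‖ₑ := by
  rw [realT_eq hc]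
  rfl

theorem tauX_le {hΦ : IsPotential Φ} {hε : 0 < ε} {W : Finset Src} (hW : ∀ a ∈ W, 0 ≤ a.1)
    {r : ℝ} {c : Src} (hc : c ∈ AX Φ ε L hΦ hε W r) : tauX Φ ε L hΦ hε W c ≤ r :=
  tau_le ((expo2 hΦ hε hW).expo hΦ hε) hc

theorem ghost_exists (hΦ : IsPotential Φ) (hε : 0 < ε) {W : Finset Src} {h : ℝ} {c : Src}
    (hc : ∃ S : CTree, ∃ s, S.root = c ∧ s ≤ h ∧ live Φ ε L (W : Set Src) S s) :
    ∃ T : CTree, ∃ E : ℝ, T.root = c ∧ E ≤ h ∧ live Φ ε L (W : Set Src) T E ∧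
      (∀ (S : CTree) (s : ℝ), S.root = c → s ≤ h → live Φ ε L (W : Set Src) S s →
        s ≤ E ∧ st Φ ε S s = path Φ ε T s) ∧
      (∀ s, c.1 ≤ s → s < E → stat Φ ε L (W : Set Src) c s = some (cur Φ ε T s)) ∧
      (∀ s, E < s → s ≤ h → stat Φ ε L (W : Set Src) c s = none) :=
  exists_last_tree hΦ hε W.finite_toSet hc

/-- The constant target. -/
noncomputable def nullTarget (t a : ℝ) : Target t where
  Y _ := 0
  a := a
  y' _ := 0
  cont := continuousOn_const
  speed := by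
    intro s _ s' _ _
    simp
  meas := aemeasurable_const

open Classical in
/-- The M-path of `c`, stopped when it dies, as a target. -/
noncomputable def ghostT (Φ : E3 → ℝ) (ε : ℝ) (L : ℕ) (hΦ : IsPotential Φ) (hε : 0 < ε)
    (W : Finset Src) (h : ℝ) (c : Src) : Target h :=
  if hc : ∃ S : CTree, ∃ s, S.root = c ∧ s ≤ h ∧ live Φ ε L (W : Set Src) S s then
    ghostTarget hΦ hε (T := (ghost_exists (L := L) hΦ hε hc).choose)
      (ghost_exists (L := L) hΦ hε hc).choose_spec.choose_spec.2.2.1.ok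
      (ghost_exists (L := L) hΦ hε hc).choose_spec.choose h (tauX Φ ε L hΦ hε W c)
  else nullTarget h (tauX Φ ε L hΦ hε W c)

theorem ghostT_a {hΦ : IsPotential Φ} {hε : 0 < ε} {W : Finset Src} {h : ℝ} {c : Src} :
    (ghostT Φ ε L hΦ hε W h c).a = tauX Φ ε L hΦ hε W c := by
  unfold ghostT
  split_ifs <;> rfl

theorem ghostT_Y {hΦ : IsPotential Φ} {hε : 0 < ε} {W : Finset Src} {h r : ℝ} {c : Src}
    (hr : r ≤ h) {S : CTree} (hS : S.root = c) (hl : live Φ ε L (W : Set Src) S r) :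
    (ghostT Φ ε L hΦ hε W h c).Y r = (st Φ ε S r).1 := by
  have hc : ∃ S : CTree, ∃ s, S.root = c ∧ s ≤ h ∧ live Φ ε L (W : Set Src) S s :=
    ⟨S, r, hS, hr, hl⟩
  unfold ghostT
  rw [dif_pos hc]
  obtain ⟨-, -, -, h1, -, -⟩ := (ghost_exists (L := L) hΦ hε hc).choose_spec.choose_spec
  obtain ⟨h2, h3⟩ := h1 S r hS hr hl
  change (path Φ ε _ (min r _)).1 = _
  rw [min_eq_left h2, h3]

theorem ghostT_y' {hΦ : IsPotential Φ} {hε : 0 < ε} {W : Finset Src} {h r : ℝ} {c : Src}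
    (hcr : c.1 ≤ r) :
    (ghostT Φ ε L hΦ hε W h c).y' r ≤ ENNReal.ofReal (√(vs Φ ε L W c r)) := by
  unfold ghostT
  split_ifs with hc
  · obtain ⟨-, -, -, -, h1, -⟩ := (ghost_exists (L := L) hΦ hε hc).choose_spec.choose_spec
    set T := (ghost_exists (L := L) hΦ hε hc).choose with hT
    set E := (ghost_exists (L := L) hΦ hε hc).choose_spec.choose with hE
    change (Iio E).indicator (fun τ => ‖(path Φ ε T τ).2‖ₑ) r ≤ _
    by_cases h2 : r < E
    · rw [indicator_of_mem (show r ∈ Iio E from h2), vs_some (h1 r hcr h2),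
        Real.sqrt_sq (norm_nonneg _), ofReal_norm]
      exact le_rfl
    · rw [indicator_of_notMem (show r ∉ Iio E from h2)]
      exact zero_le
  · exact zero_le

/-- The measure of the exposed energy. -/
noncomputable def cDD (B : ℝ) (k : ℕ) : ℝ := 3 + 2 * B * (1 + 2 * k)

theorem cDD_nonneg {B : ℝ} (hB : 0 ≤ B) (k : ℕ) : 0 ≤ cDD B k := by unfold cDD; positivity

/-- **The total size of the real targets.** -/
theorem sum_real_w (hΦ : IsPotential Φ) {B : ℝ} (hB : RW.StableWith Φ B) (hε : 0 < ε)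
    {W : Finset Src} (hW : ∀ a ∈ W, 0 ≤ a.1) (hexcl : ∀ a ∈ W, ∀ a' ∈ W, a ≠ a' → a.1 = 0 →
      a'.1 = 0 → ε ≤ ‖a.2.1.1 - a'.2.1.1‖) {k : ℕ} (hk : (W.filter fun a => a.1 ≠ 0).card ≤ k)
    (h : ℝ) :
    ∑ c ∈ AX Φ ε L hΦ hε W h, (realT Φ ε L hΦ hε W h c).w ε ≤
      (AX Φ ε L hΦ hε W h).card * ENNReal.ofReal ε +
        ENNReal.ofReal (cDD B k) * ∫⁻ s in Icc 0 h, ENNReal.ofReal (DD Φ ε L hΦ hε W s) := by
  have hX := (expo2 (L := L) hΦ hε hW).expo hΦ hε
  refine (sum_expo_le (ε := ε) hX (fun c => realT Φ ε L hΦ hε W h c) (fun c _ => realT_a.ge)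
    (D := fun s => ENNReal.ofReal (cDD B k) * ENNReal.ofReal (DD Φ ε L hΦ hε W s)) ?_).trans ?_
  · intro s _
    have h1 := sum_real_le (L := L) hΦ hB hε hW hexcl (le_refl s)
    have h2 : (3 + 2 * B * (1 + 2 * ((W.filter fun a => a.1 ≠ 0).card : ℝ))) ≤ cDD B k := by
      unfold cDD
      have : ((W.filter fun a => a.1 ≠ 0).card : ℝ) ≤ k := by exact_mod_cast hk
      have := hB.1
      gcongr
    calc ∑ c ∈ AX Φ ε L hΦ hε W s, (1 + (realT Φ ε L hΦ hε W h c).y' s)
        = ∑ c ∈ AX Φ ε L hΦ hε W s, ENNReal.ofReal (1 + ‖(XR Φ ε W s c).2‖) := by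
          refine Finset.sum_congr rfl fun c hc => ?_
          rw [realT_y' (hX.sub s hc), ENNReal.ofReal_add zero_le_one (norm_nonneg _),
            ENNReal.ofReal_one, ofReal_norm]
      _ = ENNReal.ofReal (∑ c ∈ AX Φ ε L hΦ hε W s, (1 + ‖(XR Φ ε W s c).2‖)) := by
          rw [ENNReal.ofReal_sum_of_nonneg]
          intro c _
          positivity
      _ ≤ ENNReal.ofReal (cDD B k * DD Φ ε L hΦ hε W s) :=
          ENNReal.ofReal_le_ofReal (h1.trans
            (mul_le_mul_of_nonneg_right h2 (DD_nonneg hΦ hε W s)))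
      _ = _ := ENNReal.ofReal_mul (cDD_nonneg hB.1 k)
  · rw [lintegral_const_mul' _ _ ENNReal.ofReal_ne_top]

/-- **The total size of the ghost targets.** -/
theorem sum_ghost_w (hΦ : IsPotential Φ) {B : ℝ} (hB : RW.StableWith Φ B) (hε : 0 < ε)
    {W : Finset Src} (hW : ∀ a ∈ W, 0 ≤ a.1) (k : ℕ) (h : ℝ) :
    ∑ c ∈ AX Φ ε L hΦ hε W h, (ghostT Φ ε L hΦ hε W h c).w ε ≤
      (AX Φ ε L hΦ hε W h).card * ENNReal.ofReal ε +
        ENNReal.ofReal (cDD B k) * ∫⁻ s in Icc 0 h, ENNReal.ofReal (DD Φ ε L hΦ hε W s) := by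
  have hX := (expo2 (L := L) hΦ hε hW).expo hΦ hε
  refine (sum_expo_le (ε := ε) hX (fun c => ghostT Φ ε L hΦ hε W h c) (fun c _ => ghostT_a.ge)
    (D := fun s => ENNReal.ofReal (cDD B k) * ENNReal.ofReal (DD Φ ε L hΦ hε W s)) ?_).trans ?_
  · intro s hs
    have h1 := hX.ghost_vel hΦ hB hε s
    have h2 := sum_bound (L := L) hΦ hε W (le_refl s) (K := 2 * B) (by linarith [hB.1])
    have h3 := card_le_DD (L := L) hΦ hε W s
    have h0 : ∀ c, 0 ≤ vs Φ ε L W c s := by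
      intro c
      unfold vs
      split <;> positivity
    calc ∑ c ∈ AX Φ ε L hΦ hε W s, (1 + (ghostT Φ ε L hΦ hε W h c).y' s)
        ≤ ∑ c ∈ AX Φ ε L hΦ hε W s, ENNReal.ofReal (2 + vs Φ ε L W c s) := by
          refine Finset.sum_le_sum fun c hc => ?_
          have hcW := hX.sub s hc
          have h4 := ghostT_y' (L := L) (hΦ := hΦ) (hε := hε) (W := W) (h := h) (hX.born s c hc)
          calc 1 + (ghostT Φ ε L hΦ hε W h c).y' s
              ≤ ENNReal.ofReal 1 + ENNReal.ofReal (√(vs Φ ε L W c s)) := by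
                rw [ENNReal.ofReal_one]
                exact add_le_add le_rfl h4
            _ = ENNReal.ofReal (1 + √(vs Φ ε L W c s)) :=
                (ENNReal.ofReal_add zero_le_one (Real.sqrt_nonneg _)).symm
            _ ≤ _ := by
                apply ENNReal.ofReal_le_ofReal
                have h5 := Real.sq_sqrt (h0 c)
                nlinarith [sq_nonneg (√(vs Φ ε L W c s) - 1), Real.sqrt_nonneg (vs Φ ε L W c s)]
      _ = ENNReal.ofReal (∑ c ∈ AX Φ ε L hΦ hε W s, (2 + vs Φ ε L W c s)) := by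
          rw [ENNReal.ofReal_sum_of_nonneg]
          intro c _
          have := h0 c
          positivity
      _ ≤ ENNReal.ofReal (cDD B k * DD Φ ε L hΦ hε W s) := by
          apply ENNReal.ofReal_le_ofReal
          rw [Finset.sum_add_distrib, Finset.sum_const, nsmul_eq_mul]
          have h6 : 3 + 2 * B ≤ cDD B k := by
            unfold cDD
            have := hB.1
            have hk : (0:ℝ) ≤ k := Nat.cast_nonneg k
            nlinarith [mul_nonneg this hk]
          have h7 := DD_nonneg (L := L) hΦ hε W s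
          nlinarith [mul_le_mul_of_nonneg_right h6 h7]
      _ = _ := ENNReal.ofReal_mul (cDD_nonneg hB.1 k)
  · rw [lintegral_const_mul' _ _ ENNReal.ofReal_ne_top]

/-- The targets of the exposed sources: real paths (`true`) and M-paths (`false`). -/
noncomputable def expT (Φ : E3 → ℝ) (ε : ℝ) (L : ℕ) (hΦ : IsPotential Φ) (hε : 0 < ε)
    (W : Finset Src) (h : ℝ) (i : Bool × Src) : Target h :=
  if i.1 then realT Φ ε L hΦ hε W h i.2 else ghostT Φ ε L hΦ hε W h i.2

/-- The index set of the targets of the exposed sources. -/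
noncomputable def expI (Φ : E3 → ℝ) (ε : ℝ) (L : ℕ) (hΦ : IsPotential Φ) (hε : 0 < ε)
    (W : Finset Src) (h : ℝ) : Finset (Bool × Src) := Finset.univ ×ˢ AX Φ ε L hΦ hε W h

/-- **The total size of the targets of the exposed sources.** -/
theorem sum_exp_w (hΦ : IsPotential Φ) {B : ℝ} (hB : RW.StableWith Φ B) (hε : 0 < ε)
    {W : Finset Src} (hW : ∀ a ∈ W, 0 ≤ a.1) (hexcl : ∀ a ∈ W, ∀ a' ∈ W, a ≠ a' → a.1 = 0 →
      a'.1 = 0 → ε ≤ ‖a.2.1.1 - a'.2.1.1‖) {k : ℕ} (hk : (W.filter fun a => a.1 ≠ 0).card ≤ k)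
    (h : ℝ) :
    ∑ i ∈ expI Φ ε L hΦ hε W h, (expT Φ ε L hΦ hε W h i).w ε ≤
      2 * ((AX Φ ε L hΦ hε W h).card * ENNReal.ofReal ε +
        ENNReal.ofReal (cDD B k) * ∫⁻ s in Icc 0 h, ENNReal.ofReal (DD Φ ε L hΦ hε W s)) := by
  unfold expI
  rw [Finset.sum_product, Fintype.sum_bool, two_mul]
  exact add_le_add (sum_real_w hΦ hB hε hW hexcl hk h) (sum_ghost_w hΦ hB hε hW k h)

/-- **Contact with an exposed source is contact with a target.**  `x` is the position of the source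
`a` at the time `r`, in the real world or in the M-world. -/
theorem exists_target {hΦ : IsPotential Φ} {hε : 0 < ε} {W : Finset Src}
    (hW : ∀ a ∈ W, 0 ≤ a.1) {h r : ℝ} (hr : r ≤ h) {c : Src} (hc : c ∈ AX Φ ε L hΦ hε W r)
    {y : E3} (hy : y = (XR Φ ε W r c).1 ∨
      ∃ S : CTree, S.root = c ∧ live Φ ε L (W : Set Src) S r ∧ y = (st Φ ε S r).1) :
    ∃ i ∈ expI Φ ε L hΦ hε W h, (expT Φ ε L hΦ hε W h i).a ≤ r ∧
      (expT Φ ε L hΦ hε W h i).Y r = y := by
  have hX := (expo2 (L := L) hΦ hε hW).expo hΦ hε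
  have hcW := hX.sub r hc
  have hch : c ∈ AX Φ ε L hΦ hε W h := hX.mono _ _ hr hc
  rcases hy with rfl | ⟨S, h1, h2, rfl⟩
  · refine ⟨(true, c), Finset.mem_product.2 ⟨Finset.mem_univ _, hch⟩, ?_, ?_⟩
    · change (realT Φ ε L hΦ hε W h c).a ≤ r
      rw [realT_a]
      exact tauX_le hW hc
    · exact realT_Y hcW r
  · refine ⟨(false, c), Finset.mem_product.2 ⟨Finset.mem_univ _, hch⟩, ?_, ?_⟩
    · change (ghostT Φ ε L hΦ hε W h c).a ≤ r
      rw [ghostT_a]
      exact tauX_le hW hc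
    · exact ghostT_Y hr h1 h2

end Vale.Agent.P119.FL
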