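import Vale.Agent.P119.FL.Pair

/-!
# P119: first-order flux of chains started by a free line (`helper690`)

The whole chain is translated: the flux through an arbitrary path `Y` of a chain which starts with a
line of bounded density is at most `C ε²` per unit of time.
-/

open MeasureTheory Set Filter Topology Metric ProbabilityTheory
open scoped ENNReal

namespace Vale.Agent.P119.FL

open KU

/-- The energy of a chain. -/
noncomputable def E0 {m : ℕ} (v : E3) (p : Fin m → Ph) : ℝ := ‖v‖ ^ 2 + ∑ i, ‖(p i).2‖ ^ 2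

theorem E0_nonneg {m : ℕ} (v : E3) (p : Fin m → Ph) : 0 ≤ E0 v p := by unfold E0; positivity

theorem wt_eq_exp {b ε : ℝ} {m : ℕ} (v : E3) (p : Fin m → Ph) :
    ENNReal.ofReal (Real.exp (-b * ‖v‖ ^ 2)) * wt b ε m p =
      muE ε ^ m * ENNReal.ofReal (Real.exp (-b * E0 v p)) := by
  unfold wt E0
  rw [Finset.prod_mul_distrib, Finset.prod_const, Finset.card_univ, Fintype.card_fin,
    ← ENNReal.ofReal_prod_of_nonneg (fun i _ => Real.exp_nonneg _), ← Real.exp_sum, mul_left_comm,
    ← ENNReal.ofReal_mul (Real.exp_nonneg _), ← Real.exp_add]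
  congr 3
  rw [mul_add, Finset.mul_sum]

theorem wt_boost {b ε : ℝ} {m : ℕ} (x : E3) (p : Fin m → Ph) :
    wt b ε m (fun i => boost (x, 0) (p i)) = wt b ε m p := by
  unfold wt boost
  simp

/-- The constant of the first-order bound. -/
noncomputable def D2 (b : ℝ) : ℝ :=
  (∫⁻ u : E3, ENNReal.ofReal (Real.exp (-(b / 4) * ‖u‖ ^ 2))).toReal

theorem D2_nonneg (b : ℝ) : 0 ≤ D2 b := by unfold D2; positivity

/-- The bound of `first_flux`. -/
noncomputable def B2 (ε b s a t c₁ : ℝ) (m : ℕ) (y' : ℝ → ℝ≥0∞) : ℝ≥0∞ :=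
  ENNReal.ofReal ((2 * ε) ^ 3) * bv * (1 + (ENNReal.ofReal ε)⁻¹ * ∫⁻ τ in Icc a t,
    (ENNReal.ofReal (c₁ * (1 + 1 / √b)) + y' τ)) *
    ENNReal.ofReal (D2 b * ((Kc (b / 2) * (t - s)) ^ m / √(m.factorial : ℝ)))

/-- **(FL1) First-order flux of a chain started by a free line.** -/
theorem first_flux {ε b s a t c₁ : ℝ} (hε : 0 < ε) (hb : 0 < b) (hc₁ : 0 ≤ c₁) (hst : s ≤ t)
    {m : ℕ} {S : ℕ → Step} (P : ChainPath ε t S m c₁)
    {Y : ℝ → E3} {y' : ℝ → ℝ≥0∞} (hYc : ContinuousOn Y (Icc a t)) (hYs : SpeedOn Y y' a t)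
    (hy' : AEMeasurable y' (volume.restrict (Icc a t)))
    {Ψ : Ph → (Fin m → Ph) → ℝ≥0∞} (hΨm : Measurable fun q : Ph × (Fin m → Ph) => Ψ q.1 q.2)
    (hΨ : ∀ l p, Ψ l p ≠ 0 → Chain ε t S m s l p ∧
      (∃ τ ∈ Icc (max a (time ε S m s l p)) t, ‖P.X l p τ - Y τ‖ ≤ ε) ∧
      Ψ l p ≤ ENNReal.ofReal (Real.exp (-b * ‖l.2‖ ^ 2)) * wt b ε m p) :
    ∫⁻ l, ∫⁻ p, Ψ l p ≤ B2 ε b s a t c₁ m y' := by
  set C : ℝ≥0∞ := ENNReal.ofReal ((2 * ε) ^ 3) * bv * (1 + (ENNReal.ofReal ε)⁻¹ *
    ∫⁻ τ in Icc a t, (ENNReal.ofReal (c₁ * (1 + 1 / √b)) + y' τ)) with hC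
  have hJm : Measurable fun l : Ph => ∫⁻ p, Ψ l p := hΨm.lintegral_prod_right'
  -- split position and velocity
  rw [Measure.volume_eq_prod, lintegral_prod_symm _ hJm.aemeasurable]
  have key : ∀ v : E3, ∫⁻ x : E3, ∫⁻ p, Ψ (x, v) p ≤
      C * (ENNReal.ofReal (Real.exp (-(b / 2) * ‖v‖ ^ 2)) *
        ENNReal.ofReal ((Kc (b / 2) * (t - s)) ^ m / √(m.factorial : ℝ) *
          Real.exp (b / 2 / 2 * ‖v‖ ^ 2))) := by
    intro v
    -- translate
    have hBm : Measurable fun q : E3 × (Fin m → Ph) =>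
        ((((q.1, v) : Ph), fun i => boost (q.1, 0) (q.2 i)) : Ph × (Fin m → Ph)) := by
      refine (measurable_fst.prodMk measurable_const).prodMk ?_
      refine measurable_pi_iff.2 fun i => ?_
      simp only [boost_eq_add]
      exact ((measurable_pi_apply i).comp measurable_snd).add
        (measurable_fst.prodMk measurable_const)
    set Ψt : E3 → (Fin m → Ph) → ℝ≥0∞ := fun x p => Ψ (x, v) (fun i => boost (x, 0) (p i)) with hΨt
    have hΨtm : Measurable fun q : E3 × (Fin m → Ph) => Ψt q.1 q.2 := hΨm.comp hBm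
    have e1 : ∫⁻ x : E3, ∫⁻ p, Ψ (x, v) p = ∫⁻ x : E3, ∫⁻ p, Ψt x p := by
      refine lintegral_congr fun x => ?_
      exact (lintegral_shift m (fun p => Ψ (x, v) p) (x, 0)).symm
    rw [e1, lintegral_lintegral_swap hΨtm.aemeasurable]
    have hkey : ∀ p : Fin m → Ph, ∫⁻ x, Ψt x p ≤
        C * (ENNReal.ofReal (Real.exp (-(b / 2) * ‖v‖ ^ 2)) *
          {p | Chain ε t S m s (0, v) p}.indicator (wt (b / 2) ε m) p) := by
      intro p
      have hbo : ∀ x : E3, ((x, v) : Ph) = boost (x, 0) (0, v) := by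
        intro x; rw [boost_eq_add]; simp
      by_cases hch : Chain ε t S m s (0, v) p
      swap
      · have h0 : ∀ x, Ψt x p = 0 := by
          intro x
          by_contra hne
          have h1 := (hΨ _ _ hne).1
          rw [hbo x, chain_boost] at h1
          exact hch h1
        simp only [h0, lintegral_zero]
        exact zero_le
      rw [indicator_of_mem (show p ∈ {p | Chain ε t S m s (0, v) p} from hch), wt_eq_exp]
      set a' : ℝ := max a (time ε S m s (0, v) p) with ha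
      have haa : a ≤ a' := le_max_left _ _
      have hta : time ε S m s (0, v) p ≤ a' := le_max_right _ _
      have hsub : Icc a' t ⊆ Icc a t := Icc_subset_Icc haa le_rfl
      set W : ℝ≥0∞ := muE ε ^ m * ENNReal.ofReal (Real.exp (-b * E0 v p)) with hW
      have hs1 : SpeedOn (fun τ => P.X (0, v) p τ + -Y τ)
          (fun τ => ENNReal.ofReal (c₁ * (1 + √(E0 v p))) + y' τ) a' t := by
        refine SpeedOn.add ?_ (hYs.neg.mono haa le_rfl fun _ _ => le_rfl) aemeasurable_const
        exact (P.speed s (0, v) p hch).mono hta le_rfl fun _ _ => le_rfl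
      have hmain := flux_pos (ζ := fun τ => P.X (0, v) p τ + -Y τ) (F := fun _ => W)
        (a := a') (t := t) (ε := ε) hε
        (((P.cont s (0, v) p hch).mono (Icc_subset_Icc hta le_rfl)).add (hYc.mono hsub).neg) hs1
        (aemeasurable_const.add (hy'.mono_measure (Measure.restrict_mono hsub le_rfl)))
        antitoneOn_const (Ψ := fun x => Ψt x p)
        (by
          intro x hne
          obtain ⟨h1, ⟨τ, hτ, hh⟩, h3⟩ := hΨ _ _ hne
          rw [hbo x, time_boost] at hτ
          rw [hbo x, P.boost] at hh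
          refine ⟨τ, hτ, ?_, ?_⟩
          · have h4 : x + (P.X (0, v) p τ + -Y τ) =
                P.X (0, v) p τ + (((x, 0) : Ph).1 + τ • ((x, 0) : Ph).2) - Y τ := by
              simp only [smul_zero, add_zero]; abel
            rw [h4]
            exact hh
          · refine h3.trans (le_of_eq ?_)
            rw [wt_boost, hW, ← wt_eq_exp])
      refine hmain.trans ?_
      have h3 := E0_nonneg v p
      have h6 : Real.exp (-b * E0 v p) ≤ Real.exp (-(b / 2) * E0 v p) := by
        apply Real.exp_le_exp.2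
        nlinarith
      have hWle : W ≤ muE ε ^ m * ENNReal.ofReal (Real.exp (-(b / 2) * E0 v p)) := by
        rw [hW]
        exact mul_le_mul' le_rfl (ENNReal.ofReal_le_ofReal h6)
      have h7 : Real.exp (-b * E0 v p) * (c₁ * (1 + √(E0 v p))) ≤
          c₁ * (1 + 1 / √b) * Real.exp (-(b / 2) * E0 v p) := by
        have h8 := one_add_le (b := b) (x := √(E0 v p)) (M := 1) hb le_rfl
        rw [Real.sqrt_one, one_mul, mul_one, Real.sq_sqrt h3] at h8
        calc Real.exp (-b * E0 v p) * (c₁ * (1 + √(E0 v p)))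
            ≤ Real.exp (-b * E0 v p) * (c₁ * ((1 + 1 / √b) * Real.exp (b / 2 * E0 v p))) := by
              gcongr
          _ = c₁ * (1 + 1 / √b) * Real.exp (-(b / 2) * E0 v p) := by
              have : Real.exp (-(b / 2) * E0 v p) =
                  Real.exp (-b * E0 v p) * Real.exp (b / 2 * E0 v p) := by
                rw [← Real.exp_add]; congr 1; ring
              rw [this]; ring
      have hgW : ∀ τ, (ENNReal.ofReal (c₁ * (1 + √(E0 v p))) + y' τ) * W ≤
          (ENNReal.ofReal (c₁ * (1 + 1 / √b)) + y' τ) *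
            (muE ε ^ m * ENNReal.ofReal (Real.exp (-(b / 2) * E0 v p))) := by
        intro τ
        rw [add_mul, add_mul]
        refine add_le_add ?_ (mul_le_mul' le_rfl hWle)
        calc ENNReal.ofReal (c₁ * (1 + √(E0 v p))) * W
            = muE ε ^ m * ENNReal.ofReal (Real.exp (-b * E0 v p) * (c₁ * (1 + √(E0 v p)))) := by
              rw [hW, ENNReal.ofReal_mul (Real.exp_nonneg _)]; ring
          _ ≤ muE ε ^ m * ENNReal.ofReal (c₁ * (1 + 1 / √b) * Real.exp (-(b / 2) * E0 v p)) :=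
              mul_le_mul' le_rfl (ENNReal.ofReal_le_ofReal h7)
          _ = _ := by
              rw [ENNReal.ofReal_mul (by positivity : (0:ℝ) ≤ c₁ * (1 + 1 / √b))]
              ring
      calc ENNReal.ofReal ((2 * ε) ^ 3) * bv * (W + (ENNReal.ofReal ε)⁻¹ *
            ∫⁻ τ in Icc a' t, (ENNReal.ofReal (c₁ * (1 + √(E0 v p))) + y' τ) * W)
          ≤ ENNReal.ofReal ((2 * ε) ^ 3) * bv *
            (muE ε ^ m * ENNReal.ofReal (Real.exp (-(b / 2) * E0 v p)) +
            (ENNReal.ofReal ε)⁻¹ * ((∫⁻ τ in Icc a t,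
              (ENNReal.ofReal (c₁ * (1 + 1 / √b)) + y' τ)) *
              (muE ε ^ m * ENNReal.ofReal (Real.exp (-(b / 2) * E0 v p))))) := by
            refine mul_le_mul' le_rfl (add_le_add hWle (mul_le_mul' le_rfl ?_))
            rw [← lintegral_mul_const' _ _ (ENNReal.mul_ne_top (ENNReal.pow_ne_top muE_ne_top)
              ENNReal.ofReal_ne_top)]
            exact (lintegral_mono_set hsub).trans (lintegral_mono fun τ => hgW τ)
        _ = _ := by rw [hC]; ring
    refine (lintegral_mono hkey).trans ?_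
    have hchm : MeasurableSet {p : Fin m → Ph | Chain ε t S m s (0, v) p} :=
      (measurable_const.prodMk (measurable_const.prodMk measurable_id) :
        Measurable fun p : Fin m → Ph => (s, ((0, v) : Ph), p)) (measurableSet_chain m S)
    have hwm := (measurable_wt (b / 2) ε m).indicator hchm
    rw [lintegral_const_mul _ (hwm.const_mul _), lintegral_const_mul _ hwm]
    have h5 := chain_mass (t := t) hε (by positivity : 0 < b / 2) m S s (0, v) hst
    exact mul_le_mul' le_rfl (mul_le_mul' le_rfl h5)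
  refine (lintegral_mono key).trans (le_of_eq ?_)
  have h6 : 0 ≤ (Kc (b / 2) * (t - s)) ^ m / √(m.factorial : ℝ) :=
    div_nonneg (pow_nonneg (mul_nonneg (Kc_nonneg _) (sub_nonneg.2 hst)) _) (Real.sqrt_nonneg _)
  have e5 : ∀ v : E3, C * (ENNReal.ofReal (Real.exp (-(b / 2) * ‖v‖ ^ 2)) *
        ENNReal.ofReal ((Kc (b / 2) * (t - s)) ^ m / √(m.factorial : ℝ) *
          Real.exp (b / 2 / 2 * ‖v‖ ^ 2))) =
      (C * ENNReal.ofReal ((Kc (b / 2) * (t - s)) ^ m / √(m.factorial : ℝ))) *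
        ENNReal.ofReal (Real.exp (-(b / 4) * ‖v‖ ^ 2)) := by
    intro v
    have h7 : Real.exp (-(b / 4) * ‖v‖ ^ 2) =
        Real.exp (-(b / 2) * ‖v‖ ^ 2) * Real.exp (b / 2 / 2 * ‖v‖ ^ 2) := by
      rw [← Real.exp_add]; congr 1; ring
    rw [h7, ENNReal.ofReal_mul h6, ENNReal.ofReal_mul (Real.exp_nonneg _)]
    ring
  simp_rw [e5]
  have hGm : Measurable fun v : E3 => ENNReal.ofReal (Real.exp (-(b / 4) * ‖v‖ ^ 2)) := by fun_prop
  rw [lintegral_const_mul _ hGm]
  have hJ : (∫⁻ u : E3, ENNReal.ofReal (Real.exp (-(b / 4) * ‖u‖ ^ 2))) ≠ ∞ :=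
    ((integrable_gauss (by positivity : 0 < b / 4)).lintegral_lt_top).ne
  unfold B2
  rw [← hC, mul_comm (D2 b), ENNReal.ofReal_mul h6, mul_assoc]
  unfold D2
  rw [ENNReal.ofReal_toReal hJ]

end Vale.Agent.P119.FL
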