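import Vale.Agent.P119.FL.Contact

/-!
# P119: flux bounds in position and in velocity (`helper690`)
-/

open MeasureTheory Set Filter Topology Metric
open scoped ENNReal

namespace Vale.Agent.P119.FL

/-- The volume of the unit ball. -/
noncomputable def bv : ℝ≥0∞ := volume (ball (0 : E3) 1)

theorem bv_ne_top : bv ≠ ∞ := measure_ball_lt_top.ne

theorem bv_ne_zero : bv ≠ 0 := (measure_ball_pos volume (0 : E3) one_pos).ne'

theorem vol_closedBall (x : E3) {r : ℝ} (hr : 0 ≤ r) :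
    volume (closedBall x r) = ENNReal.ofReal (r ^ 3) * bv := by
  rw [Measure.addHaar_closedBall volume x hr, finrank_euclideanSpace_fin, bv]

theorem vol_near (z : E3) {r : ℝ} (hr : 0 ≤ r) :
    volume {y : E3 | ‖y + z‖ ≤ r} = ENNReal.ofReal (r ^ 3) * bv := by
  have : {y : E3 | ‖y + z‖ ≤ r} = closedBall (-z) r := by
    ext y
    simp [mem_closedBall, dist_eq_norm]
  rw [this, vol_closedBall _ hr]

theorem vol_near_smul (z : E3) {r c : ℝ} (hr : 0 ≤ r) (hc : 0 < c) :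
    volume {u : E3 | ‖c • u + z‖ ≤ r} = ENNReal.ofReal ((r / c) ^ 3) * bv := by
  have : {u : E3 | ‖c • u + z‖ ≤ r} = {u : E3 | ‖u + c⁻¹ • z‖ ≤ r / c} := by
    ext u
    have h1 : c • u + z = c • (u + c⁻¹ • z) := by
      rw [smul_add, smul_smul, mul_inv_cancel₀ hc.ne', one_smul]
    simp only [mem_ofPred_eq, h1, norm_smul, Real.norm_eq_abs, abs_of_pos hc]
    rw [le_div_iff₀ hc, mul_comm]
  rw [this, vol_near _ (by positivity)]

theorem measurable_lin (c : ℝ) (z : E3) : Measurable fun u : E3 => c • u + z :=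
  (measurable_const_smul c).add_const z

theorem measurableSet_near (ε : ℝ) : MeasurableSet {y : E3 | ‖y‖ ≤ ε} :=
  measurableSet_le measurable_norm measurable_const

/-- joint measurability of the proximity indicator -/
theorem aemeasurable_near {X : Type*} [MeasurableSpace X] {ν : Measure X} {a t ε : ℝ}
    {ζ : ℝ → E3} (hc : ContinuousOn ζ (Icc a t)) {L : X → ℝ → E3}
    (hL : Measurable fun p : X × ℝ => L p.1 p.2)
    {k : ℝ → ℝ≥0∞} (hk : AEMeasurable k (volume.restrict (Icc a t))) :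
    AEMeasurable (fun p : X × ℝ =>
      {y : E3 | ‖y‖ ≤ 2 * ε}.indicator (fun _ => k p.2) (L p.1 p.2 + ζ p.2))
      (ν.prod (volume.restrict (Icc a t))) := by
  have h1 : AEMeasurable (fun p : X × ℝ => ‖L p.1 p.2 + ζ p.2‖)
      (ν.prod (volume.restrict (Icc a t))) :=
    (hL.aemeasurable.add (hc.aemeasurable measurableSet_Icc).comp_snd).norm
  have h2 : NullMeasurableSet {p : X × ℝ | ‖L p.1 p.2 + ζ p.2‖ ≤ 2 * ε}
      (ν.prod (volume.restrict (Icc a t))) := nullMeasurableSet_le h1 aemeasurable_const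
  have h3 := (hk.comp_snd (μ := ν)).indicator₀ h2
  exact h3

/-- **Flux in the position variable**: `Ψ y ≤ F(contact time)` when the path `y + ζ` has a contact
with the origin, and `Ψ y = 0` otherwise. -/
theorem flux_pos {ζ : ℝ → E3} {g F : ℝ → ℝ≥0∞} {a t ε : ℝ} (hε : 0 < ε)
    (hc : ContinuousOn ζ (Icc a t)) (hg : SpeedOn ζ g a t)
    (hgm : AEMeasurable g (volume.restrict (Icc a t))) (hF : AntitoneOn F (Icc a t))
    {Ψ : E3 → ℝ≥0∞} (hΨ : ∀ y, Ψ y ≠ 0 → ∃ τ₀ ∈ Icc a t, ‖y + ζ τ₀‖ ≤ ε ∧ Ψ y ≤ F τ₀) :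
    ∫⁻ y, Ψ y ≤ ENNReal.ofReal ((2 * ε) ^ 3) * bv *
      (F a + (ENNReal.ofReal ε)⁻¹ * ∫⁻ τ in Icc a t, g τ * F τ) := by
  have hFm : AEMeasurable F (volume.restrict (Icc a t)) :=
    aemeasurable_restrict_of_antitoneOn measurableSet_Icc hF
  have hpt : ∀ y, Ψ y ≤ {y : E3 | ‖y‖ ≤ 2 * ε}.indicator (fun _ => F a) (y + ζ a) +
      (ENNReal.ofReal ε)⁻¹ * ∫⁻ τ in Icc a t,
        {y : E3 | ‖y‖ ≤ 2 * ε}.indicator (fun _ => g τ * F τ) (y + ζ τ) := by
    intro y
    by_cases h0 : Ψ y = 0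
    · rw [h0]; exact zero_le
    obtain ⟨τ₀, hτ, hh, hle⟩ := hΨ y h0
    exact hle.trans (contact_weight_le hε (Z := fun τ => y + ζ τ) (continuousOn_const.add hc)
      (hg.add_const y) hF hτ hh)
  have hmeas := aemeasurable_near (ν := (volume : Measure E3)) (ε := ε) hc
    (L := fun y _ => y) measurable_fst (hgm.mul hFm)
  calc ∫⁻ y, Ψ y ≤ ∫⁻ y, ({y : E3 | ‖y‖ ≤ 2 * ε}.indicator (fun _ => F a) (y + ζ a) +
      (ENNReal.ofReal ε)⁻¹ * ∫⁻ τ in Icc a t,
        {y : E3 | ‖y‖ ≤ 2 * ε}.indicator (fun _ => g τ * F τ) (y + ζ τ)) := lintegral_mono hpt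
    _ = (∫⁻ y, {y : E3 | ‖y‖ ≤ 2 * ε}.indicator (fun _ => F a) (y + ζ a)) +
        (ENNReal.ofReal ε)⁻¹ * ∫⁻ τ in Icc a t, ∫⁻ y : E3,
          {y : E3 | ‖y‖ ≤ 2 * ε}.indicator (fun _ => g τ * F τ) (y + ζ τ) := by
        rw [lintegral_add_left]
        · rw [lintegral_const_mul']
          · rw [lintegral_lintegral_swap hmeas]
          · exact ENNReal.inv_ne_top.2 (by simpa using hε)
        · refine Measurable.indicator measurable_const ?_ |>.comp (measurable_id.add_const _)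
          exact measurableSet_le measurable_norm measurable_const
    _ = _ := by
        have hb : ∀ (τ : ℝ) (c : ℝ≥0∞),
            ∫⁻ y : E3, {y : E3 | ‖y‖ ≤ 2 * ε}.indicator (fun _ => c) (y + ζ τ) =
              ENNReal.ofReal ((2 * ε) ^ 3) * bv * c := by
          intro τ c
          have e : (fun y : E3 => {y : E3 | ‖y‖ ≤ 2 * ε}.indicator (fun _ => c) (y + ζ τ)) =
              {y : E3 | ‖y + ζ τ‖ ≤ 2 * ε}.indicator (fun _ => c) := rfl
          rw [e, lintegral_indicator_const, vol_near _ (by positivity), mul_comm]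
          exact measurableSet_le (measurable_id.add_const _).norm measurable_const
        simp_rw [hb]
        rw [lintegral_const_mul']
        · rw [mul_add, ← mul_assoc (ENNReal.ofReal ε)⁻¹, mul_comm (ENNReal.ofReal ε)⁻¹, mul_assoc,
            mul_assoc, mul_assoc]
        · exact ENNReal.mul_ne_top ENNReal.ofReal_ne_top bv_ne_top

/-- **Flux in the velocity variable (Galilean flux).**  The path `(τ - s) u + ζ τ` is shifted by
a free velocity `u`; all contacts have lag `≥ δ`.  The weight `W` and its product with the speed are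
controlled on balls of radius `r` by `V`. -/
theorem flux_vel {ζ : ℝ → E3} {g : E3 → ℝ → ℝ≥0∞} {h : ℝ → ℝ≥0∞} {s δ t ε r : ℝ}
    (hε : 0 < ε) (hδ : 0 < δ) (hr : 0 < r) {W V : E3 → ℝ≥0∞} (hVm : Measurable V)
    (hc : ContinuousOn ζ (Icc (s + δ) t))
    (hg : ∀ u, W u ≠ 0 → SpeedOn (fun τ => (τ - s) • u + ζ τ) (g u) (s + δ) t)
    (hhm : AEMeasurable h (volume.restrict (Icc (s + δ) t)))
    (hW : ∀ u u', ‖u - u'‖ ≤ r → W u ≤ V u')
    (hWg : ∀ τ ∈ Icc (s + δ) t, ∀ u u', ‖u - u'‖ ≤ r → W u * g u τ ≤ h τ * V u')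
    {Ψ : E3 → ℝ≥0∞} (hΨ : ∀ u, Ψ u ≠ 0 →
      (∃ τ₀ ∈ Icc (s + δ) t, ‖(τ₀ - s) • u + ζ τ₀‖ ≤ ε) ∧ Ψ u ≤ W u) :
    ∫⁻ u, Ψ u ≤ ENNReal.ofReal ((2 * ε / (δ * r)) ^ 3) *
      (1 + (ENNReal.ofReal ε)⁻¹ * ∫⁻ τ in Icc (s + δ) t, h τ) * ∫⁻ u, V u := by
  set M : ℝ≥0∞ := (ENNReal.ofReal (r ^ 3) * bv)⁻¹ * ∫⁻ u, V u with hM
  have hball0 : ENNReal.ofReal (r ^ 3) * bv ≠ 0 :=
    mul_ne_zero (by simpa using pow_pos hr 3) bv_ne_zero
  have hballt : ENNReal.ofReal (r ^ 3) * bv ≠ ∞ :=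
    ENNReal.mul_ne_top ENNReal.ofReal_ne_top bv_ne_top
  -- averaging over a ball
  have havg : ∀ (u : E3) (c d : ℝ≥0∞), (∀ u', ‖u - u'‖ ≤ r → c ≤ d * V u') → c ≤ d * M := by
    intro u c d hcd
    have h1 : c * volume (closedBall u r) ≤ d * ∫⁻ u', V u' := by
      calc c * volume (closedBall u r) = ∫⁻ _ in closedBall u r, c := by
            rw [setLIntegral_const]
        _ ≤ ∫⁻ u' in closedBall u r, d * V u' := by
            refine setLIntegral_mono' measurableSet_closedBall fun u' hu' => hcd u' ?_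
            rw [← dist_eq_norm, dist_comm]
            exact hu'
        _ ≤ ∫⁻ u', d * V u' := setLIntegral_le_lintegral _ _
        _ = _ := lintegral_const_mul _ hVm
    rw [vol_closedBall _ hr.le] at h1
    calc c = (ENNReal.ofReal (r ^ 3) * bv)⁻¹ * (c * (ENNReal.ofReal (r ^ 3) * bv)) := by
          rw [mul_comm c, ← mul_assoc, ENNReal.inv_mul_cancel hball0 hballt, one_mul]
      _ ≤ (ENNReal.ofReal (r ^ 3) * bv)⁻¹ * (d * ∫⁻ u', V u') := by gcongr
      _ = _ := by rw [hM]; ring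
  rcases lt_or_ge t (s + δ) with hts | hts
  · have : ∀ u, Ψ u = 0 := by
      intro u
      by_contra h0
      obtain ⟨⟨τ₀, hτ, -⟩, -⟩ := hΨ u h0
      exact absurd (hτ.1.trans hτ.2) (not_le.2 hts)
    simp [this]
  have hvn : ∀ τ ∈ Icc (s + δ) t, volume {u : E3 | ‖(τ - s) • u + ζ τ‖ ≤ 2 * ε} ≤
      ENNReal.ofReal ((2 * ε / δ) ^ 3) * bv := by
    intro τ hτ
    have h1 : δ ≤ τ - s := by linarith [hτ.1]
    have h2 : 0 < τ - s := hδ.trans_le h1
    rw [vol_near_smul _ (by positivity) h2]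
    gcongr
  have hpt : ∀ u, Ψ u ≤
      {y : E3 | ‖y‖ ≤ 2 * ε}.indicator (fun _ => 1) ((s + δ - s) • u + ζ (s + δ)) * M +
      (ENNReal.ofReal ε)⁻¹ * ∫⁻ τ in Icc (s + δ) t,
        {y : E3 | ‖y‖ ≤ 2 * ε}.indicator (fun _ => h τ * M) ((τ - s) • u + ζ τ) := by
    intro u
    by_cases h0 : Ψ u = 0
    · rw [h0]; exact zero_le
    obtain ⟨⟨τ₀, hτ, hh⟩, hle⟩ := hΨ u h0
    have hW0 : W u ≠ 0 := fun h => h0 (le_antisymm (h ▸ hle) zero_le)
    have h1 := contact_weight_le hε (F := fun _ => (1 : ℝ≥0∞)) (Z := fun τ => (τ - s) • u + ζ τ)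
      (((continuous_id.sub continuous_const).smul continuous_const).continuousOn.add hc)
      (hg u hW0) (antitoneOn_const) hτ hh
    have hWM : W u ≤ M := by
      have := havg u (W u) 1 (fun u' hu' => by rw [one_mul]; exact hW u u' hu')
      rwa [one_mul] at this
    calc Ψ u ≤ W u * 1 := by rw [mul_one]; exact hle
      _ ≤ W u * ({y : E3 | ‖y‖ ≤ 2 * ε}.indicator (fun _ => 1) ((s + δ - s) • u + ζ (s + δ)) +
          (ENNReal.ofReal ε)⁻¹ * ∫⁻ τ in Icc (s + δ) t,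
            {y : E3 | ‖y‖ ≤ 2 * ε}.indicator (fun _ => g u τ * 1) ((τ - s) • u + ζ τ)) := by
          gcongr
      _ = {y : E3 | ‖y‖ ≤ 2 * ε}.indicator (fun _ => 1) ((s + δ - s) • u + ζ (s + δ)) * W u +
          (ENNReal.ofReal ε)⁻¹ * (W u * ∫⁻ τ in Icc (s + δ) t,
            {y : E3 | ‖y‖ ≤ 2 * ε}.indicator (fun _ => g u τ * 1) ((τ - s) • u + ζ τ)) := by ring
      _ ≤ _ := by
          gcongr
          refine (lintegral_const_mul_le _ _).trans ?_
          refine setLIntegral_mono' measurableSet_Icc fun τ hτ' => ?_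
          by_cases hin : ((τ - s) • u + ζ τ) ∈ {y : E3 | ‖y‖ ≤ 2 * ε}
          · rw [indicator_of_mem hin, indicator_of_mem hin, mul_one]
            exact havg u _ _ (fun u' hu' => hWg τ hτ' u u' hu')
          · rw [indicator_of_notMem hin, indicator_of_notMem hin, mul_zero]
  have hmeas := aemeasurable_near (ν := (volume : Measure E3)) (ε := ε) hc
    (L := fun u τ => (τ - s) • u)
    ((measurable_snd.sub_const s).smul measurable_fst) (hhm.mul (aemeasurable_const (b := M)))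
  have hmeasb : Measurable fun u : E3 =>
      {y : E3 | ‖y‖ ≤ 2 * ε}.indicator (fun _ => (1 : ℝ≥0∞)) ((s + δ - s) • u + ζ (s + δ)) := by
    exact (measurable_const.indicator (measurableSet_near (2 * ε))).comp
      (measurable_lin (s + δ - s) (ζ (s + δ)))
  have hb : ∀ τ ∈ Icc (s + δ) t, ∀ (c : ℝ≥0∞),
      ∫⁻ u : E3, {y : E3 | ‖y‖ ≤ 2 * ε}.indicator (fun _ => c) ((τ - s) • u + ζ τ) ≤
        c * (ENNReal.ofReal ((2 * ε / δ) ^ 3) * bv) := by
    intro τ hτ c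
    have e : (fun u : E3 => {y : E3 | ‖y‖ ≤ 2 * ε}.indicator (fun _ => c) ((τ - s) • u + ζ τ)) =
        {u : E3 | ‖(τ - s) • u + ζ τ‖ ≤ 2 * ε}.indicator (fun _ => c) := rfl
    have hms : MeasurableSet {u : E3 | ‖(τ - s) • u + ζ τ‖ ≤ 2 * ε} :=
      measurable_lin (τ - s) (ζ τ) (measurableSet_near (2 * ε))
    rw [e, lintegral_indicator_const hms]
    gcongr
    exact hvn τ hτ
  have hεt : (ENNReal.ofReal ε)⁻¹ ≠ ∞ := ENNReal.inv_ne_top.2 (by simpa using hε)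
  calc ∫⁻ u, Ψ u ≤ ∫⁻ u, ({y : E3 | ‖y‖ ≤ 2 * ε}.indicator (fun _ => 1)
        ((s + δ - s) • u + ζ (s + δ)) * M +
      (ENNReal.ofReal ε)⁻¹ * ∫⁻ τ in Icc (s + δ) t,
        {y : E3 | ‖y‖ ≤ 2 * ε}.indicator (fun _ => h τ * M) ((τ - s) • u + ζ τ)) :=
        lintegral_mono hpt
    _ = (∫⁻ u, {y : E3 | ‖y‖ ≤ 2 * ε}.indicator (fun _ => 1) ((s + δ - s) • u + ζ (s + δ))) * M +
        (ENNReal.ofReal ε)⁻¹ * ∫⁻ τ in Icc (s + δ) t, ∫⁻ u : E3,
          {y : E3 | ‖y‖ ≤ 2 * ε}.indicator (fun _ => h τ * M) ((τ - s) • u + ζ τ) := by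
        rw [lintegral_add_left (hmeasb.mul_const _), lintegral_mul_const _ hmeasb,
          lintegral_const_mul' _ _ hεt, lintegral_lintegral_swap hmeas]
    _ ≤ (1 * (ENNReal.ofReal ((2 * ε / δ) ^ 3) * bv)) * M +
        (ENNReal.ofReal ε)⁻¹ * ∫⁻ τ in Icc (s + δ) t,
          (h τ * M) * (ENNReal.ofReal ((2 * ε / δ) ^ 3) * bv) := by
        refine add_le_add (mul_le_mul' (hb (s + δ) ⟨le_rfl, hts⟩ 1) le_rfl)
          (mul_le_mul' le_rfl ?_)
        exact setLIntegral_mono' measurableSet_Icc fun τ hτ => hb τ hτ _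
    _ = _ := by
        have h1 : ∀ τ, (h τ * M) * (ENNReal.ofReal ((2 * ε / δ) ^ 3) * bv) =
            h τ * (M * (ENNReal.ofReal ((2 * ε / δ) ^ 3) * bv)) := fun τ => by ring
        simp_rw [h1]
        have h2 : ENNReal.ofReal ((2 * ε / δ) ^ 3) =
            ENNReal.ofReal ((2 * ε / (δ * r)) ^ 3) * ENNReal.ofReal (r ^ 3) := by
          rw [← ENNReal.ofReal_mul (by positivity)]
          congr 1
          field_simp
        have h3 : M * (ENNReal.ofReal ((2 * ε / δ) ^ 3) * bv) =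
            ENNReal.ofReal ((2 * ε / (δ * r)) ^ 3) * ∫⁻ u, V u := by
          rw [hM, h2]
          calc (ENNReal.ofReal (r ^ 3) * bv)⁻¹ * (∫⁻ u, V u) *
              (ENNReal.ofReal ((2 * ε / (δ * r)) ^ 3) * ENNReal.ofReal (r ^ 3) * bv)
              = ((ENNReal.ofReal (r ^ 3) * bv)⁻¹ * (ENNReal.ofReal (r ^ 3) * bv)) *
                (ENNReal.ofReal ((2 * ε / (δ * r)) ^ 3) * ∫⁻ u, V u) := by ring
            _ = _ := by rw [ENNReal.inv_mul_cancel hball0 hballt, one_mul]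
        rw [h3, lintegral_mul_const'' _ hhm, one_mul, mul_comm _ M, h3]
        ring

end Vale.Agent.P119.FL
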