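import Vale.Agent.P119.FL.Family
import Vale.Agent.P119.PB.Def

/-!
# P119: the targets of a world before its stopping time (`helper690`)

The targets of the world `W` with horizon `h ≤ hz η t W`: the real paths and the M-paths of its exposed
labels (`expI`, `expT`), and the lines of its felt trees (`flI`, `flT`).

* `near_target`: contact with an exposed label is contact with a target;
* `guard_w`: the total size is at most `2 ε #W + C (1 + t) η μ`.
-/

open MeasureTheory Set Filter Topology Metric ProbabilityTheory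
open scoped ENNReal

namespace Vale.Agent.P119.FL

open KU M M.CTree RB EN PB

variable {Φ : E3 → ℝ} {ε : ℝ} {L : ℕ} {hΦ : IsPotential Φ} {hε : 0 < ε}

/-- **Contact with an exposed label is contact with a target.** -/
theorem near_target {W : Finset Src} (hW : ∀ a ∈ W, 0 ≤ a.1) {h r : ℝ} (hr : r ≤ h) {c : Src}
    (hc : c ∈ ex L hΦ hε W r) {x : E3} (hx : ‖x - (XR Φ ε W r c).1‖ ≤ ε ∨
      ∃ S : CTree, S.root = c ∧ live Φ ε L (W : Set Src) S r ∧ ‖x - (st Φ ε S r).1‖ ≤ ε) :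
    ∃ i ∈ expI Φ ε L hΦ hε W h, (expT Φ ε L hΦ hε W h i).a ≤ r ∧
      ‖x - (expT Φ ε L hΦ hε W h i).Y r‖ ≤ ε := by
  rw [ex_eq_AX] at hc
  rcases hx with hx | ⟨S, h1, h2, hx⟩
  · obtain ⟨i, h3, h4, h5⟩ := exists_target hW hr hc (Or.inl rfl)
    exact ⟨i, h3, h4, by rw [h5]; exact hx⟩
  · obtain ⟨i, h3, h4, h5⟩ := exists_target hW hr hc (Or.inr ⟨S, h1, h2, rfl⟩)
    exact ⟨i, h3, h4, by rw [h5]; exact hx⟩

/-! ### Felt trees -/

open Classical in
/-- The trees of `W` which are felt before the time `h` (strictly). -/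
noncomputable def flI (L : ℕ) (hΦ : IsPotential Φ) (hε : 0 < ε) (W : Finset Src) (h : ℝ) :
    Finset CTree :=
  (trs L W).filter fun T => ∃ s < h, fl L hΦ hε W s T

/-- The time at which the tree is felt. -/
noncomputable def tauF (L : ℕ) (hΦ : IsPotential Φ) (hε : 0 < ε) (W : Finset Src) (T : CTree) :
    ℝ := sInf {s | fl L hΦ hε W s T}

/-- The line of a felt tree. -/
noncomputable def flT (L : ℕ) (hΦ : IsPotential Φ) (hε : 0 < ε) (W : Finset Src) (h : ℝ)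
    (T : CTree) : Target h := lineTarget h (tauF L hΦ hε W T) (ln Φ ε T)

theorem mem_flI {W : Finset Src} {h : ℝ} {T : CTree} :
    T ∈ flI L hΦ hε W h ↔ ∃ s < h, fl L hΦ hε W s T := by
  classical
  unfold flI
  rw [Finset.mem_filter]
  exact ⟨fun h => h.2, fun ⟨s, hs, h'⟩ => ⟨mem_trs.2 ⟨h'.sub, h'.depth⟩, s, hs, h'⟩⟩

theorem tauF_nonneg {W : Finset Src} {T : CTree} : 0 ≤ tauF L hΦ hε W T := by
  unfold tauF
  rcases {s | fl L hΦ hε W s T}.eq_empty_or_nonempty with h0 | h0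
  · rw [h0, Real.sInf_empty]
  · exact le_csInf h0 fun s hs => fl.nonneg hs

theorem tauF_le {W : Finset Src} {T : CTree} {s : ℝ} (h : fl L hΦ hε W s T) :
    tauF L hΦ hε W T ≤ s := csInf_le ⟨0, fun r hr => fl.nonneg hr⟩ h

theorem fl_tauF {W : Finset Src} {T : CTree} {s : ℝ} (h : fl L hΦ hε W s T) :
    fl L hΦ hε W (tauF L hΦ hε W T) T := by
  obtain ⟨σ, -, h2, h3⟩ := (fl_closed (hΦ := hΦ) (hε := hε) W T).first
    (fun s (hs : fl L hΦ hε W s T) => hs.nonneg) h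
  have h4 : tauF L hΦ hε W T = σ :=
    IsLeast.csInf_eq ⟨h2, fun s hs => not_lt.1 fun h => h3 s h hs⟩
  rw [h4]
  exact h2

/-- The line of a felt tree which is hit at the time `r`, after it is felt. -/
theorem felt_target {W : Finset Src} {h s r : ℝ} (hs : s < h) {T : CTree}
    (hT : fl L hΦ hε W s T) (hsr : s ≤ r) {x : E3}
    (hx : ‖x - ((ln Φ ε T).1 + r • (ln Φ ε T).2)‖ ≤ ε) :
    T ∈ flI L hΦ hε W h ∧ (flT L hΦ hε W h T).a ≤ r ∧ ‖x - (flT L hΦ hε W h T).Y r‖ ≤ ε :=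
  ⟨mem_flI.2 ⟨s, hs, hT⟩, (tauF_le hT).trans hsr, hx⟩

theorem sum_fl_lt {W : Finset Src} {h : ℝ} {K : ℝ≥0∞} (hK : ∀ s < h, fW L hΦ hε W s ≤ K) :
    ∑ T ∈ flI L hΦ hε W h, ENNReal.ofReal (1 + ‖(ln Φ ε T).2‖) ≤ K := by
  classical
  rcases (flI L hΦ hε W h).eq_empty_or_nonempty with h0 | h0
  · rw [h0, Finset.sum_empty]
    exact zero_le
  · have h1 : ∀ T ∈ flI L hΦ hε W h, ∃ s < h, fl L hΦ hε W s T := fun T hT => mem_flI.1 hT
    choose! f hf1 hf2 using h1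
    set s := (flI L hΦ hε W h).sup' h0 f with hs
    have hsh : s < h := (Finset.sup'_lt_iff h0).2 fun T hT => hf1 T hT
    refine le_trans ?_ (hK s hsh)
    rw [fW_eq]
    calc ∑ T ∈ flI L hΦ hε W h, ENNReal.ofReal (1 + ‖(ln Φ ε T).2‖)
        = ∑ T ∈ flI L hΦ hε W h, (if fl L hΦ hε W s T then
          ENNReal.ofReal (1 + ‖(ln Φ ε T).2‖) else 0) := by
          refine Finset.sum_congr rfl fun T hT => ?_
          rw [if_pos ((hf2 T hT).mono (Finset.le_sup' f hT))]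
      _ ≤ _ := Finset.sum_le_sum_of_subset (Finset.filter_subset _ _)

theorem sum_fl_w {W : Finset Src} {h : ℝ} (h0 : 0 ≤ h) {K : ℝ≥0∞}
    (hK : ∀ s < h, fW L hΦ hε W s ≤ K) :
    ∑ T ∈ flI L hΦ hε W h, (flT L hΦ hε W h T).w ε ≤ ENNReal.ofReal (ε + h) * K := by
  refine le_trans ?_ (mul_le_mul' le_rfl (sum_fl_lt hK))
  rw [Finset.mul_sum]
  refine Finset.sum_le_sum fun T _ => ?_
  unfold flT
  rw [lineTarget_w, ← ofReal_norm, ← ENNReal.ofReal_one, ← ENNReal.ofReal_add zero_le_one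
    (norm_nonneg _), ← ENNReal.ofReal_mul (by positivity), ← ENNReal.ofReal_mul (by positivity)]
  have h1 := norm_nonneg (ln Φ ε T).2
  have h2 := tauF_nonneg (L := L) (hΦ := hΦ) (hε := hε) (W := W) (T := T)
  rcases le_or_gt (tauF L hΦ hε W T) h with h3 | h3
  · rw [← ENNReal.ofReal_add hε.le (mul_nonneg (by positivity) (by linarith))]
    apply ENNReal.ofReal_le_ofReal
    nlinarith [mul_nonneg h1 h2, mul_nonneg h1 hε.le]
  · have h4 : (1 + ‖(ln Φ ε T).2‖) * (h - tauF L hΦ hε W T) ≤ 0 :=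
      mul_nonpos_of_nonneg_of_nonpos (by positivity) (by linarith)
    rw [ENNReal.ofReal_of_nonpos h4, add_zero]
    apply ENNReal.ofReal_le_ofReal
    nlinarith [mul_nonneg h1 hε.le, mul_nonneg h1 h0]

/-! ### The guard -/

theorem int_DD_le {W : Finset Src} {h : ℝ} {K : ℝ≥0∞} (hK : ∀ s < h, eW L hΦ hε W s ≤ K) :
    ∫⁻ s in Icc 0 h, ENNReal.ofReal (EN.DD Φ ε L hΦ hε W s) ≤ ENNReal.ofReal h * K := by
  have e1 : ∫⁻ s in Icc 0 h, ENNReal.ofReal (EN.DD Φ ε L hΦ hε W s) =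
      ∫⁻ s in Ico 0 h, ENNReal.ofReal (EN.DD Φ ε L hΦ hε W s) :=
    setLIntegral_congr Ico_ae_eq_Icc.symm
  rw [e1]
  calc ∫⁻ s in Ico 0 h, ENNReal.ofReal (EN.DD Φ ε L hΦ hε W s) ≤ ∫⁻ _ in Ico 0 h, K := by
        refine setLIntegral_mono' measurableSet_Ico fun s hs => ?_
        rw [← eW_eq]
        exact hK s hs.2
    _ = _ := by
        rw [setLIntegral_const, Real.volume_Ico, sub_zero, mul_comm]

/-- **The size of the targets before the stopping time.** -/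
theorem guard_w {B : ℝ} (hB : RW.StableWith Φ B) {W : Finset Src} (hW : ∀ a ∈ W, 0 ≤ a.1)
    (hexcl : ∀ a ∈ W, ∀ a' ∈ W, a ≠ a' → a.1 = 0 → a'.1 = 0 → ε ≤ ‖a.2.1.1 - a'.2.1.1‖) {k : ℕ}
    (hk : (W.filter fun a => a.1 ≠ 0).card ≤ k) {η t h : ℝ} (hη : 0 < η) (ht : 0 ≤ t)
    (h0 : 0 ≤ h) (hh : h ≤ hz L hΦ hε η t W) :
    ∑ i ∈ expI Φ ε L hΦ hε W h, (expT Φ ε L hΦ hε W h i).w ε +
      ∑ T ∈ flI L hΦ hε W h, (flT L hΦ hε W h T).w ε ≤
      2 * (W.card * ENNReal.ofReal ε) +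
        ENNReal.ofReal (2 * cDD B k * t + (ε + t)) * ENNReal.ofReal (η * mu ε) := by
  have hn : ∀ s < h, nW L hΦ hε W s ≤ ENNReal.ofReal (η * mu ε) := fun s hs =>
    (nW_lt_of_lt_hz hη ht (hs.trans_le hh)).le
  have he : ∀ s < h, eW L hΦ hε W s ≤ ENNReal.ofReal (η * mu ε) := fun s hs =>
    le_self_add.trans (hn s hs)
  have hf : ∀ s < h, fW L hΦ hε W s ≤ ENNReal.ofReal (η * mu ε) := fun s hs =>
    le_add_self.trans (hn s hs)
  have hht : h ≤ t := hh.trans (hz_le hη ht)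
  have h1 := sum_exp_w (L := L) hΦ hB hε hW hexcl hk h
  have h2 := int_DD_le (L := L) (hΦ := hΦ) (hε := hε) he
  have h3 := sum_fl_w (L := L) (hΦ := hΦ) (hε := hε) h0 hf
  have hcard : ((EN.AX Φ ε L hΦ hε W h).card : ℝ≥0∞) ≤ W.card := by
    rw [← ex_eq_AX]
    exact_mod_cast Finset.card_le_card ex_subset
  have hc := cDD_nonneg hB.1 k
  calc _ ≤ 2 * (W.card * ENNReal.ofReal ε + ENNReal.ofReal (cDD B k) *
        (ENNReal.ofReal t * ENNReal.ofReal (η * mu ε))) +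
        ENNReal.ofReal (ε + t) * ENNReal.ofReal (η * mu ε) := by
        refine add_le_add (h1.trans (mul_le_mul' le_rfl (add_le_add (mul_le_mul' hcard le_rfl)
          (mul_le_mul' le_rfl (h2.trans (mul_le_mul' (ENNReal.ofReal_le_ofReal hht) le_rfl))))))
          (h3.trans (mul_le_mul' (ENNReal.ofReal_le_ofReal (by linarith)) le_rfl))
    _ = 2 * (W.card * ENNReal.ofReal ε) + (2 * (ENNReal.ofReal (cDD B k) * ENNReal.ofReal t) +
        ENNReal.ofReal (ε + t)) * ENNReal.ofReal (η * mu ε) := by ring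
    _ = _ := by
        rw [ENNReal.ofReal_add (by positivity : (0:ℝ) ≤ 2 * cDD B k * t) (by positivity),
          mul_assoc 2, ENNReal.ofReal_mul (by norm_num : (0:ℝ) ≤ 2), ENNReal.ofReal_mul hc]
        norm_num

end Vale.Agent.P119.FL
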