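import Vale.Agent.P119.KU.Scat11
import Vale.Agent.P119.FL.Flux

/-!
# P119: the law of the hitting time (`helper690`)
-/

open MeasureTheory Set Filter Topology Metric ProbabilityTheory
open scoped ENNReal

namespace Vale.Agent.P119.FL

open KU

theorem ae_kappa {V : E3} (hV : V ≠ 0) : ∀ᵐ ρ ∂(kappa V), ‖ρ‖ < 1 ∧ (inner ℝ ρ V : ℝ) = 0 := by
  rw [kappa_eq_hausdorff hV]
  refine ae_restrict_mem ?_
  refine MeasurableSet.inter (measurableSet_lt measurable_norm measurable_const) ?_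
  exact measurableSet_eq_fun (by fun_prop) measurable_const

/-- The lines which hit a given line, in terms of the hitting time and the velocity. -/
theorem lintegral_hit {ε : ℝ} (hε : 0 < ε) (l : Ph) {G : ℝ → E3 → ℝ≥0∞}
    (hG : Measurable fun q : ℝ × E3 => G q.1 q.2) :
    ∫⁻ l' in {l' : Ph | Meets ε (l, l')}, G (hitT ε (l, l')) l'.2 =
      ENNReal.ofReal (ε ^ 2) * (ENNReal.ofReal Real.pi * ∫⁻ u : E3, ‖l.2 - u‖ₑ * ∫⁻ τ, G τ u) := by
  have hm : Measurable fun l' : Ph => G (hitT ε (l, l')) l'.2 :=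
    hG.comp ((measurable_hitT.comp (measurable_const.prodMk measurable_id)).prodMk measurable_snd)
  rw [lintegral_partner hε l hm]
  congr 1
  have hGm : Measurable fun u : E3 => ∫⁻ τ, G τ u := by
    have h : Measurable fun q : E3 × ℝ => G q.2 q.1 := hG.comp measurable_swap
    exact h.lintegral_prod_right'
  have hGm3 : Measurable fun u : E3 => ‖l.2 - u‖ₑ * ∫⁻ τ, G τ u :=
    (by fun_prop : Measurable fun u : E3 => ‖l.2 - u‖ₑ).mul hGm
  rw [← lintegral_const_mul _ hGm3]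
  refine lintegral_congr fun u => ?_
  rcases eq_or_ne (l.2 - u) 0 with h0 | h0
  · rw [h0]; simp
  have h1 : ∀ s : ℝ, ∫⁻ ρ, G (hitT ε (l, partner ε l u s ρ)) (partner ε l u s ρ).2
      ∂(kappa (l.2 - u)) = ∫⁻ ρ, G (s - ε * half (ρ, l.2 - u)) u ∂(kappa (l.2 - u)) := by
    intro s
    refine lintegral_congr_ae ?_
    filter_upwards [ae_kappa h0] with ρ hρ
    rw [hitT_partner hε.ne' l h0 s hρ.2]
    rfl
  simp_rw [h1]
  have hGm2 : Measurable fun q : ℝ × E3 => G (q.1 - ε * half (q.2, l.2 - u)) u := by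
    refine hG.comp (Measurable.prodMk ?_ measurable_const)
    exact measurable_fst.sub ((measurable_half.comp
      (measurable_snd.prodMk measurable_const)).const_mul ε)
  rw [lintegral_lintegral_swap hGm2.aemeasurable]
  have h2 : ∀ ρ : E3, ∫⁻ s : ℝ, G (s - ε * half (ρ, l.2 - u)) u = ∫⁻ τ, G τ u := by
    intro ρ
    exact lintegral_sub_right_eq_self (fun τ => G τ u) _
  simp_rw [h2]
  rw [lintegral_const, kappa_univ h0]
  ring

/-- The lines which hit a given line: upper bound form, with `F l' ≤ G (hitT) l'.2`. -/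
theorem lintegral_hit_le {ε : ℝ} (hε : 0 < ε) (l : Ph) {G : ℝ → E3 → ℝ≥0∞}
    (hG : Measurable fun q : ℝ × E3 => G q.1 q.2) {F : Ph → ℝ≥0∞}
    (hF : ∀ l', F l' ≠ 0 → Meets ε (l, l') ∧ F l' ≤ G (hitT ε (l, l')) l'.2) :
    ∫⁻ l', F l' ≤
      ENNReal.ofReal (ε ^ 2) * (ENNReal.ofReal Real.pi * ∫⁻ u : E3, ‖l.2 - u‖ₑ * ∫⁻ τ, G τ u) := by
  rw [← lintegral_hit hε l hG]
  have hm : MeasurableSet {l' : Ph | Meets ε (l, l')} := measurable_prodMk_left measurableSet_meets
  rw [← lintegral_indicator hm]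
  refine lintegral_mono fun l' => ?_
  by_cases h0 : F l' = 0
  · rw [h0]; exact zero_le
  · rw [indicator_of_mem (show l' ∈ {l' : Ph | Meets ε (l, l')} from (hF l' h0).1)]
    exact (hF l' h0).2

end Vale.Agent.P119.FL
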