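import Vale.Agent.P119.PB.Sub
import Vale.Agent.P119.FL.CaseC

/-!
# P119: from marked trees to lines, with depths (`helper690`)

* `LDLaw Φ ε b K α Θ`: the root lines and the depths of the trees with law `Θ` have density at most
  `K μ α_d e^{-b |v|²}`;
* `mk_lines`: the law of the lines of a marked node;
* `HD`, `Br`: the line form of a branch (a marked node with its spine): the exhaust `e`, its sister
  `β`, the chain `p` of the sister;
* `branch_le`: the integral of a function of the exhaust and of the root line over the marked nodes.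
-/

open MeasureTheory Set Filter Topology Metric
open scoped ENNReal

noncomputable section

namespace Vale.Agent.P119.FL

open KU M M.CTree PB Cap

variable {Φ : E3 → ℝ} {ε b t : ℝ}

/-- The root lines and the depths of the trees with law `Θ` have density at most
`K μ α_d e^{-b |v|²}`. -/
def LDLaw (Φ : E3 → ℝ) (ε b : ℝ) (K : ℝ≥0∞) (α : ℕ → ℝ≥0∞) (Θ : Measure CTree) : Prop :=
  ∀ F : Ph × ℕ → ℝ≥0∞, Measurable F →
    ∫⁻ T, F (ld Φ ε T) ∂Θ ≤ K * ∑' d, α d * ∫⁻ z : Ph, muE ε * gw b z.2 * F (z, d)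

theorem LDLaw.lineLaw {K : ℝ≥0∞} {α : ℕ → ℝ≥0∞} {Θ : Measure CTree} (h : LDLaw Φ ε b K α Θ) :
    LineLaw Φ ε b (K * ∑' d, α d) Θ := by
  intro F hF
  have h1 := h (fun x => F x.1) (hF.comp measurable_fst)
  refine h1.trans (le_of_eq ?_)
  simp only
  rw [ENNReal.tsum_mul_right, mul_assoc]

theorem measurable_ldG {m : ℕ} {G : (Ph × ℕ) → (Ph × ℕ) → (Fin m → Bool × Ph) → ℝ≥0∞}
    (hG : Measurable fun z : (Ph × ℕ) × (Ph × ℕ) × (Fin m → Bool × Ph) => G z.1 z.2.1 z.2.2)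
    (hΦ : IsPotential Φ) (hε : ε ≠ 0) : Measurable fun q : Mk CTree m =>
      G (ld Φ ε q.1) (ld Φ ε q.2.1) fun i => ((q.2.2 i).1, ln Φ ε (q.2.2 i).2) := by
  have hl := measurable_ld (Φ := Φ) (ε := ε) hΦ hε
  have hn := measurable_ln (Φ := Φ) (ε := ε) hΦ hε
  have h1 : Measurable fun q : Mk CTree m => ld Φ ε q.1 := hl.comp measurable_fst
  have h2 : Measurable fun q : Mk CTree m => ld Φ ε q.2.1 :=
    hl.comp (measurable_fst.comp measurable_snd)
  have h3 : Measurable fun q : Mk CTree m =>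
      (fun i => ((q.2.2 i).1, ln Φ ε (q.2.2 i).2) : Fin m → Bool × Ph) := by
    refine measurable_pi_iff.2 fun i => ?_
    have h4 : Measurable fun q : Mk CTree m => q.2.2 i :=
      (measurable_pi_apply i).comp (measurable_snd.comp measurable_snd)
    exact h4.fst.prodMk (hn.comp h4.snd)
  exact hG.comp (h1.prodMk (h2.prodMk h3))

/-- **The law of the lines of a marked node.** -/
theorem mk_lines (hΦ : IsPotential Φ) (hε : ε ≠ 0) {K : ℝ≥0∞} {α : ℕ → ℝ≥0∞}
    {Θ : Measure CTree} [SigmaFinite Θ] (h : LDLaw Φ ε b K α Θ) (m : ℕ)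
    {G : (Ph × ℕ) → (Ph × ℕ) → (Fin m → Bool × Ph) → ℝ≥0∞}
    (hG : Measurable fun z : (Ph × ℕ) × (Ph × ℕ) × (Fin m → Bool × Ph) => G z.1 z.2.1 z.2.2) :
    ∫⁻ q, G (ld Φ ε q.1) (ld Φ ε q.2.1) (fun i => ((q.2.2 i).1, ln Φ ε (q.2.2 i).2)) ∂(mkM Θ m) ≤
      K * ∑' d, α d * ∫⁻ z : Ph, muE ε * gw b z.2 * (K * ∑' d', α d' * ∫⁻ z' : Ph,
        muE ε * gw b z'.2 * ((K * ∑' n, α n) ^ m * ∑ o : Fin m → Bool, ∫⁻ p : Fin m → Ph,
          FL.wt b ε m p * G (z, d) (z', d') fun i => (o i, p i))) := by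
  have hl := measurable_ld (Φ := Φ) (ε := ε) hΦ hε
  have hG' := measurable_ldG hG hΦ hε
  rw [lintegral_mkM _ _ hG']
  simp only
  -- the functions after the integration of the spine
  set H1 : (Ph × ℕ) × (Ph × ℕ) → ℝ≥0∞ := fun y => (K * ∑' n, α n) ^ m *
    ∑ o : Fin m → Bool, ∫⁻ p : Fin m → Ph, FL.wt b ε m p * G y.1 y.2 fun i => (o i, p i) with hH1
  have hH1m : Measurable H1 := by
    refine Measurable.const_mul (Finset.measurable_sum _ fun o _ => ?_) _
    have h1 : Measurable fun y : ((Ph × ℕ) × (Ph × ℕ)) × (Fin m → Ph) =>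
        FL.wt b ε m y.2 * G y.1.1 y.1.2 fun i => (o i, y.2 i) := by
      refine ((measurable_wt b ε m).comp measurable_snd).mul (hG.comp
        (measurable_fst.fst.prodMk (measurable_fst.snd.prodMk (measurable_pi_iff.2 fun i => ?_))))
      exact measurable_const.prodMk ((measurable_pi_apply i).comp measurable_snd)
    exact h1.lintegral_prod_right'
  have h1 : ∀ a b' : CTree, ∫⁻ r, G (ld Φ ε a) (ld Φ ε b') (fun i => ((r i).1, ln Φ ε (r i).2))
      ∂(spM Θ m) ≤ H1 (ld Φ ε a, ld Φ ε b') := by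
    intro a b'
    have h2 : Measurable fun r : Fin m → Bool × Ph => G (ld Φ ε a) (ld Φ ε b') r :=
      hG.comp (measurable_const.prodMk (measurable_const.prodMk measurable_id))
    exact spM_lines hΦ hε h.lineLaw m h2
  set H2 : Ph × ℕ → ℝ≥0∞ := fun x => K * ∑' d', α d' * ∫⁻ z' : Ph,
    muE ε * gw b z'.2 * H1 (x, (z', d')) with hH2
  have hH2m : Measurable H2 := by
    refine Measurable.const_mul (Measurable.tsum fun d' => ?_) _
    refine Measurable.const_mul ?_ _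
    have h2 : Measurable fun y : (Ph × ℕ) × Ph => muE ε * gw b y.2.2 * H1 (y.1, (y.2, d')) := by
      refine (((measurable_gw b).comp measurable_snd.snd).const_mul _).mul (hH1m.comp ?_)
      exact measurable_fst.prodMk (measurable_snd.prodMk measurable_const)
    exact h2.lintegral_prod_right'
  have h2 : ∀ a : CTree, ∫⁻ b', H1 (ld Φ ε a, ld Φ ε b') ∂Θ ≤ H2 (ld Φ ε a) := fun a =>
    h (fun y => H1 (ld Φ ε a, y)) (hH1m.comp (measurable_const.prodMk measurable_id))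
  calc _ ≤ ∫⁻ a, ∫⁻ b', H1 (ld Φ ε a, ld Φ ε b') ∂Θ ∂Θ :=
        lintegral_mono fun a => lintegral_mono fun b' => h1 a b'
    _ ≤ ∫⁻ a, H2 (ld Φ ε a) ∂Θ := lintegral_mono h2
    _ ≤ K * ∑' d, α d * ∫⁻ z : Ph, muE ε * gw b z.2 * H2 (z, d) := h H2 hH2m

/-! ### The line form of a branch -/

/-- The exhaust `e` at a node, its sister `β`, and the chain `p` of the sister. -/
def brS (ε t : ℝ) (S : ℕ → Step) (i : ℕ) : Set (Ph × Ph × (Fin i → Ph)) :=
  {z | Meets ε (z.1, z.2.1) ∧ exT ε (z.1, z.2.1) ∈ Icc 0 t ∧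
    Chain ε t S i (exT ε (z.1, z.2.1)) z.2.1 z.2.2}

/-- The density of a branch. -/
def HD (b ε t : ℝ) (S : ℕ → Step) (i : ℕ) (e β : Ph) (p : Fin i → Ph) : ℝ≥0∞ :=
  (brS ε t S i).indicator (fun z => gw b z.1.2 * (muE ε * gw b z.2.1.2 * wt b ε i z.2.2)) (e, β, p)

theorem measurable_eb {i : ℕ} : Measurable fun z : Ph × Ph × (Fin i → Ph) => (z.1, z.2.1) :=
  measurable_fst.prodMk measurable_snd.fst

theorem measurableSet_brS (ε t : ℝ) (S : ℕ → Step) (i : ℕ) : MeasurableSet (brS ε t S i) := by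
  have h1 : Measurable fun z : Ph × Ph × (Fin i → Ph) => exT ε (z.1, z.2.1) :=
    measurable_exT.comp measurable_eb
  have h2 : Measurable fun z : Ph × Ph × (Fin i → Ph) => (exT ε (z.1, z.2.1), z.2.1, z.2.2) :=
    h1.prodMk (measurable_snd.fst.prodMk measurable_snd.snd)
  exact (measurable_eb measurableSet_meets).inter ((h1 measurableSet_Icc).inter
    (h2 (measurableSet_chain i S)))

theorem measurable_HD (b ε t : ℝ) (S : ℕ → Step) (i : ℕ) :
    Measurable fun z : Ph × Ph × (Fin i → Ph) => HD b ε t S i z.1 z.2.1 z.2.2 := by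
  have h1 : Measurable fun z : Ph × Ph × (Fin i → Ph) =>
      gw b z.1.2 * (muE ε * gw b z.2.1.2 * wt b ε i z.2.2) := by
    have e1 : Measurable fun z : Ph × Ph × (Fin i → Ph) => gw b z.1.2 :=
      (measurable_gw b).comp measurable_fst.snd
    have e2 : Measurable fun z : Ph × Ph × (Fin i → Ph) => gw b z.2.1.2 :=
      (measurable_gw b).comp measurable_snd.fst.snd
    have e3 : Measurable fun z : Ph × Ph × (Fin i → Ph) => wt b ε i z.2.2 :=
      (measurable_wt b ε i).comp measurable_snd.snd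
    exact e1.mul ((e2.const_mul _).mul e3)
  exact h1.indicator (measurableSet_brS ε t S i)

/-- The line form of a branch: the integral of a function of the exhaust (with its birth and its
depth), of the time of the last hit and of the last line. -/
def Br (b ε t : ℝ) (α : ℕ → ℝ≥0∞) (S : (i : ℕ) → (Fin i → Bool) → ℕ → Step) (i : ℕ)
    (f : Src × ℝ × Ph → ℝ≥0∞) : ℝ≥0∞ :=
  ∑' d, ∑' d', α d * α d' * ∑ o : Fin i → Bool, ∫⁻ e, ∫⁻ β, ∫⁻ p : Fin i → Ph,
    HD b ε t (S i o) i e β p * f ((exT ε (e, β), e, max d d' + 1),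
      time ε (S i o) i (exT ε (e, β)) β p, line (S i o) i β p)

/-- The argument of the function in a branch. -/
def brA (ε : ℝ) (S : ℕ → Step) (i n : ℕ) (z : Ph × Ph × (Fin i → Ph)) : Src × ℝ × Ph :=
  ((exT ε (z.1, z.2.1), z.1, n), time ε S i (exT ε (z.1, z.2.1)) z.2.1 z.2.2,
    line S i z.2.1 z.2.2)

theorem measurable_brA (ε : ℝ) (S : ℕ → Step) (i n : ℕ) : Measurable (brA ε S i n) := by
  have h1 : Measurable fun z : Ph × Ph × (Fin i → Ph) => exT ε (z.1, z.2.1) :=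
    measurable_exT.comp measurable_eb
  have h2 : Measurable fun z : Ph × Ph × (Fin i → Ph) => (exT ε (z.1, z.2.1), z.2.1, z.2.2) :=
    h1.prodMk (measurable_snd.fst.prodMk measurable_snd.snd)
  refine (h1.prodMk (measurable_fst.prodMk measurable_const)).prodMk
    (((measurable_time i S).comp h2).prodMk ?_)
  exact (measurable_line i S).comp (measurable_snd.fst.prodMk measurable_snd.snd)

/-- Measurability of a branch with a parameter. -/
theorem measurable_Br {X : Type*} [MeasurableSpace X] (b ε t : ℝ) (α : ℕ → ℝ≥0∞)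
    (S : (i : ℕ) → (Fin i → Bool) → ℕ → Step) (i : ℕ) {f : X → Src × ℝ × Ph → ℝ≥0∞}
    (hf : Measurable fun z : X × (Src × ℝ × Ph) => f z.1 z.2) :
    Measurable fun x => Br b ε t α S i (f x) := by
  unfold Br
  refine Measurable.tsum fun d => Measurable.tsum fun d' => Measurable.const_mul ?_ _
  refine Finset.measurable_sum _ fun o _ => ?_
  have h1 : Measurable fun z : X × (Ph × Ph × (Fin i → Ph)) =>
      HD b ε t (S i o) i z.2.1 z.2.2.1 z.2.2.2 *
        f z.1 (brA ε (S i o) i (max d d' + 1) z.2) :=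
    ((measurable_HD b ε t (S i o) i).comp measurable_snd).mul
      (hf.comp (measurable_fst.prodMk ((measurable_brA ε (S i o) i _).comp measurable_snd)))
  have h2 : Measurable fun z : ((X × Ph) × Ph) × (Fin i → Ph) =>
      HD b ε t (S i o) i z.1.1.2 z.1.2 z.2 *
        f z.1.1.1 (brA ε (S i o) i (max d d' + 1) (z.1.1.2, z.1.2, z.2)) :=
    h1.comp (measurable_fst.fst.fst.prodMk (measurable_fst.fst.snd.prodMk
      (measurable_fst.snd.prodMk measurable_snd)))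
  exact (h2.lintegral_prod_right').lintegral_prod_right'.lintegral_prod_right'

theorem Br_mono (b ε t : ℝ) (α : ℕ → ℝ≥0∞) (S : (i : ℕ) → (Fin i → Bool) → ℕ → Step) (i : ℕ)
    {f g : Src × ℝ × Ph → ℝ≥0∞} (h : ∀ x, f x ≤ g x) :
    Br b ε t α S i f ≤ Br b ε t α S i g := by
  unfold Br
  gcongr
  exact h _

/-! ### From marked nodes to branches -/

/-- The integrand in terms of the exhaust and its sister. -/
def gE (ε t : ℝ) (S : ℕ → Step) (i n : ℕ) (f : Src × ℝ × Ph → ℝ≥0∞)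
    (z : Ph × Ph × (Fin i → Ph)) : ℝ≥0∞ :=
  (brS ε t S i).indicator (fun z => f (brA ε S i n z)) z

theorem measurable_gE (ε t : ℝ) (S : ℕ → Step) (i n : ℕ) {f : Src × ℝ × Ph → ℝ≥0∞}
    (hf : Measurable f) : Measurable (gE ε t S i n f) :=
  (hf.comp (measurable_brA ε S i n)).indicator (measurableSet_brS ε t S i)

/-- The two outgoing lines (second, first) of a pair. -/
def swO (Φ : E3 → ℝ) (ε : ℝ) (w : Ph × Ph) : Ph × Ph := ((sc2 Φ ε w).2, (sc2 Φ ε w).1)

theorem measurable_swO (hΦ : IsPotential Φ) (hε : ε ≠ 0) : Measurable (swO Φ ε) :=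
  (measurable_sc2 hΦ hε).snd.prodMk (measurable_sc2 hΦ hε).fst

theorem exT_swO (hΦ : IsPotential Φ) (hε : ε ≠ 0) (w : Ph × Ph) :
    exT ε (swO Φ ε w) = sepT Φ ε w := by
  have h := exT_swap (ε := ε) (sc2 Φ ε w)
  rw [exT_sc2 hΦ hε] at h
  exact h

theorem meets_swO (hΦ : IsPotential Φ) (hε : ε ≠ 0) (w : Ph × Ph) :
    Meets ε (swO Φ ε w) ↔ Meets ε w := by
  have h := meets_swap (ε := ε) (sc2 Φ ε w)
  exact h.trans (meets_sc2 hΦ hε w)

/-- The change of variables to the outgoing lines. -/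
theorem lintegral_swO (hΦ : IsPotential Φ) (hε : ε ≠ 0) {Q : Ph × Ph → ℝ≥0∞} (hQ : Measurable Q) :
    ∫⁻ z : Ph, muE ε * gw b z.2 * ∫⁻ z' : Ph, muE ε * gw b z'.2 * Q (swO Φ ε (z, z')) =
      muE ε * ∫⁻ e : Ph, ∫⁻ β : Ph, gw b e.2 * (muE ε * gw b β.2) * Q (e, β) := by
  set R : Ph × Ph → ℝ≥0∞ := fun w => (gw b w.2.2 * (muE ε * gw b w.1.2)) * Q (w.2, w.1) with hR
  have hRm : Measurable R := by
    have e1 : Measurable fun w : Ph × Ph => gw b w.2.2 := (measurable_gw b).comp measurable_snd.snd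
    have e2 : Measurable fun w : Ph × Ph => gw b w.1.2 := (measurable_gw b).comp measurable_fst.snd
    exact (e1.mul (e2.const_mul _)).mul (hQ.comp (measurable_snd.prodMk measurable_fst))
  have hmp := measurePreserving_sc2 hΦ hε
  have h1 : ∀ z z' : Ph, muE ε * gw b z.2 * (muE ε * gw b z'.2 * Q (swO Φ ε (z, z'))) =
      muE ε * R (sc2 Φ ε (z, z')) := by
    intro z z'
    have h2 : gw b z.2 * gw b z'.2 =
        gw b (sc2 Φ ε (z, z')).1.2 * gw b (sc2 Φ ε (z, z')).2.2 := by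
      unfold gw
      rw [← ENNReal.ofReal_mul (Real.exp_nonneg _), ← ENNReal.ofReal_mul (Real.exp_nonneg _),
        ← Real.exp_add, ← Real.exp_add]
      have h3 := energy_sc2 hΦ hε (z, z')
      simp only at h3
      congr 2
      rw [← mul_add, ← mul_add, h3]
    rw [hR]
    simp only
    calc _ = muE ε * (muE ε * (gw b z.2 * gw b z'.2)) * Q (swO Φ ε (z, z')) := by ring
      _ = _ := by rw [h2]; unfold swO; ring
  have h2 : ∀ z : Ph, muE ε * gw b z.2 * ∫⁻ z' : Ph, muE ε * gw b z'.2 * Q (swO Φ ε (z, z')) =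
      ∫⁻ z' : Ph, muE ε * R (sc2 Φ ε (z, z')) := by
    intro z
    have hne : muE ε * gw b z.2 ≠ ∞ := ENNReal.mul_ne_top muE_ne_top ENNReal.ofReal_ne_top
    rw [← lintegral_const_mul' _ _ hne]
    exact lintegral_congr fun z' => h1 z z'
  simp_rw [h2]
  have hRs : Measurable fun w : Ph × Ph => muE ε * R (sc2 Φ ε w) :=
    (hRm.comp hmp.measurable).const_mul _
  have h3 : ∫⁻ z : Ph, ∫⁻ z' : Ph, muE ε * R (sc2 Φ ε (z, z')) =
      ∫⁻ w : Ph × Ph, muE ε * R (sc2 Φ ε w) := by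
    rw [Measure.volume_eq_prod Ph Ph, lintegral_prod _ hRs.aemeasurable]
  rw [h3, lintegral_const_mul' _ _ muE_ne_top, hmp.lintegral_comp hRm,
    Measure.volume_eq_prod Ph Ph, lintegral_prod_symm _ hRm.aemeasurable]

/-- One pattern of a branch, before the change of variables. -/
theorem branch_one (hΦ : IsPotential Φ) (hε : ε ≠ 0) (S : ℕ → Step) (i n : ℕ)
    {f : Src × ℝ × Ph → ℝ≥0∞} (hf : Measurable f) :
    ∫⁻ z : Ph, muE ε * gw b z.2 * ∫⁻ z' : Ph, muE ε * gw b z'.2 * ∫⁻ p : Fin i → Ph,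
      FL.wt b ε i p * gE ε t S i n f ((swO Φ ε (z, z')).1, (swO Φ ε (z, z')).2, p) =
    muE ε * ∫⁻ e, ∫⁻ β, ∫⁻ p : Fin i → Ph, HD b ε t S i e β p * f (brA ε S i n (e, β, p)) := by
  set Q : Ph × Ph → ℝ≥0∞ := fun w => ∫⁻ p : Fin i → Ph,
    FL.wt b ε i p * gE ε t S i n f (w.1, w.2, p) with hQ
  have hQm : Measurable Q := by
    have h1 : Measurable fun y : (Ph × Ph) × (Fin i → Ph) =>
        FL.wt b ε i y.2 * gE ε t S i n f (y.1.1, y.1.2, y.2) :=
      ((measurable_wt b ε i).comp measurable_snd).mul ((measurable_gE ε t S i n hf).comp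
        (measurable_fst.fst.prodMk (measurable_fst.snd.prodMk measurable_snd)))
    exact h1.lintegral_prod_right'
  have h1 := lintegral_swO (b := b) hΦ hε hQm
  refine h1.trans ?_
  congr 1
  refine lintegral_congr fun e => lintegral_congr fun β => ?_
  rw [hQ]
  simp only
  have hne : gw b e.2 * (muE ε * gw b β.2) ≠ ∞ := ENNReal.mul_ne_top ENNReal.ofReal_ne_top
    (ENNReal.mul_ne_top muE_ne_top ENNReal.ofReal_ne_top)
  rw [← lintegral_const_mul' _ _ hne]
  refine lintegral_congr fun p => ?_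
  unfold HD gE
  by_cases hz : (e, β, p) ∈ brS ε t S i
  · rw [indicator_of_mem hz, indicator_of_mem hz]
    ring
  · rw [indicator_of_notMem hz, indicator_of_notMem hz]
    ring

theorem measurable_HDf (b ε t : ℝ) (S : ℕ → Step) (i n : ℕ) {f : Src × ℝ × Ph → ℝ≥0∞}
    (hf : Measurable f) : Measurable fun z : Ph × Ph × (Fin i → Ph) =>
      HD b ε t S i z.1 z.2.1 z.2.2 * f (brA ε S i n z) :=
  (measurable_HD b ε t S i).mul (hf.comp (measurable_brA ε S i n))

/-- The data of a marked node: the exhaust, the time of the last hit, the root line. -/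
def brT (hΦ : IsPotential Φ) (hε : ε ≠ 0) (i : ℕ) (q : Mk CTree i) : Src × ℝ × Ph :=
  (rsrc Φ ε (node q.2.1 q.1), time ε (outS hΦ hε i fun j => (q.2.2 j).1) i
    (ext Φ ε (node q.1 q.2.1)) (ln Φ ε (node q.1 q.2.1)) (fun j => ln Φ ε (q.2.2 j).2),
    ln Φ ε (plug i (node q.1 q.2.1) q.2.2))

theorem measurable_plugM (i : ℕ) :
    Measurable fun q : Mk CTree i => plug i (node q.1 q.2.1) q.2.2 :=
  (measurable_plug i).comp ((measurable_node.comp (measurable_fst.prodMk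
    (measurable_fst.comp measurable_snd))).prodMk (measurable_snd.comp measurable_snd))

theorem ld_fst (T : CTree) : (ld Φ ε T).1 = ln Φ ε T := rfl

theorem ld_snd (T : CTree) : (ld Φ ε T).2 = T.depth := rfl

/-- The outgoing lines and the spine. -/
def brP (Φ : E3 → ℝ) (ε : ℝ) {i : ℕ} (x y : Ph) (p : Fin i → Ph) : Ph × Ph × (Fin i → Ph) :=
  ((swO Φ ε (x, y)).1, (swO Φ ε (x, y)).2, p)

theorem brT_eq (hΦ : IsPotential Φ) (hε : ε ≠ 0) {i : ℕ} (q : Mk CTree i) :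
    brT hΦ hε i q = brA ε (outS hΦ hε i fun j => (q.2.2 j).1) i
      (max q.1.depth q.2.1.depth + 1)
      (brP Φ ε (ln Φ ε q.1) (ln Φ ε q.2.1) fun j => ln Φ ε (q.2.2 j).2) := by
  have h1 : ln Φ ε (node q.2.1 q.1) = (swO Φ ε (ln Φ ε q.1, ln Φ ε q.2.1)).1 :=
    ln_swap hΦ q.1 q.2.1
  have h2 : ln Φ ε (node q.1 q.2.1) = (swO Φ ε (ln Φ ε q.1, ln Φ ε q.2.1)).2 := rfl
  have h3 : ext Φ ε (node q.2.1 q.1) = exT ε (swO Φ ε (ln Φ ε q.1, ln Φ ε q.2.1)) := by
    rw [exT_swO hΦ hε, ext_swap hΦ]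
    rfl
  have h3' : ext Φ ε (node q.1 q.2.1) = exT ε (swO Φ ε (ln Φ ε q.1, ln Φ ε q.2.1)) := by
    rw [exT_swO hΦ hε]
    rfl
  have h4 : (node q.2.1 q.1).depth = max q.1.depth q.2.1.depth + 1 := by
    change max q.2.1.depth q.1.depth + 1 = _
    rw [max_comm]
  unfold brT brA brP rsrc
  rw [ln_plug hΦ hε, h1, h2, h3, h3', h4]

/-- The branch condition for the trees of the branch. -/
theorem mem_brS (hΦ : IsPotential Φ) (hε : 0 < ε) {L i : ℕ} {q : Mk CTree i}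
    (h : plug i (node q.1 q.2.1) q.2.2 ∈ okT Φ ε t L) :
    (brP Φ ε (ln Φ ε q.1) (ln Φ ε q.2.1) fun j => ln Φ ε (q.2.2 j).2) ∈
      brS ε t (outS hΦ hε.ne' i fun j => (q.2.2 j).1) i := by
  have h0 := (okT_plug hΦ hε h).1
  have h1 : ok Φ ε (node q.1 q.2.1) := h0.1
  have h3 : exT ε (swO Φ ε (ln Φ ε q.1, ln Φ ε q.2.1)) = ext Φ ε (node q.1 q.2.1) :=
    exT_swO hΦ hε.ne' _
  refine ⟨(meets_swO hΦ hε.ne' _).2 h1.2.2.2.1, ?_, ?_⟩
  · change exT ε (swO Φ ε (ln Φ ε q.1, ln Φ ε q.2.1)) ∈ Icc 0 t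
    rw [h3]
    exact ⟨M.ext_nonneg hΦ hε h1, h0.2.1⟩
  · change Chain ε t _ i (exT ε (swO Φ ε (ln Φ ε q.1, ln Φ ε q.2.1))) _ _
    rw [h3]
    exact chain_plug hΦ hε i _ _ _ h.1 h.2.1 le_rfl

/-- The integrand of a branch on the lines. -/
def brG (hΦ : IsPotential Φ) (hε : ε ≠ 0) (t : ℝ) (i : ℕ) (f : Src × ℝ × Ph → ℝ≥0∞)
    (x y : Ph × ℕ) (r : Fin i → Bool × Ph) : ℝ≥0∞ :=
  gE ε t (outS hΦ hε i fun j => (r j).1) i (max x.2 y.2 + 1) f
    (brP Φ ε x.1 y.1 fun j => (r j).2)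

theorem measurable_brG1 (hΦ : IsPotential Φ) (hε : ε ≠ 0) (t : ℝ) (i : ℕ)
    {f : Src × ℝ × Ph → ℝ≥0∞} (hf : Measurable f) (o : Fin i → Bool) :
    Measurable fun z : (Ph × ℕ) × (Ph × ℕ) × (Fin i → Ph) =>
      gE ε t (outS hΦ hε i o) i (max z.1.2 z.2.1.2 + 1) f (brP Φ ε z.1.1 z.2.1.1 z.2.2) := by
  have hsw := measurable_swO (Φ := Φ) (ε := ε) hΦ hε
  have e1 : Measurable fun z : (Ph × ℕ) × (Ph × ℕ) × (Fin i → Ph) =>
      brP Φ ε z.1.1 z.2.1.1 z.2.2 := by
    have e2 : Measurable fun z : (Ph × ℕ) × (Ph × ℕ) × (Fin i → Ph) =>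
        swO Φ ε (z.1.1, z.2.1.1) := hsw.comp (measurable_fst.fst.prodMk measurable_snd.fst.fst)
    exact e2.fst.prodMk (e2.snd.prodMk measurable_snd.snd)
  have e3 : Measurable fun z : (Ph × ℕ) × (Ph × ℕ) × (Fin i → Ph) =>
      max z.1.2 z.2.1.2 + 1 := (measurable_fst.snd.max measurable_snd.fst.snd).add_const 1
  have e4 : Measurable fun z : ℕ × (Ph × Ph × (Fin i → Ph)) =>
      gE ε t (outS hΦ hε i o) i z.1 f z.2 :=
    measurable_from_prod_countable_right fun n => measurable_gE ε t _ i n hf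
  exact e4.comp (e3.prodMk e1)

theorem measurable_brG (hΦ : IsPotential Φ) (hε : ε ≠ 0) (t : ℝ) (i : ℕ)
    {f : Src × ℝ × Ph → ℝ≥0∞} (hf : Measurable f) :
    Measurable fun z : (Ph × ℕ) × (Ph × ℕ) × (Fin i → Bool × Ph) =>
      brG hΦ hε t i f z.1 z.2.1 z.2.2 := by
  have e1 : Measurable fun z : (Fin i → Bool) × ((Ph × ℕ) × (Ph × ℕ) × (Fin i → Ph)) =>
      gE ε t (outS hΦ hε i z.1) i (max z.2.1.2 z.2.2.1.2 + 1) f
        (brP Φ ε z.2.1.1 z.2.2.1.1 z.2.2.2) :=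
    measurable_from_prod_countable_right (measurable_brG1 hΦ hε t i hf)
  have e2 : Measurable fun z : (Ph × ℕ) × (Ph × ℕ) × (Fin i → Bool × Ph) =>
      ((fun j => (z.2.2 j).1, (z.1, z.2.1, fun j => (z.2.2 j).2)) :
        (Fin i → Bool) × ((Ph × ℕ) × (Ph × ℕ) × (Fin i → Ph))) := by
    refine Measurable.prodMk (measurable_pi_iff.2 fun j => ?_) (measurable_fst.prodMk
      (measurable_snd.fst.prodMk (measurable_pi_iff.2 fun j => ?_)))
    · exact ((measurable_pi_apply j).comp measurable_snd.snd).fst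
    · exact ((measurable_pi_apply j).comp measurable_snd.snd).snd
  have h := e1.comp e2
  simp only [Function.comp_def] at h
  unfold brG
  exact h

theorem le_brG (hΦ : IsPotential Φ) (hε : 0 < ε) (L i : ℕ) (f : Src × ℝ × Ph → ℝ≥0∞)
    (q : Mk CTree i) : (okT Φ ε t L).indicator (fun _ => f (brT hΦ hε.ne' i q))
      (plug i (node q.1 q.2.1) q.2.2) ≤
      brG hΦ hε.ne' t i f (ld Φ ε q.1) (ld Φ ε q.2.1)
        fun j => ((q.2.2 j).1, ln Φ ε (q.2.2 j).2) := by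
  by_cases hq : plug i (node q.1 q.2.1) q.2.2 ∈ okT Φ ε t L
  · rw [indicator_of_mem hq, brT_eq]
    refine le_of_eq ?_
    unfold brG gE
    simp only [ld_fst, ld_snd]
    rw [indicator_of_mem (mem_brS hΦ hε hq)]
  · rw [indicator_of_notMem hq]; exact zero_le

/-- Constants out of the integrals of `mk_lines`. -/
theorem mk_alg {i : ℕ} {α : ℕ → ℝ≥0∞} {K C : ℝ≥0∞}
    {G : (Ph × ℕ) → (Ph × ℕ) → (Fin i → Bool × Ph) → ℝ≥0∞}
    (hG : ∀ o : Fin i → Bool, Measurable fun z : (Ph × ℕ) × (Ph × ℕ) × (Fin i → Ph) =>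
      G z.1 z.2.1 fun j => (o j, z.2.2 j)) :
    K * ∑' d, α d * ∫⁻ z : Ph, muE ε * gw b z.2 * (K * ∑' d', α d' * ∫⁻ z' : Ph,
        muE ε * gw b z'.2 * (C * ∑ o : Fin i → Bool, ∫⁻ p : Fin i → Ph,
          FL.wt b ε i p * G (z, d) (z', d') fun j => (o j, p j))) =
      K ^ 2 * C * ∑' d, ∑' d', α d * α d' * ∑ o : Fin i → Bool, ∫⁻ z : Ph, muE ε * gw b z.2 *
        ∫⁻ z' : Ph, muE ε * gw b z'.2 * ∫⁻ p : Fin i → Ph,
          FL.wt b ε i p * G (z, d) (z', d') fun j => (o j, p j) := by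
  have hmo : ∀ (d d' : ℕ) (o : Fin i → Bool), Measurable fun y : (Ph × Ph) × (Fin i → Ph) =>
      FL.wt b ε i y.2 * G (y.1.1, d) (y.1.2, d') fun j => (o j, y.2 j) := fun d d' o => by
    have e1 : Measurable fun y : (Ph × Ph) × (Fin i → Ph) =>
        (((y.1.1, d), (y.1.2, d'), y.2) : (Ph × ℕ) × (Ph × ℕ) × (Fin i → Ph)) := by
      refine (measurable_fst.fst.prodMk measurable_const).prodMk
        ((measurable_fst.snd.prodMk measurable_const).prodMk measurable_snd)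
    exact ((measurable_wt b ε i).comp measurable_snd).mul ((hG o).comp e1)
  set I3 : ℕ → ℕ → (Fin i → Bool) → Ph → Ph → ℝ≥0∞ := fun d d' o z z' =>
    ∫⁻ p : Fin i → Ph, FL.wt b ε i p * G (z, d) (z', d') fun j => (o j, p j) with hI3
  have hI3m : ∀ d d' o, Measurable fun y : Ph × Ph => I3 d d' o y.1 y.2 := fun d d' o =>
    (hmo d d' o).lintegral_prod_right'
  set I2 : ℕ → ℕ → (Fin i → Bool) → Ph → ℝ≥0∞ := fun d d' o z =>
    ∫⁻ z' : Ph, muE ε * gw b z'.2 * I3 d d' o z z' with hI2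
  have hI2m : ∀ d d' o, Measurable (I2 d d' o) := fun d d' o => by
    have e1 : Measurable fun y : Ph × Ph => muE ε * gw b y.2.2 * I3 d d' o y.1 y.2 :=
      (((measurable_gw b).comp measurable_snd.snd).const_mul _).mul (hI3m d d' o)
    exact e1.lintegral_prod_right'
  have a1 : ∀ (d d' : ℕ) (z : Ph), ∫⁻ z' : Ph, muE ε * gw b z'.2 *
      (C * ∑ o : Fin i → Bool, I3 d d' o z z') = C * ∑ o : Fin i → Bool, I2 d d' o z := by
    intro d d' z
    have e1 : ∀ z' : Ph, muE ε * gw b z'.2 * (C * ∑ o : Fin i → Bool, I3 d d' o z z') =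
        C * ∑ o : Fin i → Bool, muE ε * gw b z'.2 * I3 d d' o z z' := by
      intro z'
      rw [← Finset.mul_sum]
      ring
    simp_rw [e1]
    have e2 : ∀ o : Fin i → Bool, Measurable fun z' : Ph => muE ε * gw b z'.2 *
        I3 d d' o z z' := fun o =>
      (((measurable_gw b).comp measurable_snd).const_mul _).mul
        ((hI3m d d' o).comp (measurable_const.prodMk measurable_id))
    rw [lintegral_const_mul _ (Finset.measurable_sum _ fun o _ => e2 o),
      lintegral_finsetSum _ fun o _ => e2 o]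
  have a2 : ∀ d : ℕ, ∫⁻ z : Ph, muE ε * gw b z.2 * (K * ∑' d', α d' *
      (C * ∑ o : Fin i → Bool, I2 d d' o z)) =
      K * C * ∑' d', α d' * ∑ o : Fin i → Bool, ∫⁻ z : Ph, muE ε * gw b z.2 * I2 d d' o z := by
    intro d
    have e2 : ∀ (d' : ℕ) (o : Fin i → Bool), Measurable fun z : Ph => muE ε * gw b z.2 *
        I2 d d' o z := fun d' o =>
      (((measurable_gw b).comp measurable_snd).const_mul _).mul (hI2m d d' o)
    have e1 : ∀ z : Ph, muE ε * gw b z.2 * (K * ∑' d', α d' *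
        (C * ∑ o : Fin i → Bool, I2 d d' o z)) =
        K * C * ∑' d', α d' * ∑ o : Fin i → Bool, muE ε * gw b z.2 * I2 d d' o z := by
      intro z
      simp_rw [← Finset.mul_sum]
      have e3 : ∀ d', α d' * (C * ∑ o : Fin i → Bool, I2 d d' o z) =
          C * (α d' * ∑ o : Fin i → Bool, I2 d d' o z) := fun d' => by ring
      have e4 : ∀ d', α d' * (muE ε * gw b z.2 * ∑ o : Fin i → Bool, I2 d d' o z) =
          (muE ε * gw b z.2) * (α d' * ∑ o : Fin i → Bool, I2 d d' o z) := fun d' => by ring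
      simp_rw [e3, e4, ENNReal.tsum_mul_left]
      ring
    simp_rw [e1]
    have e5 : ∀ d', Measurable fun z : Ph => α d' * ∑ o : Fin i → Bool, muE ε * gw b z.2 *
        I2 d d' o z := fun d' => (Finset.measurable_sum _ fun o _ => e2 d' o).const_mul _
    rw [lintegral_const_mul _ (Measurable.tsum fun d' => e5 d'),
      lintegral_tsum fun d' => (e5 d').aemeasurable]
    congr 1
    refine tsum_congr fun d' => ?_
    rw [lintegral_const_mul _ (Finset.measurable_sum _ fun o _ => e2 d' o),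
      lintegral_finsetSum _ fun o _ => e2 d' o]
  change K * ∑' d, α d * ∫⁻ z : Ph, muE ε * gw b z.2 * (K * ∑' d', α d' * ∫⁻ z' : Ph,
    muE ε * gw b z'.2 * (C * ∑ o : Fin i → Bool, I3 d d' o z z')) =
    K ^ 2 * C * ∑' d, ∑' d', α d * α d' * ∑ o : Fin i → Bool, ∫⁻ z : Ph, muE ε * gw b z.2 *
      I2 d d' o z
  simp_rw [a1, a2]
  have e6 : ∀ d, α d * (K * C * ∑' d', α d' * ∑ o : Fin i → Bool,
      ∫⁻ z : Ph, muE ε * gw b z.2 * I2 d d' o z) =
      (K * C) * ∑' d', α d * α d' * ∑ o : Fin i → Bool,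
        ∫⁻ z : Ph, muE ε * gw b z.2 * I2 d d' o z := by
    intro d
    rw [← ENNReal.tsum_mul_left, ← ENNReal.tsum_mul_left, ← ENNReal.tsum_mul_left]
    refine tsum_congr fun d' => ?_
    ring
  simp_rw [e6]
  rw [ENNReal.tsum_mul_left]
  ring

/-- **The law of a marked node, on lines.** -/
theorem branch_le (hΦ : IsPotential Φ) (hε : 0 < ε) {K : ℝ≥0∞} {α : ℕ → ℝ≥0∞}
    {Θ : Measure CTree} [SigmaFinite Θ] (hΘ : LDLaw Φ ε b K α Θ) (L i : ℕ)
    {f : Src × ℝ × Ph → ℝ≥0∞} (hf : Measurable f) :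
    ∫⁻ q : Mk CTree i, (okT Φ ε t L).indicator (fun _ => f (brT hΦ hε.ne' i q))
      (plug i (node q.1 q.2.1) q.2.2) ∂(mkM Θ i) ≤
      muE ε * (K ^ 2 * (K * ∑' n, α n) ^ i) * Br b ε t α (outS hΦ hε.ne') i f := by
  refine (lintegral_mono (le_brG hΦ hε L i f)).trans
    ((mk_lines hΦ hε.ne' hΘ i (measurable_brG hΦ hε.ne' t i hf)).trans ?_)
  rw [mk_alg (measurable_brG1 hΦ hε.ne' t i hf)]
  have a3 : ∀ (d d' : ℕ) (o : Fin i → Bool), ∫⁻ z : Ph, muE ε * gw b z.2 *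
      ∫⁻ z' : Ph, muE ε * gw b z'.2 * ∫⁻ p : Fin i → Ph, FL.wt b ε i p *
        brG hΦ hε.ne' t i f (z, d) (z', d') (fun j => (o j, p j)) =
      muE ε * ∫⁻ e, ∫⁻ β, ∫⁻ p : Fin i → Ph, HD b ε t (outS hΦ hε.ne' i o) i e β p *
        f (brA ε (outS hΦ hε.ne' i o) i (max d d' + 1) (e, β, p)) := fun d d' o =>
    branch_one hΦ hε.ne' (outS hΦ hε.ne' i o) i (max d d' + 1) hf
  simp_rw [a3, ← Finset.mul_sum]
  unfold Br brA
  have e7 : ∀ (d d' : ℕ) (X : ℝ≥0∞), α d * α d' * (muE ε * X) = muE ε * (α d * α d' * X) :=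
    fun d d' X => by ring
  simp_rw [e7, ENNReal.tsum_mul_left]
  refine le_of_eq ?_
  ring

end Vale.Agent.P119.FL
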