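import Vale.Agent.P119.FL.LD
import Vale.Agent.P119.PB.Pairs

/-!
# P119: the law of two exhausts in different branches, on lines (`helper690`)

* `brM`: the law of a branch, as a measure on the data (exhaust, time of the last hit, last line);
* `lintegral_brM`: integrals with respect to `brM`;
* `tr_le`: the mass of the trailing spine, with a polynomial weight of the root velocity;
* `lamC`: the law of two exhausts in different branches;
* `sumC_le`: the sum `sumC` over the pairs of marked nodes in different branches is at most an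
  integral with respect to `lamC`; `lamC_swap`: `lamC` is symmetric.
-/

open MeasureTheory Set Filter Topology Metric
open scoped ENNReal

noncomputable section

namespace Vale.Agent.P119.FL

open KU M M.CTree PB Cap

variable {Φ : E3 → ℝ} {ε b t : ℝ}

/-! ### The law of a branch -/

/-- The volume on the data of a branch. -/
def vol3 (i : ℕ) : Measure (Ph × Ph × (Fin i → Ph)) :=
  (volume : Measure Ph).prod ((volume : Measure Ph).prod (volume : Measure (Fin i → Ph)))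

instance (i : ℕ) : SFinite (vol3 i) := by
  unfold vol3
  infer_instance

/-- The law of a branch. -/
def brM (b ε t : ℝ) (α : ℕ → ℝ≥0∞) (S : (i : ℕ) → (Fin i → Bool) → ℕ → Step) (i : ℕ) :
    Measure (Src × ℝ × Ph) :=
  Measure.sum fun y : ℕ × ℕ × (Fin i → Bool) => (α y.1 * α y.2.1) •
    (((vol3 i).withDensity fun z => HD b ε t (S i y.2.2) i z.1 z.2.1 z.2.2).map
      (brA ε (S i y.2.2) i (max y.1 y.2.1 + 1)))

instance sfinite_brM (b ε t : ℝ) (α : ℕ → ℝ≥0∞) (S : (i : ℕ) → (Fin i → Bool) → ℕ → Step)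
    (i : ℕ) : SFinite (brM b ε t α S i) := by
  unfold brM
  infer_instance

theorem lintegral_brM (b ε t : ℝ) (α : ℕ → ℝ≥0∞) (S : (i : ℕ) → (Fin i → Bool) → ℕ → Step)
    (i : ℕ) {f : Src × ℝ × Ph → ℝ≥0∞} (hf : Measurable f) :
    ∫⁻ x, f x ∂(brM b ε t α S i) = Br b ε t α S i f := by
  unfold brM Br
  rw [lintegral_sum_measure]
  have h1 : ∀ (d d' : ℕ) (o : Fin i → Bool), ∫⁻ x, f x ∂((α d * α d') •
      (((vol3 i).withDensity fun z =>
      HD b ε t (S i o) i z.1 z.2.1 z.2.2).map (brA ε (S i o) i (max d d' + 1)))) =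
      α d * α d' * ∫⁻ e, ∫⁻ β, ∫⁻ p : Fin i → Ph, HD b ε t (S i o) i e β p *
        f (brA ε (S i o) i (max d d' + 1) (e, β, p)) := by
    intro d d' o
    have hm := measurable_HDf b ε t (S i o) i (max d d' + 1) hf
    have hfb : Measurable fun z => f (brA ε (S i o) i (max d d' + 1) z) :=
      hf.comp (measurable_brA ε (S i o) i _)
    rw [lintegral_smul_measure, lintegral_map hf (measurable_brA ε (S i o) i _),
      lintegral_withDensity_eq_lintegral_mul _ (measurable_HD b ε t (S i o) i) hfb, smul_eq_mul]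
    congr 1
    unfold vol3
    have e2 := lintegral_prod (μ := (volume : Measure Ph))
      (ν := (volume : Measure Ph).prod (volume : Measure (Fin i → Ph))) _ hm.aemeasurable
    refine Eq.trans e2 ?_
    refine lintegral_congr fun e => ?_
    have hm2 : Measurable fun z : Ph × (Fin i → Ph) => HD b ε t (S i o) i e z.1 z.2 *
        f (brA ε (S i o) i (max d d' + 1) (e, z)) :=
      hm.comp (measurable_const.prodMk measurable_id)
    exact lintegral_prod _ hm2.aemeasurable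
  rw [ENNReal.tsum_prod']
  refine tsum_congr fun d => ?_
  rw [ENNReal.tsum_prod']
  refine tsum_congr fun d' => ?_
  rw [tsum_fintype, Finset.mul_sum]
  exact Finset.sum_congr rfl fun o _ => h1 d d' o

/-- The Gaussian factor of the last line is absorbed. -/
theorem Br_exp {b : ℝ} (hb : 0 < b) (ε t : ℝ) (α : ℕ → ℝ≥0∞)
    (S : (i : ℕ) → (Fin i → Bool) → ℕ → Step) (i : ℕ) (f : Src × ℝ × Ph → ℝ≥0∞) :
    Br b ε t α S i (fun x => ENNReal.ofReal (Real.exp (b / 2 * ‖x.2.2.2‖ ^ 2)) * f x) ≤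
      Br (b / 2) ε t α S i f := by
  unfold Br
  refine ENNReal.tsum_le_tsum fun d => ENNReal.tsum_le_tsum fun d' => mul_le_mul' le_rfl
    (Finset.sum_le_sum fun o _ => lintegral_mono fun e => lintegral_mono fun β =>
      lintegral_mono fun p => ?_)
  have h1 := line_energy i (S i o) β p
  rw [← mul_assoc]
  refine mul_le_mul' ?_ le_rfl
  unfold HD
  by_cases hz : (e, β, p) ∈ brS ε t (S i o) i
  · rw [indicator_of_mem hz, indicator_of_mem hz]
    have h2 : ENNReal.ofReal (Real.exp (b / 2 * ‖(line (S i o) i β p).2‖ ^ 2)) ≤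
        ENNReal.ofReal (Real.exp (b / 2 * ‖β.2‖ ^ 2)) *
        ∏ j, ENNReal.ofReal (Real.exp (b / 2 * ‖(p j).2‖ ^ 2)) := by
      rw [← ENNReal.ofReal_prod_of_nonneg fun j _ => (Real.exp_pos _).le,
        ← ENNReal.ofReal_mul (Real.exp_pos _).le, ← Real.exp_sum, ← Real.exp_add]
      apply ENNReal.ofReal_le_ofReal
      rw [Real.exp_le_exp, ← Finset.mul_sum, ← mul_add]
      exact mul_le_mul_of_nonneg_left h1 (by positivity)
    have h3 : gw b β.2 * ENNReal.ofReal (Real.exp (b / 2 * ‖β.2‖ ^ 2)) = gw (b / 2) β.2 := by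
      unfold gw
      rw [← ENNReal.ofReal_mul (Real.exp_pos _).le, ← Real.exp_add]
      congr 2; ring
    have h4 : wt b ε i p * ∏ j, ENNReal.ofReal (Real.exp (b / 2 * ‖(p j).2‖ ^ 2)) =
        wt (b / 2) ε i p := by
      unfold wt
      rw [← Finset.prod_mul_distrib]
      refine Finset.prod_congr rfl fun j _ => ?_
      rw [mul_assoc, ← ENNReal.ofReal_mul (Real.exp_pos _).le, ← Real.exp_add]
      congr 3; ring
    have h5 : gw b e.2 ≤ gw (b / 2) e.2 := by
      unfold gw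
      apply ENNReal.ofReal_le_ofReal
      apply Real.exp_le_exp.2
      nlinarith [sq_nonneg ‖e.2‖]
    calc gw b e.2 * (muE ε * gw b β.2 * wt b ε i p) *
          ENNReal.ofReal (Real.exp (b / 2 * ‖(line (S i o) i β p).2‖ ^ 2))
        ≤ gw b e.2 * (muE ε * gw b β.2 * wt b ε i p) *
          (ENNReal.ofReal (Real.exp (b / 2 * ‖β.2‖ ^ 2)) *
            ∏ j, ENNReal.ofReal (Real.exp (b / 2 * ‖(p j).2‖ ^ 2))) := mul_le_mul' le_rfl h2
      _ = gw b e.2 * (muE ε * (gw b β.2 * ENNReal.ofReal (Real.exp (b / 2 * ‖β.2‖ ^ 2))) *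
          (wt b ε i p * ∏ j, ENNReal.ofReal (Real.exp (b / 2 * ‖(p j).2‖ ^ 2)))) := by ring
      _ ≤ _ := by
          rw [h3, h4]
          gcongr
  · rw [indicator_of_notMem hz, indicator_of_notMem hz, zero_mul]

/-! ### The trailing spine -/

theorem pw_le_exp (hb : 0 < b) (q : ℕ) (v : E3) :
    pw q v ≤ ENNReal.ofReal (Cgp (b / 4) q) * ENNReal.ofReal (Real.exp (b / 8 * ‖v‖ ^ 2)) := by
  have h1 := gw_mul_pw (b := b / 4) (by positivity) q v
  have h2 : ENNReal.ofReal (Real.exp (b / 4 * ‖v‖ ^ 2)) * gw (b / 4) v = 1 := by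
    unfold gw
    rw [← ENNReal.ofReal_mul (Real.exp_pos _).le, ← Real.exp_add]
    have : b / 4 * ‖v‖ ^ 2 + -(b / 4) * ‖v‖ ^ 2 = 0 := by ring
    rw [this, Real.exp_zero, ENNReal.ofReal_one]
  have h3 : ENNReal.ofReal (Real.exp (b / 4 * ‖v‖ ^ 2)) * gw (b / 4 / 2) v =
      ENNReal.ofReal (Real.exp (b / 8 * ‖v‖ ^ 2)) := by
    unfold gw
    rw [← ENNReal.ofReal_mul (Real.exp_pos _).le, ← Real.exp_add]
    congr 2; ring
  calc pw q v = (ENNReal.ofReal (Real.exp (b / 4 * ‖v‖ ^ 2)) * gw (b / 4) v) * pw q v := by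
        rw [h2, one_mul]
    _ = ENNReal.ofReal (Real.exp (b / 4 * ‖v‖ ^ 2)) * (gw (b / 4) v * pw q v) := by ring
    _ ≤ ENNReal.ofReal (Real.exp (b / 4 * ‖v‖ ^ 2)) *
        (ENNReal.ofReal (Cgp (b / 4) q) * gw (b / 4 / 2) v) := mul_le_mul' le_rfl h1
    _ = ENNReal.ofReal (Cgp (b / 4) q) *
        (ENNReal.ofReal (Real.exp (b / 4 * ‖v‖ ^ 2)) * gw (b / 4 / 2) v) := by ring
    _ = _ := by rw [h3]

/-- The mass of the chains with a polynomial weight of the last velocity. -/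
theorem tr_mass (hε : 0 < ε) (hb : 0 < b) (q k : ℕ) (S : ℕ → Step) {s : ℝ} (hs : s ∈ Icc 0 t)
    (l : Ph) : ∫⁻ p : Fin k → Ph, {p | Chain ε t S k s l p}.indicator
      (fun p => wt b ε k p * pw q (line S k l p).2) p ≤
      ENNReal.ofReal (Cgp (b / 4) q) * (ENNReal.ofReal ((Kc (b / 2) * t) ^ k /
        √(k.factorial : ℝ)) * ENNReal.ofReal (Real.exp (b / 2 * ‖l.2‖ ^ 2))) := by
  have h0 := chain_mass' hε (by positivity : 0 < b / 2) k S hs l
  set C := ENNReal.ofReal (Cgp (b / 4) q) * ENNReal.ofReal (Real.exp (b / 8 * ‖l.2‖ ^ 2)) with hC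
  have hCm : C ≠ ∞ := ENNReal.mul_ne_top ENNReal.ofReal_ne_top ENNReal.ofReal_ne_top
  have h1 : ∀ p : Fin k → Ph, {p | Chain ε t S k s l p}.indicator
      (fun p => wt b ε k p * pw q (line S k l p).2) p ≤
      C * {p | Chain ε t S k s l p}.indicator (wt (b / 2) ε k) p := by
    intro p
    by_cases hp : p ∈ {p | Chain ε t S k s l p}
    · rw [indicator_of_mem hp, indicator_of_mem hp]
      have h2 := line_energy k S l p
      have h3 : ENNReal.ofReal (Real.exp (b / 8 * ‖(line S k l p).2‖ ^ 2)) ≤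
          ENNReal.ofReal (Real.exp (b / 8 * ‖l.2‖ ^ 2)) *
          ∏ j, ENNReal.ofReal (Real.exp (b / 8 * ‖(p j).2‖ ^ 2)) := by
        rw [← ENNReal.ofReal_prod_of_nonneg fun j _ => (Real.exp_pos _).le,
          ← ENNReal.ofReal_mul (Real.exp_pos _).le, ← Real.exp_sum, ← Real.exp_add]
        apply ENNReal.ofReal_le_ofReal
        rw [Real.exp_le_exp, ← Finset.mul_sum, ← mul_add]
        exact mul_le_mul_of_nonneg_left h2 (by positivity)
      have h4 : wt b ε k p * ∏ j, ENNReal.ofReal (Real.exp (b / 8 * ‖(p j).2‖ ^ 2)) ≤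
          wt (b / 2) ε k p := by
        unfold wt
        rw [← Finset.prod_mul_distrib]
        refine Finset.prod_le_prod' fun j _ => ?_
        rw [mul_assoc, ← ENNReal.ofReal_mul (Real.exp_pos _).le, ← Real.exp_add]
        refine mul_le_mul' le_rfl (ENNReal.ofReal_le_ofReal (Real.exp_le_exp.2 ?_))
        nlinarith [sq_nonneg ‖(p j).2‖]
      calc wt b ε k p * pw q (line S k l p).2
          ≤ wt b ε k p * (ENNReal.ofReal (Cgp (b / 4) q) *
            (ENNReal.ofReal (Real.exp (b / 8 * ‖l.2‖ ^ 2)) *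
            ∏ j, ENNReal.ofReal (Real.exp (b / 8 * ‖(p j).2‖ ^ 2)))) :=
            mul_le_mul' le_rfl ((pw_le_exp hb q _).trans (mul_le_mul' le_rfl h3))
        _ = C * (wt b ε k p * ∏ j, ENNReal.ofReal (Real.exp (b / 8 * ‖(p j).2‖ ^ 2))) := by
            rw [hC]; ring
        _ ≤ _ := mul_le_mul' le_rfl h4
    · rw [indicator_of_notMem hp]
      exact zero_le
  refine (lintegral_mono h1).trans ?_
  rw [lintegral_const_mul' _ _ hCm]
  refine (mul_le_mul' le_rfl h0).trans ?_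
  have h5 : ENNReal.ofReal (Real.exp (b / 8 * ‖l.2‖ ^ 2)) *
      ENNReal.ofReal (Real.exp (b / 2 / 2 * ‖l.2‖ ^ 2)) ≤
      ENNReal.ofReal (Real.exp (b / 2 * ‖l.2‖ ^ 2)) := by
    rw [← ENNReal.ofReal_mul (Real.exp_pos _).le, ← Real.exp_add]
    refine ENNReal.ofReal_le_ofReal (Real.exp_le_exp.2 ?_)
    nlinarith [sq_nonneg ‖l.2‖]
  rw [hC]
  calc _ = ENNReal.ofReal (Cgp (b / 4) q) * (ENNReal.ofReal ((Kc (b / 2) * t) ^ k /
        √(k.factorial : ℝ)) * (ENNReal.ofReal (Real.exp (b / 8 * ‖l.2‖ ^ 2)) *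
        ENNReal.ofReal (Real.exp (b / 2 / 2 * ‖l.2‖ ^ 2)))) := by ring
    _ ≤ _ := by gcongr

/-- The constant of the trailing spine. -/
def cTr (b t : ℝ) (K : ℝ≥0∞) (q k : ℕ) : ℝ≥0∞ :=
  K ^ k * (2 ^ k * (ENNReal.ofReal (Cgp (b / 4) q) *
    ENNReal.ofReal ((Kc (b / 2) * t) ^ k / √(k.factorial : ℝ))))

/-- **The mass of the trailing spine.** -/
theorem tr_le (hΦ : IsPotential Φ) (hε : 0 < ε) (hb : 0 < b) {K : ℝ≥0∞}
    {Θ : Measure CTree} [SigmaFinite Θ] (hK : LineLaw Φ ε b K Θ) (L q k : ℕ) (X : CTree) :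
    ∫⁻ r, (okT Φ ε t L).indicator (fun T => pw q (ln Φ ε T).2) (plug k X r) ∂(spM Θ k) ≤
      (okT Φ ε t L).indicator (fun X => cTr b t K q k *
        ENNReal.ofReal (Real.exp (b / 2 * ‖(ln Φ ε X).2‖ ^ 2))) X := by
  by_cases hX : X ∈ okT Φ ε t L
  swap
  · have : ∀ r, (okT Φ ε t L).indicator (fun T => pw q (ln Φ ε T).2) (plug k X r) = 0 := fun r =>
      indicator_of_notMem (fun h => hX (okT_plug hΦ hε h).1) _
    simp only [this, lintegral_zero]
    exact zero_le
  rw [indicator_of_mem hX]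
  set G : (Fin k → Bool × Ph) → ℝ≥0∞ := fun ρ =>
    {p | Chain ε t (outS hΦ hε.ne' k fun i => (ρ i).1) k (ext Φ ε X) (ln Φ ε X) p}.indicator
      (fun p => pw q (line (outS hΦ hε.ne' k fun i => (ρ i).1) k (ln Φ ε X) p).2)
      (fun i => (ρ i).2) with hG
  have hGm : Measurable G := by
    refine meas_bits (f := fun o p => {p | Chain ε t (outS hΦ hε.ne' k o) k (ext Φ ε X)
      (ln Φ ε X) p}.indicator (fun p => pw q (line (outS hΦ hε.ne' k o) k (ln Φ ε X) p).2) p)
      fun o => Measurable.indicator ?_ ?_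
    · exact (measurable_pw' q).comp (measurable_snd.comp
        ((measurable_line k _).comp (measurable_const.prodMk measurable_id)))
    · exact (measurable_const.prodMk (measurable_const.prodMk measurable_id) :
        Measurable fun p : Fin k → Ph => (ext Φ ε X, ln Φ ε X, p)) (measurableSet_chain k _)
  have h1 : ∀ r, (okT Φ ε t L).indicator (fun T => pw q (ln Φ ε T).2) (plug k X r) ≤
      G fun i => ((r i).1, ln Φ ε (r i).2) := by
    intro r
    by_cases h : plug k X r ∈ okT Φ ε t L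
    · rw [indicator_of_mem h, hG]
      simp only
      have h2 := chain_plug hΦ hε k (ext Φ ε X) X r h.1 h.2.1 le_rfl
      rw [indicator_of_mem (show _ ∈ {p | _} from h2), ln_plug hΦ hε.ne']
    · rw [indicator_of_notMem h]
      exact zero_le
  refine (lintegral_mono h1).trans ((spM_lines hΦ hε.ne' hK k hGm).trans ?_)
  have h3 : ∀ o : Fin k → Bool, ∫⁻ p : Fin k → Ph, FL.wt b ε k p * G (fun i => (o i, p i)) ≤
      ENNReal.ofReal (Cgp (b / 4) q) * (ENNReal.ofReal ((Kc (b / 2) * t) ^ k /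
        √(k.factorial : ℝ)) * ENNReal.ofReal (Real.exp (b / 2 * ‖(ln Φ ε X).2‖ ^ 2))) := by
    intro o
    refine le_trans (le_of_eq (lintegral_congr fun p => ?_)) (tr_mass (t := t) hε hb q k
      (outS hΦ hε.ne' k o) (s := ext Φ ε X) ⟨M.ext_nonneg hΦ hε hX.1, hX.2.1⟩ (ln Φ ε X))
    rw [hG]
    simp only
    by_cases hp : Chain ε t (outS hΦ hε.ne' k o) k (ext Φ ε X) (ln Φ ε X) p
    · rw [indicator_of_mem (show p ∈ {p | _} from hp), indicator_of_mem (show p ∈ {p | _} from hp)]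
    · rw [indicator_of_notMem (show p ∉ {p | _} from hp),
        indicator_of_notMem (show p ∉ {p | _} from hp), mul_zero]
  refine (mul_le_mul' le_rfl (Finset.sum_le_sum fun o _ => h3 o)).trans (le_of_eq ?_)
  rw [Finset.sum_const, Finset.card_univ, Fintype.card_fun, Fintype.card_bool, Fintype.card_fin,
    nsmul_eq_mul]
  unfold cTr
  push_cast
  ring

/-! ### The law of two exhausts in different branches -/

/-- The last lines of the two branches meet; births in `(0, t]` and depths at most `L`. -/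
def joinS (ε t : ℝ) (L : ℕ) : Set ((Src × ℝ × Ph) × (Src × ℝ × Ph)) :=
  {z | (Meets ε (z.1.2.2, z.2.2.2) ∧ z.1.2.1 ≤ hitT ε (z.1.2.2, z.2.2.2) ∧
    z.2.2.1 ≤ hitT ε (z.1.2.2, z.2.2.2) ∧ hitT ε (z.1.2.2, z.2.2.2) ≤ t) ∧
    (0 < z.1.1.1 ∧ z.1.1.1 ≤ t ∧ z.1.1.2.2 ≤ L) ∧ 0 < z.2.1.1 ∧ z.2.1.1 ≤ t ∧ z.2.1.2.2 ≤ L}

theorem measurableSet_joinS (ε t : ℝ) (L : ℕ) : MeasurableSet (joinS ε t L) := by
  have e0 : Measurable fun z : (Src × ℝ × Ph) × (Src × ℝ × Ph) => (z.1.2.2, z.2.2.2) :=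
    measurable_fst.snd.snd.prodMk measurable_snd.snd.snd
  have e1 : Measurable fun z : (Src × ℝ × Ph) × (Src × ℝ × Ph) =>
      hitT ε (z.1.2.2, z.2.2.2) := measurable_hitT.comp e0
  have e2 : ∀ {f : (Src × ℝ × Ph) × (Src × ℝ × Ph) → Src}, Measurable f →
      MeasurableSet {z | 0 < (f z).1 ∧ (f z).1 ≤ t ∧ (f z).2.2 ≤ L} := fun {f} hf =>
    (measurableSet_lt measurable_const hf.fst).inter ((measurableSet_le hf.fst
      measurable_const).inter (measurableSet_le hf.snd.snd measurable_const))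
  refine MeasurableSet.inter ((e0 measurableSet_meets).inter ((measurableSet_le
    measurable_fst.snd.fst e1).inter ((measurableSet_le measurable_snd.snd.fst e1).inter
      (measurableSet_le e1 measurable_const)))) ((e2 measurable_fst.fst).inter
        (e2 measurable_snd.fst))

theorem joinS_swap {ε t : ℝ} {L : ℕ} {x y : Src × ℝ × Ph} (h : (x, y) ∈ joinS ε t L) :
    (y, x) ∈ joinS ε t L := by
  obtain ⟨⟨h1, h2, h3, h4⟩, h5, h6⟩ := h
  have e1 : hitT ε (y.2.2, x.2.2) = hitT ε (x.2.2, y.2.2) := hitT_swap (x.2.2, y.2.2)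
  refine ⟨⟨(meets_swap (x.2.2, y.2.2)).2 h1, ?_, ?_, ?_⟩, h6, h5⟩
  · change y.2.1 ≤ hitT ε (y.2.2, x.2.2)
    rw [e1]; exact h3
  · change x.2.1 ≤ hitT ε (y.2.2, x.2.2)
    rw [e1]; exact h2
  · change hitT ε (y.2.2, x.2.2) ≤ t
    rw [e1]; exact h4

theorem brT_fst (hΦ : IsPotential Φ) (hε : ε ≠ 0) {i : ℕ} (q : Mk CTree i) :
    (brT hΦ hε i q).1 = rsrc Φ ε (exh q) := rfl

theorem brT_line (hΦ : IsPotential Φ) (hε : ε ≠ 0) {i : ℕ} (q : Mk CTree i) :
    (brT hΦ hε i q).2.2 = ln Φ ε (top q) := rfl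

theorem depth_exh {i : ℕ} (q : Mk CTree i) :
    (exh q).depth = (node q.1 q.2.1).depth := by
  change max q.2.1.depth q.1.depth + 1 = max q.1.depth q.2.1.depth + 1
  rw [max_comm]

theorem ext_exh (hΦ : IsPotential Φ) {i : ℕ} (q : Mk CTree i) :
    ext Φ ε (exh q) = ext Φ ε (node q.1 q.2.1) := ext_swap hΦ _ _

theorem ext_node_pos (hΦ : IsPotential Φ) (hε : 0 < ε) {a b' : CTree} (h : ok Φ ε (node a b')) :
    0 < ext Φ ε (node a b') :=
  (M.ext_nonneg hΦ hε h.1).trans_lt (h.2.2.2.2.2.1.trans (sig_lt_ext hΦ hε h))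

/-- The time of the last hit of a branch is before the end of the branch. -/
theorem brT_time_le (hΦ : IsPotential Φ) (hε : 0 < ε) {i : ℕ} {q : Mk CTree i}
    (h : ok Φ ε (top q)) : (brT hΦ hε.ne' i q).2.1 ≤ ext Φ ε (top q) := by
  cases i with
  | zero => exact le_rfl
  | succ i =>
    have h1 : (brT hΦ hε.ne' (i + 1) q).2.1 = sig Φ ε (top q) := by
      unfold brT top
      exact time_plug' hΦ hε.ne' i (ext Φ ε (node q.1 q.2.1)) (node q.1 q.2.1) q.2.2
    exact h1.le.trans (sig_le_ext hΦ hε h)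

/-- The data of a node whose two subtrees carry a marked node. -/
theorem mem_joinS (hΦ : IsPotential Φ) (hε : 0 < ε) {L i i' : ℕ} {q : Mk CTree i}
    {q' : Mk CTree i'} (h : node (top q) (top q') ∈ okT Φ ε t L) :
    (brT hΦ hε.ne' i q, brT hΦ hε.ne' i' q') ∈ joinS ε t L ∧ top q ∈ okT Φ ε t L ∧
      top q' ∈ okT Φ ε t L := by
  obtain ⟨h1, h2, h3⟩ := h
  have h4 : sig Φ ε (node (top q) (top q')) < ext Φ ε (node (top q) (top q')) :=
    sig_lt_ext hΦ hε h1
  have h5 : hitT ε (ln Φ ε (top q), ln Φ ε (top q')) ≤ t := h4.le.trans h2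
  have h6 : max (top q).depth (top q').depth + 1 ≤ L := h3
  have h7 := le_max_left (top q).depth (top q').depth
  have h8 := le_max_right (top q).depth (top q').depth
  have hA : top q ∈ okT Φ ε t L := ⟨h1.1, h1.2.2.2.2.2.1.le.trans h5, by omega⟩
  have hB : top q' ∈ okT Φ ε t L := ⟨h1.2.1, h1.2.2.2.2.2.2.le.trans h5, by omega⟩
  have key : ∀ {i : ℕ} {q : Mk CTree i}, top q ∈ okT Φ ε t L →
      0 < (brT hΦ hε.ne' i q).1.1 ∧ (brT hΦ hε.ne' i q).1.1 ≤ t ∧
        (brT hΦ hε.ne' i q).1.2.2 ≤ L := by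
    intro i q hq
    obtain ⟨k1, k2, k3⟩ := (okT_plug hΦ hε hq).1
    have k4 : (rsrc Φ ε (exh q)).1 = ext Φ ε (node q.1 q.2.1) := ext_exh hΦ q
    have k5 : (rsrc Φ ε (exh q)).2.2 = (node q.1 q.2.1).depth := depth_exh q
    rw [brT_fst, k4, k5]
    exact ⟨ext_node_pos hΦ hε k1, k2, k3⟩
  have h9 : Meets ε ((brT hΦ hε.ne' i q).2.2, (brT hΦ hε.ne' i' q').2.2) ∧
      (brT hΦ hε.ne' i q).2.1 ≤ hitT ε ((brT hΦ hε.ne' i q).2.2, (brT hΦ hε.ne' i' q').2.2) ∧
      (brT hΦ hε.ne' i' q').2.1 ≤ hitT ε ((brT hΦ hε.ne' i q).2.2, (brT hΦ hε.ne' i' q').2.2) ∧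
      hitT ε ((brT hΦ hε.ne' i q).2.2, (brT hΦ hε.ne' i' q').2.2) ≤ t := by
    rw [brT_line, brT_line]
    exact ⟨h1.2.2.2.1, (brT_time_le hΦ hε h1.1).trans h1.2.2.2.2.2.1.le,
      (brT_time_le hΦ hε h1.2.1).trans h1.2.2.2.2.2.2.le, h5⟩
  exact ⟨⟨h9, key hA, key hB⟩, hA, hB⟩

/-- The total mass of the trailing spines. -/
def cTR (b t : ℝ) (K : ℝ≥0∞) (q : ℕ) : ℝ≥0∞ := ∑' k, cTr b t K q k

/-- The coefficient of the branches of lengths `i`, `i'`. -/
def cLam (b t : ℝ) (K : ℝ≥0∞) (α : ℕ → ℝ≥0∞) (q i i' : ℕ) : ℝ≥0∞ :=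
  cTR b t (K * ∑' n, α n) q * (K ^ 4 * (K * ∑' n, α n) ^ (i + i'))

/-- **The law of two exhausts in different branches.** -/
def lamC (hΦ : IsPotential Φ) (hε : ε ≠ 0) (b t : ℝ) (K : ℝ≥0∞) (α : ℕ → ℝ≥0∞) (L q : ℕ) :
    Measure (Src × Src) :=
  Measure.sum fun y : ℕ × ℕ => (muE ε * cLam b t K α q y.1 y.2) •
    ((((brM (b / 2) ε t α (outS hΦ hε) y.1).prod
      (brM (b / 2) ε t α (outS hΦ hε) y.2)).restrict (joinS ε t L)).map fun z => (z.1.1, z.2.1))

instance sfinite_lamC (hΦ : IsPotential Φ) (hε : ε ≠ 0) (b t : ℝ) (K : ℝ≥0∞) (α : ℕ → ℝ≥0∞)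
    (L q : ℕ) : SFinite (lamC hΦ hε b t K α L q) := by
  unfold lamC
  infer_instance

theorem lintegral_lamC (hΦ : IsPotential Φ) (hε : ε ≠ 0) (b t : ℝ) (K : ℝ≥0∞) (α : ℕ → ℝ≥0∞)
    (L q : ℕ) {f : Src × Src → ℝ≥0∞} (hf : Measurable f) :
    ∫⁻ z, f z ∂(lamC hΦ hε b t K α L q) = ∑' i, ∑' i', muE ε * cLam b t K α q i i' *
      Br (b / 2) ε t α (outS hΦ hε) i fun x => Br (b / 2) ε t α (outS hΦ hε) i' fun y =>
        (joinS ε t L).indicator (fun z => f (z.1.1, z.2.1)) (x, y) := by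
  unfold lamC
  have hp : Measurable fun z : (Src × ℝ × Ph) × (Src × ℝ × Ph) => (z.1.1, z.2.1) :=
    measurable_fst.fst.prodMk measurable_snd.fst
  have hfp : Measurable fun z : (Src × ℝ × Ph) × (Src × ℝ × Ph) => f (z.1.1, z.2.1) := hf.comp hp
  have hF := hfp.indicator (measurableSet_joinS ε t L)
  rw [lintegral_sum_measure, ENNReal.tsum_prod']
  refine tsum_congr fun i => tsum_congr fun i' => ?_
  rw [lintegral_smul_measure, lintegral_map hf hp, ← lintegral_indicator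
    (measurableSet_joinS ε t L), lintegral_prod _ hF.aemeasurable, smul_eq_mul]
  congr 1
  have h1 : ∀ x, ∫⁻ y, (joinS ε t L).indicator (fun z => f (z.1.1, z.2.1)) (x, y)
      ∂(brM (b / 2) ε t α (outS hΦ hε) i') = Br (b / 2) ε t α (outS hΦ hε) i' fun y =>
        (joinS ε t L).indicator (fun z => f (z.1.1, z.2.1)) (x, y) := fun x =>
    lintegral_brM _ _ _ _ _ _ (hF.comp measurable_prodMk_left)
  simp_rw [h1]
  exact lintegral_brM _ _ _ _ _ _ (measurable_Br (b / 2) ε t α (outS hΦ hε) i' hF)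

/-- `lamC` is symmetric. -/
theorem lamC_swap (hΦ : IsPotential Φ) (hε : ε ≠ 0) (b t : ℝ) (K : ℝ≥0∞) (α : ℕ → ℝ≥0∞)
    (L q : ℕ) {f : Src × Src → ℝ≥0∞} (hf : Measurable f) :
    ∫⁻ z, f z.swap ∂(lamC hΦ hε b t K α L q) = ∫⁻ z, f z ∂(lamC hΦ hε b t K α L q) := by
  unfold lamC
  have hp : Measurable fun z : (Src × ℝ × Ph) × (Src × ℝ × Ph) => (z.1.1, z.2.1) :=
    measurable_fst.fst.prodMk measurable_snd.fst
  have hfs : Measurable fun z : Src × Src => f z.swap := hf.comp measurable_swap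
  rw [lintegral_sum_measure, lintegral_sum_measure, ENNReal.tsum_prod', ENNReal.tsum_prod',
    ENNReal.tsum_comm]
  refine tsum_congr fun i => tsum_congr fun i' => ?_
  rw [lintegral_smul_measure, lintegral_smul_measure]
  have e0 : cLam b t K α q i' i = cLam b t K α q i i' := by
    unfold cLam
    rw [add_comm]
  have hF : Measurable fun z : (Src × ℝ × Ph) × (Src × ℝ × Ph) =>
      (joinS ε t L).indicator (fun z => f (z.1.1, z.2.1)) z :=
    (hf.comp hp).indicator (measurableSet_joinS ε t L)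
  have hFs : Measurable fun z : (Src × ℝ × Ph) × (Src × ℝ × Ph) =>
      (joinS ε t L).indicator (fun z => f (z.2.1, z.1.1)) z := by
    refine Measurable.indicator ?_ (measurableSet_joinS ε t L)
    exact hf.comp (measurable_snd.fst.prodMk measurable_fst.fst)
  simp only [e0]
  congr 1
  rw [lintegral_map hfs hp, lintegral_map hf hp, ← lintegral_indicator (measurableSet_joinS ε t L),
    ← lintegral_indicator (measurableSet_joinS ε t L)]
  change ∫⁻ z, (joinS ε t L).indicator (fun z => f (z.2.1, z.1.1)) z ∂_ = _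
  rw [← lintegral_prod_swap]
  refine lintegral_congr fun z => ?_
  by_cases hz : z ∈ joinS ε t L
  · have hz' : z.swap ∈ joinS ε t L := joinS_swap (x := z.1) (y := z.2) hz
    rw [indicator_of_mem hz, indicator_of_mem hz']
    rfl
  · have hz' : z.swap ∉ joinS ε t L := fun h => hz (joinS_swap (x := z.2) (y := z.1) h)
    rw [indicator_of_notMem hz, indicator_of_notMem hz']

/-! ### The sum over the pairs of nodes in different branches -/

/-- The Gaussian factor of a last line. -/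
def eL (b : ℝ) (v : E3) : ℝ≥0∞ := ENNReal.ofReal (Real.exp (b / 2 * ‖v‖ ^ 2))

theorem measurable_eL (b : ℝ) : Measurable (eL b) := by
  unfold eL
  fun_prop

theorem eL_ne_top (b : ℝ) (v : E3) : eL b v ≠ ∞ := ENNReal.ofReal_ne_top

theorem eL_node (hΦ : IsPotential Φ) (hε : ε ≠ 0) (hb : 0 < b) (A B : CTree) :
    eL b (ln Φ ε (node A B)).2 ≤ eL b (ln Φ ε A).2 * eL b (ln Φ ε B).2 := by
  unfold eL
  rw [← ENNReal.ofReal_mul (Real.exp_pos _).le, ← Real.exp_add]
  apply ENNReal.ofReal_le_ofReal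
  rw [Real.exp_le_exp, ← mul_add]
  refine mul_le_mul_of_nonneg_left ?_ (by positivity)
  have h := energy_sc2 hΦ hε (ln Φ ε A, ln Φ ε B)
  simp only at h
  have h2 : ‖(ln Φ ε (node A B)).2‖ ^ 2 = ‖(sc2 Φ ε (ln Φ ε A, ln Φ ε B)).1.2‖ ^ 2 := rfl
  rw [h2]
  nlinarith [sq_nonneg ‖(sc2 Φ ε (ln Φ ε A, ln Φ ε B)).2.2‖]

theorem measurable_brT (hΦ : IsPotential Φ) (hε : ε ≠ 0) (i : ℕ) :
    Measurable (brT (Φ := Φ) hΦ hε i) := by
  have hn : Measurable fun q : Mk CTree i => node q.1 q.2.1 :=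
    measurable_node.comp (measurable_fst.prodMk measurable_snd.fst)
  have hl := measurable_ln (Φ := Φ) (ε := ε) hΦ hε
  have e1 : Measurable fun z : (Fin i → Bool) × (ℝ × Ph × (Fin i → Ph)) =>
      time ε (outS hΦ hε i z.1) i z.2.1 z.2.2.1 z.2.2.2 :=
    measurable_from_prod_countable_right fun o => measurable_time i (outS hΦ hε i o)
  have e2 : Measurable fun q : Mk CTree i => ((fun j => (q.2.2 j).1, (ext Φ ε (node q.1 q.2.1),
      ln Φ ε (node q.1 q.2.1), fun j => ln Φ ε (q.2.2 j).2)) :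
        (Fin i → Bool) × (ℝ × Ph × (Fin i → Ph))) := by
    refine Measurable.prodMk (measurable_pi_iff.2 fun j => ?_)
      (((measurable_ext hΦ hε).comp hn).prodMk ((hl.comp hn).prodMk
        (measurable_pi_iff.2 fun j => hl.comp ?_)))
    · exact ((measurable_pi_apply j).comp measurable_snd.snd).fst
    · exact ((measurable_pi_apply j).comp measurable_snd.snd).snd
  have e3 := e1.comp e2
  simp only [Function.comp_def] at e3
  have e4 : Measurable fun q : Mk CTree i => rsrc Φ ε (exh q) :=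
    (measurable_rsrc hΦ hε).comp (measurable_exh i)
  have e5 : Measurable fun q : Mk CTree i => ln Φ ε (top q) := hl.comp (measurable_top i)
  exact e4.prodMk (e3.prodMk e5)

theorem measurable_okT_top (hΦ : IsPotential Φ) (hε : ε ≠ 0) (t : ℝ) (L i : ℕ)
    {f : Mk CTree i → ℝ≥0∞} (hf : Measurable f) :
    Measurable fun q : Mk CTree i => (okT Φ ε t L).indicator (fun _ => f q) (top q) := by
  have e : (fun q : Mk CTree i => (okT Φ ε t L).indicator (fun _ => f q) (top q)) =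
      (top ⁻¹' okT Φ ε t L).indicator f := by
    funext q
    by_cases hq : top q ∈ okT Φ ε t L
    · rw [indicator_of_mem hq, indicator_of_mem (show q ∈ top ⁻¹' okT Φ ε t L from hq)]
    · rw [indicator_of_notMem hq, indicator_of_notMem (show q ∉ top ⁻¹' okT Φ ε t L from hq)]
  rw [e]
  exact hf.indicator (measurable_top i (measurableSet_okT hΦ hε L))

/-- The symmetrized function of two exhausts, on the join set. -/
def psJ (ε t : ℝ) (L : ℕ) (ψ : Src → Src → ℝ≥0∞) (z : (Src × ℝ × Ph) × (Src × ℝ × Ph)) : ℝ≥0∞ :=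
  (joinS ε t L).indicator (fun z => ψ z.1.1 z.2.1 + ψ z.2.1 z.1.1) z

theorem measurable_psJ (ε t : ℝ) (L : ℕ) {ψ : Src → Src → ℝ≥0∞}
    (hψ : Measurable fun z : Src × Src => ψ z.1 z.2) : Measurable (psJ ε t L ψ) := by
  refine Measurable.indicator ?_ (measurableSet_joinS ε t L)
  exact (hψ.comp (measurable_fst.fst.prodMk measurable_snd.fst)).add
    (hψ.comp (measurable_snd.fst.prodMk measurable_fst.fst))

/-- The integral over the trailing spine. -/
theorem sumC_inner (hΦ : IsPotential Φ) (hε : 0 < ε) (hb : 0 < b) {K : ℝ≥0∞}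
    {Θ : Measure CTree} [SigmaFinite Θ] (hK : LineLaw Φ ε b K Θ) (L q₀ k : ℕ) {i i' : ℕ}
    {R : CTree → ℝ≥0∞} (hR : ∀ T ∈ okT Φ ε t L, R T ≤ pw q₀ (ln Φ ε T).2)
    {Ψ : CTree → CTree → ℝ≥0∞} {ψ : Src → Src → ℝ≥0∞}
    (hΨ : ∀ x y, Ψ x y ≤ ψ (rsrc Φ ε x) (rsrc Φ ε y)) (q : Mk CTree i) (q' : Mk CTree i') :
    ∫⁻ r : Fin k → Bool × CTree, (okT Φ ε t L).indicator (fun _ => R (treeC k i i' q q' r) *
      (Ψ (exh q) (exh q') + Ψ (exh q') (exh q))) (treeC k i i' q q' r) ∂(spM Θ k) ≤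
      cTr b t K q₀ k * (okT Φ ε t L).indicator (fun _ => eL b (brT hΦ hε.ne' i q).2.2.2 *
        (okT Φ ε t L).indicator (fun _ => eL b (brT hΦ hε.ne' i' q').2.2.2 *
          psJ ε t L ψ (brT hΦ hε.ne' i q, brT hΦ hε.ne' i' q')) (top q')) (top q) := by
  set X : CTree := node (top q) (top q') with hX
  set c : ℝ≥0∞ := Ψ (exh q) (exh q') + Ψ (exh q') (exh q) with hc
  have hpm : Measurable fun r : Fin k → Bool × CTree =>
      (okT Φ ε t L).indicator (fun T => pw q₀ (ln Φ ε T).2) (plug k X r) := by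
    have h1 : Measurable fun r : Fin k → Bool × CTree => plug k X r :=
      (measurable_plug k).comp (measurable_const.prodMk measurable_id)
    have h2 : Measurable fun T : CTree => pw q₀ (ln Φ ε T).2 :=
      (measurable_pw' q₀).comp (measurable_ln hΦ hε.ne').snd
    exact (h2.indicator (measurableSet_okT hΦ hε.ne' L)).comp h1
  have h1 : ∀ r : Fin k → Bool × CTree, (okT Φ ε t L).indicator (fun _ =>
      R (treeC k i i' q q' r) * c) (treeC k i i' q q' r) ≤
      c * (okT Φ ε t L).indicator (fun T => pw q₀ (ln Φ ε T).2) (plug k X r) := by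
    intro r
    have e : treeC k i i' q q' r = plug k X r := rfl
    rw [e]
    by_cases hr : plug k X r ∈ okT Φ ε t L
    · rw [indicator_of_mem hr, indicator_of_mem hr, mul_comm]
      exact mul_le_mul' le_rfl (hR _ hr)
    · rw [indicator_of_notMem hr]
      exact zero_le
  refine (lintegral_mono h1).trans ?_
  rw [lintegral_const_mul _ hpm]
  refine (mul_le_mul' le_rfl (tr_le hΦ hε hb hK L q₀ k X)).trans ?_
  by_cases hX' : X ∈ okT Φ ε t L
  · obtain ⟨h2, h3, h4⟩ := mem_joinS hΦ hε hX'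
    rw [indicator_of_mem hX', indicator_of_mem h3, indicator_of_mem h4]
    have h5 : psJ ε t L ψ (brT hΦ hε.ne' i q, brT hΦ hε.ne' i' q') =
        ψ (rsrc Φ ε (exh q)) (rsrc Φ ε (exh q')) + ψ (rsrc Φ ε (exh q')) (rsrc Φ ε (exh q)) := by
      unfold psJ
      rw [indicator_of_mem h2]
      simp only [brT_fst]
    have h6 : c ≤ psJ ε t L ψ (brT hΦ hε.ne' i q, brT hΦ hε.ne' i' q') := by
      rw [h5, hc]
      exact add_le_add (hΨ _ _) (hΨ _ _)
    have h7 := eL_node hΦ hε.ne' hb (top q) (top q')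
    rw [brT_line, brT_line]
    calc c * (cTr b t K q₀ k * ENNReal.ofReal (Real.exp (b / 2 * ‖(ln Φ ε X).2‖ ^ 2)))
        = cTr b t K q₀ k * (eL b (ln Φ ε X).2 * c) := by unfold eL; ring
      _ ≤ cTr b t K q₀ k * ((eL b (ln Φ ε (top q)).2 * eL b (ln Φ ε (top q')).2) *
          psJ ε t L ψ (brT hΦ hε.ne' i q, brT hΦ hε.ne' i' q')) := by gcongr
      _ = _ := by ring
  · rw [indicator_of_notMem hX']
    simp

/-- **The sum over the pairs of exhausts in different branches.** -/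
theorem sumC_le (hΦ : IsPotential Φ) (hε : 0 < ε) (hb : 0 < b) {K : ℝ≥0∞} {α : ℕ → ℝ≥0∞}
    {Θ : Measure CTree} [SigmaFinite Θ] (hΘ : LDLaw Φ ε b K α Θ) (L q₀ : ℕ)
    {R : CTree → ℝ≥0∞} (hR : ∀ T ∈ okT Φ ε t L, R T ≤ pw q₀ (ln Φ ε T).2)
    {Ψ : CTree → CTree → ℝ≥0∞} {ψ : Src → Src → ℝ≥0∞}
    (hψ : Measurable fun z : Src × Src => ψ z.1 z.2)
    (hΨ : ∀ x y, Ψ x y ≤ ψ (rsrc Φ ε x) (rsrc Φ ε y)) :
    sumC Φ ε t L Θ R Ψ ≤ muE ε *
      ∫⁻ z, (ψ z.1 z.2 + ψ z.2 z.1) ∂(lamC hΦ hε.ne' b t K α L q₀) := by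
  set A : ℝ≥0∞ := ∑' n, α n with hA
  have hF := measurable_psJ ε t L hψ
  have hH : ∀ i', Measurable fun x : Src × ℝ × Ph =>
      Br b ε t α (outS hΦ hε.ne') i' fun y => eL b y.2.2.2 * psJ ε t L ψ (x, y) := by
    intro i'
    refine measurable_Br b ε t α (outS hΦ hε.ne') i' ?_
    exact ((measurable_eL b).comp measurable_snd.snd.snd.snd).mul hF
  -- for fixed lengths
  have h1 : ∀ k i i', ∫⁻ q : Mk CTree i, ∫⁻ q' : Mk CTree i', ∫⁻ r : Fin k → Bool × CTree,
      (okT Φ ε t L).indicator (fun _ => R (treeC k i i' q q' r) *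
        (Ψ (exh q) (exh q') + Ψ (exh q') (exh q))) (treeC k i i' q q' r)
        ∂(spM Θ k) ∂(mkM Θ i') ∂(mkM Θ i) ≤
      cTr b t (K * A) q₀ k * (muE ε * (muE ε * (K ^ 4 * (K * A) ^ (i + i') *
        Br (b / 2) ε t α (outS hΦ hε.ne') i fun x => Br (b / 2) ε t α (outS hΦ hε.ne') i'
          fun y => psJ ε t L ψ (x, y)))) := by
    intro k i i'
    -- the integral over `q'`
    have a1 : ∀ q : Mk CTree i, ∫⁻ q' : Mk CTree i', ∫⁻ r : Fin k → Bool × CTree,
        (okT Φ ε t L).indicator (fun _ => R (treeC k i i' q q' r) *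
          (Ψ (exh q) (exh q') + Ψ (exh q') (exh q))) (treeC k i i' q q' r)
          ∂(spM Θ k) ∂(mkM Θ i') ≤
        cTr b t (K * A) q₀ k * ((muE ε * (K ^ 2 * (K * A) ^ i')) *
          (okT Φ ε t L).indicator (fun _ => eL b (brT hΦ hε.ne' i q).2.2.2 *
            Br b ε t α (outS hΦ hε.ne') i' fun y => eL b y.2.2.2 *
              psJ ε t L ψ (brT hΦ hε.ne' i q, y)) (top q)) := by
      intro q
      have m1 : Measurable fun q' : Mk CTree i' => (okT Φ ε t L).indicator (fun _ =>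
          eL b (brT hΦ hε.ne' i' q').2.2.2 *
            psJ ε t L ψ (brT hΦ hε.ne' i q, brT hΦ hε.ne' i' q')) (top q') := by
        have m0 := measurable_brT (ε := ε) hΦ hε.ne' i'
        exact measurable_okT_top hΦ hε.ne' t L i' (((measurable_eL b).comp m0.snd.snd.snd).mul
          (hF.comp (measurable_const.prodMk m0)))
      refine (lintegral_mono fun q' => sumC_inner hΦ hε hb hΘ.lineLaw L q₀ k hR hΨ q q').trans ?_
      by_cases hq : top q ∈ okT Φ ε t L
      · simp only [indicator_of_mem hq]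
        rw [lintegral_const_mul _ (m1.const_mul _), lintegral_const_mul _ m1]
        have a2 := branch_le (t := t) hΦ hε hΘ L i'
          (f := fun y => eL b y.2.2.2 * psJ ε t L ψ (brT hΦ hε.ne' i q, y))
          (((measurable_eL b).comp measurable_snd.snd.snd).mul
            (hF.comp measurable_prodMk_left))
        refine (mul_le_mul' le_rfl (mul_le_mul' le_rfl a2)).trans (le_of_eq ?_)
        ring
      · simp only [indicator_of_notMem hq, mul_zero, lintegral_zero]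
        exact le_rfl
    refine (lintegral_mono a1).trans ?_
    have m2 : Measurable fun x : Src × ℝ × Ph => eL b x.2.2.2 *
        Br b ε t α (outS hΦ hε.ne') i' fun y => eL b y.2.2.2 * psJ ε t L ψ (x, y) :=
      ((measurable_eL b).comp measurable_snd.snd.snd).mul (hH i')
    have m3 : Measurable fun q : Mk CTree i => (okT Φ ε t L).indicator (fun _ =>
        eL b (brT hΦ hε.ne' i q).2.2.2 * Br b ε t α (outS hΦ hε.ne') i' fun y =>
          eL b y.2.2.2 * psJ ε t L ψ (brT hΦ hε.ne' i q, y)) (top q) :=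
      measurable_okT_top hΦ hε.ne' t L i (m2.comp (measurable_brT hΦ hε.ne' i))
    rw [lintegral_const_mul _ (m3.const_mul _), lintegral_const_mul _ m3]
    have a3 := branch_le (t := t) hΦ hε hΘ L i m2
    have a4 : Br b ε t α (outS hΦ hε.ne') i (fun x => eL b x.2.2.2 *
        Br b ε t α (outS hΦ hε.ne') i' fun y => eL b y.2.2.2 * psJ ε t L ψ (x, y)) ≤
        Br (b / 2) ε t α (outS hΦ hε.ne') i fun x => Br (b / 2) ε t α (outS hΦ hε.ne') i'
          fun y => psJ ε t L ψ (x, y) :=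
      (Br_exp hb ε t α _ i _).trans (Br_mono _ _ _ _ _ _ fun x => Br_exp hb ε t α _ i' _)
    refine (mul_le_mul' le_rfl (mul_le_mul' le_rfl (a3.trans (mul_le_mul' le_rfl a4)))).trans
      (le_of_eq ?_)
    rw [pow_add]
    ring
  unfold sumC
  refine (ENNReal.tsum_le_tsum fun k => ENNReal.tsum_le_tsum fun i => ENNReal.tsum_le_tsum
    fun i' => h1 k i i').trans (le_of_eq ?_)
  have hf : Measurable fun z : Src × Src => ψ z.1 z.2 + ψ z.2 z.1 :=
    hψ.add (hψ.comp measurable_swap)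
  rw [lintegral_lamC hΦ hε.ne' b t K α L q₀ hf]
  set B : ℕ → ℕ → ℝ≥0∞ := fun i i' => Br (b / 2) ε t α (outS hΦ hε.ne') i fun x =>
    Br (b / 2) ε t α (outS hΦ hε.ne') i' fun y => psJ ε t L ψ (x, y) with hB
  change ∑' k, ∑' i, ∑' i', cTr b t (K * A) q₀ k * (muE ε * (muE ε *
    (K ^ 4 * (K * A) ^ (i + i') * B i i'))) = muE ε * ∑' i, ∑' i', muE ε *
      cLam b t K α q₀ i i' * B i i'
  have e0 : ∀ k, ∑' i, ∑' i', cTr b t (K * A) q₀ k * (muE ε * (muE ε *
      (K ^ 4 * (K * A) ^ (i + i') * B i i'))) = cTr b t (K * A) q₀ k * (muE ε * (muE ε *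
      ∑' i, ∑' i', K ^ 4 * (K * A) ^ (i + i') * B i i')) := by
    intro k
    simp_rw [ENNReal.tsum_mul_left]
  simp_rw [e0]
  rw [ENNReal.tsum_mul_right]
  change cTR b t (K * A) q₀ * _ = _
  unfold cLam
  rw [← hA]
  generalize cTR b t (K * A) q₀ = TR
  clear_value A B
  have e1 : ∀ i, ∑' i', muE ε * (TR * (K ^ 4 * (K * A) ^ (i + i'))) * B i i' =
      (muE ε * TR) * ∑' i', K ^ 4 * (K * A) ^ (i + i') * B i i' := by
    intro i
    rw [← ENNReal.tsum_mul_left]
    refine tsum_congr fun i' => ?_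
    ring
  simp_rw [e1, ENNReal.tsum_mul_left]
  ring

end Vale.Agent.P119.FL
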