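import Vale.Agent.P119.FL.LawC
import Vale.Agent.P119.PB.SE14
import Vale.Agent.P119.PB.Iter6

/-!
# P119: law C with the iterated operators (`helper690`)

* `opn_le_cR`, `inner_le_cR`: the chain operators applied to contacts with a family of targets;
* `lamC_Gc`: the integral with respect to `lamC` of the iterates `Gc` of a function which is bounded
  by contacts with a family of targets.
-/

open MeasureTheory Set Filter Topology Metric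
open scoped ENNReal

noncomputable section

namespace Vale.Agent.P119.FL

open KU M M.CTree PB Cap

variable {Φ : E3 → ℝ} {ε b t δ : ℝ}

theorem measurableSet_ctcF {S : ℕ → Step} {j : ℕ} {c₁ h : ℝ} (F : PathFam ε S j c₁) {ι : Type*}
    (I : Finset ι) (T : ι → Target h) (s : ℝ) (m : Ph) : MeasurableSet (ctcF ε t F I T s m) := by
  have e : ctcF ε t F I T s m = ⋃ i ∈ I, {q : Fin j → Ph | Chain ε t S j s m q ∧
      ∃ τ ∈ Icc (max (T i).a (time ε S j s m q)) h, ‖F.X m q τ - (T i).Y τ‖ ≤ ε} := by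
    ext q
    simp only [ctcF, mem_ofPred_eq, mem_iUnion, exists_prop]
    constructor
    · rintro ⟨h1, i, hi, h2⟩
      exact ⟨i, hi, h1, h2⟩
    · rintro ⟨i, hi, h1, h2⟩
      exact ⟨h1, i, hi, h2⟩
  rw [e]
  refine I.measurableSet_biUnion fun i _ => ?_
  have hc : MeasurableSet {q : Fin j → Ph | Chain ε t S j s m q} := measurableSet_chain_p s m
  rcases lt_or_ge h (T i).a with hta | hat
  · have : {q : Fin j → Ph | Chain ε t S j s m q ∧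
        ∃ τ ∈ Icc (max (T i).a (time ε S j s m q)) h, ‖F.X m q τ - (T i).Y τ‖ ≤ ε} = ∅ := by
      ext q
      simp only [mem_ofPred_eq, mem_empty_iff_false, iff_false, not_and]
      rintro - ⟨τ, h1, -⟩
      have := (le_max_left (T i).a _).trans (h1.1.trans h1.2)
      linarith
    rw [this]
    exact MeasurableSet.empty
  have hYc : Continuous fun τ : ℝ => (T i).Y (max (T i).a (min h τ)) := by
    have h1 : Continuous fun τ : ℝ => max (T i).a (min h τ) := by fun_prop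
    exact (T i).cont.comp_continuous h1 fun τ => ⟨le_max_left _ _, max_le hat (min_le_left _ _)⟩
  have hP := F.good h
  have hX : (F.P h).X = F.X := F.eq h
  have h0 : Measurable fun q : Fin j → Ph => (m, q) := measurable_const.prodMk measurable_id
  have h1 : MeasurableSet {q : Fin j → Ph | ∃ τ, max (T i).a (time ε S j s m q) ≤ τ ∧ τ ≤ h ∧
      ‖F.X m q τ - (T i).Y (max (T i).a (min h τ))‖ - ε ≤ 0} := by
    refine MM.measurableSet_meet_closed (F := fun (q : Fin j → Ph) τ =>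
      ‖F.X m q τ - (T i).Y (max (T i).a (min h τ))‖ - ε) ?_ ?_ ?_ measurable_const
    · intro τ
      have h2 := (hP.meas τ).comp h0
      rw [hX] at h2
      exact (h2.sub measurable_const).norm.sub measurable_const
    · intro q
      have h2 := hP.cont (m, q)
      rw [hX] at h2
      exact (h2.sub hYc).norm.sub continuous_const
    · exact measurable_const.max ((measurable_time_q s).comp h0)
  refine (hc.inter h1).congr ?_
  ext q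
  simp only [mem_inter_iff, mem_ofPred_eq]
  refine and_congr_right fun _ => ⟨?_, ?_⟩
  · rintro ⟨τ, b1, b2, b3⟩
    refine ⟨τ, ⟨b1, b2⟩, ?_⟩
    rw [min_eq_right b2, max_eq_right ((le_max_left (T i).a _).trans b1)] at b3
    linarith
  · rintro ⟨τ, ⟨b1, b2⟩, b3⟩
    refine ⟨τ, b1, b2, ?_⟩
    rw [min_eq_right b2, max_eq_right ((le_max_left (T i).a _).trans b1)]
    linarith

/-- The line `z`, after the time `s` and before the horizon, is in contact with a target. -/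
def LnC (ε : ℝ) {ι : Type*} {h : ℝ} (I : Finset ι) (T : ι → Target h) (s : ℝ) (z : Ph) : Prop :=
  ∃ k ∈ I, ∃ τ ∈ Icc (max (T k).a s) h, ‖(z.1 + τ • z.2) - (T k).Y τ‖ ≤ ε

/-- The first particle of the pair, after the hit and before the horizon, is in contact with a
target. -/
def PrC1 (Φ : E3 → ℝ) (ε : ℝ) {ι : Type*} {h : ℝ} (I : Finset ι) (T : ι → Target h)
    (q : Ph × Ph) : Prop :=
  ∃ k ∈ I, ∃ τ ∈ Icc (max (T k).a (hitT ε q)) h, ‖(pairLine Φ ε q τ).1.1 - (T k).Y τ‖ ≤ ε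

/-- The second particle of the pair, after the hit and before the horizon, is in contact with a
target. -/
def PrC2 (Φ : E3 → ℝ) (ε : ℝ) {ι : Type*} {h : ℝ} (I : Finset ι) (T : ι → Target h)
    (q : Ph × Ph) : Prop :=
  ∃ k ∈ I, ∃ τ ∈ Icc (max (T k).a (hitT ε q)) h, ‖(pairLine Φ ε q τ).2.1 - (T k).Y τ‖ ≤ ε

theorem opn_le_cR {ι : Type*} {h t₁ : ℝ} {I : Finset ι} {T : ι → Target h} {j : ℕ}
    {S : ℕ → Step} {F : ℝ → Ph → ℝ≥0∞} (hF : Measurable fun q : ℝ × Ph => F q.1 q.2)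
    {g : ℝ≥0∞} (hFc : ∀ s z, F s z ≠ 0 → LnC ε I T s z ∧ F s z ≤ g) (hg : g ≠ ∞)
    (s : ℝ) (l : Ph) :
    opn ε b t₁ j S F s l ≤ g * cR b ε t₁ (lineFam ε S j) I T s l := by
  rw [opn_eq j S hF]
  unfold cR
  rw [← lintegral_const_mul' _ _ hg]
  refine lintegral_mono fun p => ?_
  by_cases hc : Chain ε t₁ S j s l p
  swap
  · rw [opI_of_not hc]; exact zero_le
  rw [opI_of hc]
  by_cases h0 : F (time ε S j s l p) (line S j l p) = 0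
  · rw [h0, mul_zero]; exact zero_le
  obtain ⟨⟨k, hk, τ, hτ, h1⟩, h2⟩ := hFc _ _ h0
  have h3 : p ∈ ctcF ε t₁ (lineFam ε S j) I T s l := ⟨hc, k, hk, τ, hτ, h1⟩
  rw [indicator_of_mem h3, mul_comm]
  exact mul_le_mul' h2 le_rfl

theorem inner_le_cR1 (hΦ : IsPotential Φ) (hε : ε ≠ 0) {ι : Type*} {h t₁ : ℝ} {I : Finset ι}
    {T : ι → Target h} {j : ℕ} {S : ℕ → Step} {K : Ph × Ph → ℝ≥0∞} (hK : Measurable K)
    {g : ℝ≥0∞} (hKc : ∀ q, K q ≠ 0 → PrC1 Φ ε I T q ∧ K q ≤ g) (hg : g ≠ ∞) (s : ℝ) (l : Ph) :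
    opn ε b t₁ j S (opP ε b t₁ K) s l ≤ g * cR b ε t₁ (pairFam1 hΦ hε S j) I T s l := by
  rw [opn_opP j S hK]
  unfold inner' cR
  rw [← lintegral_const_mul' _ _ hg]
  refine lintegral_mono fun p => ?_
  by_cases hc : p ∈ {p | Chain ε t₁ S (j + 1) s l p}
  swap
  · rw [indicator_of_notMem hc]; exact zero_le
  rw [indicator_of_mem hc]
  by_cases h0 : K (lastPair S j l p) = 0
  · rw [h0, mul_zero]; exact zero_le
  obtain ⟨⟨k, hk, τ, hτ, h1⟩, h2⟩ := hKc _ h0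
  have e1 : time ε S (j + 1) s l p = hitT ε (lastPair S j l p) := time_lastPair j S s l p
  rw [← e1] at hτ
  rw [mul_comm]
  refine mul_le_mul' h2 ?_
  have h3 : p ∈ ctcF ε t₁ (pairFam1 hΦ hε S j) I T s l := ⟨hc, k, hk, τ, hτ, h1⟩
  rw [indicator_of_mem h3]

theorem inner_le_cR2 (hΦ : IsPotential Φ) (hε : ε ≠ 0) {ι : Type*} {h t₁ : ℝ} {I : Finset ι}
    {T : ι → Target h} {j : ℕ} {S : ℕ → Step} {K : Ph × Ph → ℝ≥0∞} (hK : Measurable K)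
    {g : ℝ≥0∞} (hKc : ∀ q, K q ≠ 0 → PrC2 Φ ε I T q ∧ K q ≤ g) (hg : g ≠ ∞) (s : ℝ) (l : Ph) :
    opn ε b t₁ j S (opP ε b t₁ K) s l ≤ g * cR b ε t₁ (pairFam2 hΦ hε S j) I T s l := by
  rw [opn_opP j S hK]
  unfold inner' cR
  rw [← lintegral_const_mul' _ _ hg]
  refine lintegral_mono fun p => ?_
  by_cases hc : p ∈ {p | Chain ε t₁ S (j + 1) s l p}
  swap
  · rw [indicator_of_notMem hc]; exact zero_le
  rw [indicator_of_mem hc]
  by_cases h0 : K (lastPair S j l p) = 0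
  · rw [h0, mul_zero]; exact zero_le
  obtain ⟨⟨k, hk, τ, hτ, h1⟩, h2⟩ := hKc _ h0
  have e1 : time ε S (j + 1) s l p = hitT ε (lastPair S j l p) := time_lastPair j S s l p
  rw [← e1] at hτ
  rw [mul_comm]
  refine mul_le_mul' h2 ?_
  have h3 : p ∈ ctcF ε t₁ (pairFam2 hΦ hε S j) I T s l := ⟨hc, k, hk, τ, hτ, h1⟩
  rw [indicator_of_mem h3]

/-! ### Sums of constants -/

theorem sumL_mono (b t : ℝ) (K : ℝ≥0∞) (α : ℕ → ℝ≥0∞) (q : ℕ) {A A' B B' : ℕ → ℝ≥0∞}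
    (hA : ∀ i, A i ≤ A' i) (hB : ∀ i, B i ≤ B' i) :
    sumL b t K α q A B ≤ sumL b t K α q A' B' := by
  unfold sumL
  refine ENNReal.tsum_le_tsum fun i => ENNReal.tsum_le_tsum fun i' => mul_le_mul' le_rfl ?_
  exact mul_le_mul' (mul_le_mul' le_rfl (hA i)) (mul_le_mul' le_rfl (hB i'))

theorem sumL_const (b t : ℝ) (K : ℝ≥0∞) (α : ℕ → ℝ≥0∞) (q : ℕ) (A B : ℕ → ℝ≥0∞) (c : ℝ≥0∞) :
    sumL b t K α q A (fun n => c * B n) = c * sumL b t K α q A B := by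
  unfold sumL
  simp_rw [← ENNReal.tsum_mul_left]
  refine tsum_congr fun i => tsum_congr fun i' => ?_
  ring

theorem hI2_const (α h : ℕ → ℝ≥0∞) (c : ℝ≥0∞) : hI2 α (fun n => c * h n) = c * hI2 α h := by
  unfold hI2
  simp_rw [← ENNReal.tsum_mul_left]
  refine tsum_congr fun i => tsum_congr fun i' => ?_
  ring

theorem cR_mono_b {b b' : ℝ} (hb : b ≤ b') {S : ℕ → Step} {j : ℕ} {c₁ h t₁ : ℝ}
    (F : PathFam ε S j c₁) {ι : Type*} (I : Finset ι) (T : ι → Target h) (s : ℝ) (m : Ph) :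
    cR b' ε t₁ F I T s m ≤ cR b ε t₁ F I T s m := by
  unfold cR
  refine lintegral_mono fun q => ?_
  by_cases hq : q ∈ ctcF ε t₁ F I T s m
  · rw [indicator_of_mem hq, indicator_of_mem hq]
    exact wt_mono hb _ _
  · rw [indicator_of_notMem hq, indicator_of_notMem hq]

/-! ### The law of two branches: functions which are bounded by contacts -/

/-- The data of a family of targets which depends on the first exhaust. -/
structure TgC (ε t t₁ : ℝ) (L : ℕ) (g : Src → ℝ≥0∞) (w : ℝ≥0∞) {ι : Type} (H : Src → ℝ)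
    (I : Src → Finset ι) (T : ∀ e : Src, ι → Target (H e)) : Prop where
  H_mem : ∀ e, H e ∈ Icc 0 t₁
  g_ne : ∀ e, g e ≠ ∞
  w_ne : w ≠ ∞
  w_le : ∀ e ∈ srcS t L, g e ≠ 0 → ∑ k ∈ I e, (T e k).w ε ≤ w

variable {t₁ : ℝ} {K : ℝ≥0∞} {α : ℕ → ℝ≥0∞} {L q : ℕ} {g : Src → ℝ≥0∞} {w : ℝ≥0∞} {ι : Type}
  {H : Src → ℝ} {I : Src → Finset ι} {T : ∀ e : Src, ι → Target (H e)}

/-- **Functions which are bounded by the contacts of the chains of the second exhaust.** -/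
theorem lamC_cR {c₁ : ℝ} (hΦ : IsPotential Φ) (hε : 0 < ε) (hε1 : ε ≤ 1) (hb : 0 < b)
    (hδ : 0 < δ) (hc₁ : 0 ≤ c₁) (ht : 0 ≤ t) (htt : t ≤ t₁) (hT : TgC ε t t₁ L g w H I T)
    {j : ℕ} {S : ℕ → Step} (F : PathFam ε S j c₁) {h : ℕ → ℝ≥0∞} (hh : ∀ n, h n ≠ ∞)
    {κ : ℝ≥0∞} (hκ : κ ≠ ∞) {W : Src → ℝ → Ph → ℝ≥0∞}
    (hW : Measurable fun q : Src × ℝ × Ph => W q.1 q.2.1 q.2.2)
    (hWc : ∀ e ∈ srcS t L, ∀ s l, W e s l ≤ κ * (g e * cR (b / 2) ε t₁ F (I e) (T e) s l)) :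
    ∫⁻ z, h z.2.2.2 * W z.1 z.2.1 z.2.2.1 ∂(lamC hΦ hε.ne' b t K α L q) ≤
      dF ε δ (2 * w) * (κ * jF (b / 2) c₁ t₁ (t₁ + 1) j) *
        (cBr b t t₁ K α q * (hI2 α h * gI1 (b / 4) t t₁ L α g)) := by
  have hGm : Measurable fun z : Src × Src => h z.2.2.2 * W z.1 z.2.1 z.2.2.1 := by
    refine Measurable.mul ?_ ?_
    · exact (measurable_from_top (f := h)).comp measurable_snd.snd.snd
    · exact hW.comp (measurable_fst.prodMk (measurable_snd.fst.prodMk measurable_snd.snd.fst))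
  refine (lamC_fam (δ := δ) hΦ hε hε1 hb hδ hc₁ ht htt hT.H_mem F I T hT.g_ne
    (h := fun n => κ * h n) (fun n => ENNReal.mul_ne_top hκ (hh n)) hT.w_ne hT.w_le hGm
    (fun e he m _ => ?_)).trans ?_
  · refine (mul_le_mul' le_rfl (hWc e he _ _)).trans (le_of_eq ?_)
    ring
  · have h1 : ∀ n, cC ε (b / 2) c₁ δ t₁ (t₁ + 1) n j (2 * w) ≤
        (dF ε δ (2 * w) * jF (b / 2) c₁ t₁ (t₁ + 1) j) * nF (b / 2) t₁ n := fun n =>
      (cC_le hδ (b / 2) t₁ n j (2 * w)).trans (le_of_eq (by ring))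
    refine (mul_le_mul' (sumL_mono b t K α q (fun i => le_refl (cO (b / 2) t₁ i)) h1)
      le_rfl).trans (le_of_eq ?_)
    rw [sumL_const, hI2_const]
    unfold cBr
    ring

/-- Lines. -/
theorem lamC_opn {b' : ℝ} (hbb : b / 2 ≤ b') (hΦ : IsPotential Φ) (hε : 0 < ε) (hε1 : ε ≤ 1)
    (hb : 0 < b) (hδ : 0 < δ) (ht : 0 ≤ t) (htt : t ≤ t₁) (hT : TgC ε t t₁ L g w H I T)
    {j : ℕ} {S : ℕ → Step} {h : ℕ → ℝ≥0∞} (hh : ∀ n, h n ≠ ∞) {κ : ℝ≥0∞} (hκ : κ ≠ ∞)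
    {F : Src → ℝ → Ph → ℝ≥0∞} (hF : Measurable fun q : Src × ℝ × Ph => F q.1 q.2.1 q.2.2)
    (hFc : ∀ e ∈ srcS t L, ∀ s z, F e s z ≠ 0 → LnC ε (I e) (T e) s z ∧ F e s z ≤ κ * g e) :
    ∫⁻ z, h z.2.2.2 * opn ε b' t₁ j S (F z.1) z.2.1 z.2.2.1 ∂(lamC hΦ hε.ne' b t K α L q) ≤
      dF ε δ (2 * w) * (κ * jF (b / 2) 1 t₁ (t₁ + 1) j) *
        (cBr b t t₁ K α q * (hI2 α h * gI1 (b / 4) t t₁ L α g)) := by
  refine lamC_cR (F := lineFam ε S j) hΦ hε hε1 hb hδ zero_le_one ht htt hT hh hκ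
    (W := fun e s l => opn ε b' t₁ j S (F e) s l) (measurable_opn_param j S hF) ?_
  intro e he s l
  have hFe : Measurable fun q : ℝ × Ph => F e q.1 q.2 := hF.comp measurable_prodMk_left
  refine (opn_le_cR hFe (hFc e he) (ENNReal.mul_ne_top hκ (hT.g_ne e)) s l).trans ?_
  rw [mul_assoc]
  exact mul_le_mul' le_rfl (mul_le_mul' le_rfl (cR_mono_b hbb _ _ _ _ _))

/-- Pairs, first particle. -/
theorem lamC_opP1 {b' : ℝ} (hbb : b / 2 ≤ b') (hΦ : IsPotential Φ) (hε : 0 < ε) (hε1 : ε ≤ 1)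
    (hb : 0 < b) (hδ : 0 < δ) (ht : 0 ≤ t) (htt : t ≤ t₁) (hT : TgC ε t t₁ L g w H I T)
    {j : ℕ} {S : ℕ → Step} {h : ℕ → ℝ≥0∞} (hh : ∀ n, h n ≠ ∞) {κ : ℝ≥0∞} (hκ : κ ≠ ∞)
    {F : Src → Ph × Ph → ℝ≥0∞} (hF : Measurable fun q : Src × (Ph × Ph) => F q.1 q.2)
    (hFc : ∀ e ∈ srcS t L, ∀ q, F e q ≠ 0 → PrC1 Φ ε (I e) (T e) q ∧ F e q ≤ κ * g e) :
    ∫⁻ z, h z.2.2.2 * opn ε b' t₁ j S (opP ε b' t₁ (F z.1)) z.2.1 z.2.2.1
      ∂(lamC hΦ hε.ne' b t K α L q) ≤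
      dF ε δ (2 * w) * (κ * jF (b / 2) (cS hΦ) t₁ (t₁ + 1) (j + 1)) *
        (cBr b t t₁ K α q * (hI2 α h * gI1 (b / 4) t t₁ L α g)) := by
  refine lamC_cR (F := pairFam1 hΦ hε.ne' S j) hΦ hε hε1 hb hδ (cS_nonneg hΦ) ht htt hT hh hκ
    (W := fun e s l => opn ε b' t₁ j S (opP ε b' t₁ (F e)) s l)
    (measurable_opn_param j S (F := fun e => opP ε b' t₁ (F e)) (measurable_opP_param hF)) ?_
  intro e he s l
  have hFe : Measurable (F e) := hF.comp measurable_prodMk_left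
  refine (inner_le_cR1 hΦ hε.ne' hFe (hFc e he) (ENNReal.mul_ne_top hκ (hT.g_ne e)) s l).trans ?_
  rw [mul_assoc]
  exact mul_le_mul' le_rfl (mul_le_mul' le_rfl (cR_mono_b hbb _ _ _ _ _))

/-- Pairs, second particle. -/
theorem lamC_opP2 {b' : ℝ} (hbb : b / 2 ≤ b') (hΦ : IsPotential Φ) (hε : 0 < ε) (hε1 : ε ≤ 1)
    (hb : 0 < b) (hδ : 0 < δ) (ht : 0 ≤ t) (htt : t ≤ t₁) (hT : TgC ε t t₁ L g w H I T)
    {j : ℕ} {S : ℕ → Step} {h : ℕ → ℝ≥0∞} (hh : ∀ n, h n ≠ ∞) {κ : ℝ≥0∞} (hκ : κ ≠ ∞)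
    {F : Src → Ph × Ph → ℝ≥0∞} (hF : Measurable fun q : Src × (Ph × Ph) => F q.1 q.2)
    (hFc : ∀ e ∈ srcS t L, ∀ q, F e q ≠ 0 → PrC2 Φ ε (I e) (T e) q ∧ F e q ≤ κ * g e) :
    ∫⁻ z, h z.2.2.2 * opn ε b' t₁ j S (opP ε b' t₁ (F z.1)) z.2.1 z.2.2.1
      ∂(lamC hΦ hε.ne' b t K α L q) ≤
      dF ε δ (2 * w) * (κ * jF (b / 2) (cS hΦ) t₁ (t₁ + 1) (j + 1)) *
        (cBr b t t₁ K α q * (hI2 α h * gI1 (b / 4) t t₁ L α g)) := by
  refine lamC_cR (F := pairFam2 hΦ hε.ne' S j) hΦ hε hε1 hb hδ (cS_nonneg hΦ) ht htt hT hh hκ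
    (W := fun e s l => opn ε b' t₁ j S (opP ε b' t₁ (F e)) s l)
    (measurable_opn_param j S (F := fun e => opP ε b' t₁ (F e)) (measurable_opP_param hF)) ?_
  intro e he s l
  have hFe : Measurable (F e) := hF.comp measurable_prodMk_left
  refine (inner_le_cR2 hΦ hε.ne' hFe (hFc e he) (ENNReal.mul_ne_top hκ (hT.g_ne e)) s l).trans ?_
  rw [mul_assoc]
  exact mul_le_mul' le_rfl (mul_le_mul' le_rfl (cR_mono_b hbb _ _ _ _ _))

/-- **The iterates.** -/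
theorem lamC_Gc {b' : ℝ} (hbb : b / 2 ≤ b') (hΦ : IsPotential Φ) (hε : 0 < ε) (hε1 : ε ≤ 1)
    (hb : 0 < b) (hδ : 0 < δ) (ht : 0 ≤ t) (htt : t ≤ t₁) (hT : TgC ε t t₁ L g w H I T)
    (j : ℕ) {h : ℕ → ℝ≥0∞} (hh : ∀ n, h n ≠ ∞) {κ M : ℝ≥0∞} (hκ : κ ≠ ∞)
    {F : Src → ℝ → Ph → ℝ≥0∞} (hF : Measurable fun q : Src × ℝ × Ph => F q.1 q.2.1 q.2.2)
    (hFc : ∀ e ∈ srcS t L, ∀ s z, F e s z ≠ 0 → LnC ε (I e) (T e) s z ∧ F e s z ≤ κ * g e)
    {K₁ K₂ : Src → Ph × Ph → ℝ≥0∞} (hK₁ : Measurable fun q : Src × (Ph × Ph) => K₁ q.1 q.2)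
    (hK₂ : Measurable fun q : Src × (Ph × Ph) => K₂ q.1 q.2)
    (hK₁c : ∀ e ∈ srcS t L, ∀ q, K₁ e q ≠ 0 → PrC1 Φ ε (I e) (T e) q ∧ K₁ e q ≤ g e)
    (hK₂c : ∀ e ∈ srcS t L, ∀ q, K₂ e q ≠ 0 → PrC2 Φ ε (I e) (T e) q ∧ K₂ e q ≤ g e) :
    ∫⁻ z, h z.2.2.2 * Gc hΦ hε.ne' b' t₁ j (fun s l => F z.1 s l +
      M * (opP ε b' t₁ (K₁ z.1) s l + opP ε b' t₁ (K₂ z.1) s l)) z.2.1 z.2.2.1
      ∂(lamC hΦ hε.ne' b t K α L q) ≤
      dF ε δ (2 * w) * (3 ^ j * (κ * jF (b / 2) 1 t₁ (t₁ + 1) j +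
        2 * M * jF (b / 2) (cS hΦ) t₁ (t₁ + 1) (j + 1))) *
        (cBr b t t₁ K α q * (hI2 α h * gI1 (b / 4) t t₁ L α g)) := by
  set X : ℝ≥0∞ := cBr b t t₁ K α q * (hI2 α h * gI1 (b / 4) t t₁ L α g) with hX
  have e1 : ∀ e, Measurable fun q : ℝ × Ph => F e q.1 q.2 := fun e =>
    hF.comp measurable_prodMk_left
  have p1 : Measurable fun q : Src × ℝ × Ph => opP ε b' t₁ (K₁ q.1) q.2.1 q.2.2 :=
    measurable_opP_param hK₁
  have p2 : Measurable fun q : Src × ℝ × Ph => opP ε b' t₁ (K₂ q.1) q.2.1 q.2.2 :=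
    measurable_opP_param hK₂
  have e2 : ∀ e, Measurable fun q : ℝ × Ph => opP ε b' t₁ (K₁ e) q.1 q.2 := fun e =>
    p1.comp measurable_prodMk_left
  have e3 : ∀ e, Measurable fun q : ℝ × Ph => opP ε b' t₁ (K₂ e) q.1 q.2 := fun e =>
    p2.comp measurable_prodMk_left
  -- the three parts, for a given pattern
  have hpt : ∀ z : Src × Src, h z.2.2.2 * Gc hΦ hε.ne' b' t₁ j (fun s l => F z.1 s l +
      M * (opP ε b' t₁ (K₁ z.1) s l + opP ε b' t₁ (K₂ z.1) s l)) z.2.1 z.2.2.1 =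
      ∑ o : Fin j → Fin 3, (h z.2.2.2 * opn ε b' t₁ j (stps hΦ hε.ne' o) (F z.1) z.2.1 z.2.2.1 +
        M * (h z.2.2.2 * opn ε b' t₁ j (stps hΦ hε.ne' o) (opP ε b' t₁ (K₁ z.1)) z.2.1 z.2.2.1 +
        h z.2.2.2 * opn ε b' t₁ j (stps hΦ hε.ne' o) (opP ε b' t₁ (K₂ z.1)) z.2.1
          z.2.2.1)) := by
    intro z
    have a1 : Measurable fun q : ℝ × Ph => opP ε b' t₁ (K₁ z.1) q.1 q.2 +
        opP ε b' t₁ (K₂ z.1) q.1 q.2 := (e2 z.1).add (e3 z.1)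
    rw [Gc_add hΦ hε.ne' b' t₁ j (e1 z.1) , Gc_const_mul hΦ hε.ne' b' t₁ j M a1,
      Gc_add hΦ hε.ne' b' t₁ j (e2 z.1), Gc_eq_opn hΦ hε.ne' b' t₁ j (e1 z.1),
      Gc_eq_opn hΦ hε.ne' b' t₁ j (e2 z.1), Gc_eq_opn hΦ hε.ne' b' t₁ j (e3 z.1)]
    simp only [Finset.sum_add_distrib, ← Finset.mul_sum]
    ring
  simp_rw [hpt]
  have hd : Measurable fun z : Src × Src => h z.2.2.2 :=
    (measurable_from_top (f := h)).comp measurable_snd.snd.snd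
  have hz : Measurable fun z : Src × Src => ((z.1, z.2.1, z.2.2.1) : Src × ℝ × Ph) :=
    measurable_fst.prodMk (measurable_snd.fst.prodMk measurable_snd.snd.fst)
  have m1 : ∀ o : Fin j → Fin 3, Measurable fun z : Src × Src => h z.2.2.2 *
      opn ε b' t₁ j (stps hΦ hε.ne' o) (F z.1) z.2.1 z.2.2.1 := fun o =>
    hd.mul ((measurable_opn_param j _ hF).comp hz)
  have m2 : ∀ o : Fin j → Fin 3, Measurable fun z : Src × Src => h z.2.2.2 *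
      opn ε b' t₁ j (stps hΦ hε.ne' o) (opP ε b' t₁ (K₁ z.1)) z.2.1 z.2.2.1 := fun o =>
    hd.mul ((measurable_opn_param j _ (F := fun e => opP ε b' t₁ (K₁ e)) p1).comp hz)
  have m3 : ∀ o : Fin j → Fin 3, Measurable fun z : Src × Src => h z.2.2.2 *
      opn ε b' t₁ j (stps hΦ hε.ne' o) (opP ε b' t₁ (K₂ z.1)) z.2.1 z.2.2.1 := fun o =>
    hd.mul ((measurable_opn_param j _ (F := fun e => opP ε b' t₁ (K₂ e)) p2).comp hz)
  have m4 : ∀ o : Fin j → Fin 3, Measurable fun z : Src × Src => h z.2.2.2 *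
      opn ε b' t₁ j (stps hΦ hε.ne' o) (F z.1) z.2.1 z.2.2.1 +
        M * (h z.2.2.2 * opn ε b' t₁ j (stps hΦ hε.ne' o) (opP ε b' t₁ (K₁ z.1)) z.2.1 z.2.2.1 +
        h z.2.2.2 * opn ε b' t₁ j (stps hΦ hε.ne' o) (opP ε b' t₁ (K₂ z.1)) z.2.1
          z.2.2.1) := fun o => (m1 o).add (((m2 o).add (m3 o)).const_mul M)
  rw [lintegral_finsetSum _ fun o _ => m4 o]
  have hK₁c' : ∀ e ∈ srcS t L, ∀ q, K₁ e q ≠ 0 → PrC1 Φ ε (I e) (T e) q ∧ K₁ e q ≤ 1 * g e :=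
    fun e he q hq => ⟨(hK₁c e he q hq).1, by rw [one_mul]; exact (hK₁c e he q hq).2⟩
  have hK₂c' : ∀ e ∈ srcS t L, ∀ q, K₂ e q ≠ 0 → PrC2 Φ ε (I e) (T e) q ∧ K₂ e q ≤ 1 * g e :=
    fun e he q hq => ⟨(hK₂c e he q hq).1, by rw [one_mul]; exact (hK₂c e he q hq).2⟩
  have hterm : ∀ o : Fin j → Fin 3, ∫⁻ z : Src × Src, (h z.2.2.2 *
      opn ε b' t₁ j (stps hΦ hε.ne' o) (F z.1) z.2.1 z.2.2.1 +
        M * (h z.2.2.2 * opn ε b' t₁ j (stps hΦ hε.ne' o) (opP ε b' t₁ (K₁ z.1)) z.2.1 z.2.2.1 +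
        h z.2.2.2 * opn ε b' t₁ j (stps hΦ hε.ne' o) (opP ε b' t₁ (K₂ z.1)) z.2.1
          z.2.2.1)) ∂(lamC hΦ hε.ne' b t K α L q) ≤
      dF ε δ (2 * w) * (κ * jF (b / 2) 1 t₁ (t₁ + 1) j +
        2 * M * jF (b / 2) (cS hΦ) t₁ (t₁ + 1) (j + 1)) * X := by
    intro o
    have m5 : Measurable fun z : Src × Src =>
        h z.2.2.2 * opn ε b' t₁ j (stps hΦ hε.ne' o) (opP ε b' t₁ (K₁ z.1)) z.2.1 z.2.2.1 +
        h z.2.2.2 * opn ε b' t₁ j (stps hΦ hε.ne' o) (opP ε b' t₁ (K₂ z.1)) z.2.1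
          z.2.2.1 := (m2 o).add (m3 o)
    rw [lintegral_add_left (m1 o), lintegral_const_mul _ m5, lintegral_add_left (m2 o)]
    have c1 := lamC_opn (δ := δ) (K := K) (α := α) (q := q) (S := stps hΦ hε.ne' o) (j := j) hbb
      hΦ hε hε1 hb hδ ht htt hT hh hκ hF hFc
    have c2 := lamC_opP1 (δ := δ) (K := K) (α := α) (q := q) (S := stps hΦ hε.ne' o) (j := j) hbb
      hΦ hε hε1 hb hδ ht htt hT hh ENNReal.one_ne_top hK₁ hK₁c'
    have c3 := lamC_opP2 (δ := δ) (K := K) (α := α) (q := q) (S := stps hΦ hε.ne' o) (j := j) hbb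
      hΦ hε hε1 hb hδ ht htt hT hh ENNReal.one_ne_top hK₂ hK₂c'
    rw [← hX] at c1 c2 c3
    refine (add_le_add c1 (mul_le_mul' le_rfl (add_le_add c2 c3))).trans (le_of_eq ?_)
    ring
  refine (Finset.sum_le_sum fun o _ => hterm o).trans (le_of_eq ?_)
  rw [Finset.sum_const, Finset.card_univ, Fintype.card_fun, Fintype.card_fin, Fintype.card_fin,
    nsmul_eq_mul]
  push_cast
  ring

end Vale.Agent.P119.FL
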