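import Vale.Agent.P119.FL.World

/-!
# P119: law C, the fixed world and the mass (`helper690`)

* `ae_lamC`: the sources have births in `(0, t]` and depths at most `L`;
* `lamC_main`: the main terms of the second events over a fixed world;
* `caseC_mass`, `lamC_mass`: the mass of the second branch;
* `lamC_rem`: the remainder of the iteration.
-/

open MeasureTheory Set Filter Topology Metric ProbabilityTheory
open scoped ENNReal

noncomputable section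

namespace Vale.Agent.P119.FL

open KU M M.CTree RB EN PB AU Cap

variable {Φ : E3 → ℝ} {ε b b' t t₁ δ : ℝ} {K : ℝ≥0∞} {α : ℕ → ℝ≥0∞} {L q : ℕ}

/-! ### The support of `lamC` -/

theorem ae_lamC (hΦ : IsPotential Φ) (hε : ε ≠ 0) (b t : ℝ) (K : ℝ≥0∞) (α : ℕ → ℝ≥0∞)
    (L q : ℕ) : ∀ᵐ p ∂(lamC hΦ hε b t K α L q), p.1 ∈ srcS t L ∧ p.2 ∈ srcS t L := by
  have hS : MeasurableSet {p : Src × Src | p.1 ∈ srcS t L ∧ p.2 ∈ srcS t L} :=
    (measurable_fst (measurableSet_srcS t L)).inter (measurable_snd (measurableSet_srcS t L))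
  rw [ae_iff]
  have h1 : ∫⁻ z, {p : Src × Src | p.1 ∈ srcS t L ∧ p.2 ∈ srcS t L}ᶜ.indicator
      (fun _ => (1 : ℝ≥0∞)) z ∂(lamC hΦ hε b t K α L q) = 0 := by
    rw [lintegral_lamC hΦ hε b t K α L q (measurable_const.indicator hS.compl)]
    have h2 : ∀ x y : Src × ℝ × Ph, (joinS ε t L).indicator (fun z =>
        {p : Src × Src | p.1 ∈ srcS t L ∧ p.2 ∈ srcS t L}ᶜ.indicator
          (fun _ => (1 : ℝ≥0∞)) (z.1.1, z.2.1)) (x, y) = 0 := by
      intro x y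
      by_cases hz : (x, y) ∈ joinS ε t L
      · rw [indicator_of_mem hz]
        have h5 : (x.1, y.1) ∈ {p : Src × Src | p.1 ∈ srcS t L ∧ p.2 ∈ srcS t L} :=
          ⟨hz.2.1, hz.2.2⟩
        exact indicator_of_notMem (s := {p : Src × Src | p.1 ∈ srcS t L ∧ p.2 ∈ srcS t L}ᶜ)
          (Set.notMem_compl_iff.2 h5) _
      · exact indicator_of_notMem hz _
    simp only [h2]
    have h3 : ∀ i, Br (b / 2) ε t α (outS hΦ hε) i (fun _ => (0 : ℝ≥0∞)) = 0 := by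
      intro i
      rw [← lintegral_brM _ _ _ _ _ _ measurable_const, lintegral_zero]
    simp only [h3, mul_zero, tsum_zero]
  rw [lintegral_indicator hS.compl, lintegral_const, one_mul, Measure.restrict_apply_univ] at h1
  exact h1

/-! ### The main terms over a fixed world -/

/-- The constant of the main terms. -/
def cG (hΦ : IsPotential Φ) (b t₁ : ℝ) (M : ℝ≥0∞) (j : ℕ) : ℝ≥0∞ :=
  3 ^ j * (2 * jF (b / 2) 1 t₁ (t₁ + 1) j + 2 * M * jF (b / 2) (cS hΦ) t₁ (t₁ + 1) (j + 1))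

/-- **The main terms of the second events over a fixed world**, for the law of two branches. -/
theorem lamC_main (hbb : b / 2 ≤ b') (hΦ : IsPotential Φ) (hε : 0 < ε) (hε1 : ε ≤ 1) (hb : 0 < b)
    (hδ : 0 < δ) (ht : 0 ≤ t) (htt : t < t₁) {B : ℝ} (hB : RW.StableWith Φ B) {V : Finset Src}
    (hV : GV ε V) {η : ℝ} (hη : 0 < η) (w : ℝ) (j : ℕ) {h : ℕ → ℝ≥0∞} (hh : ∀ n, h n ≠ ∞)
    (a : ℕ → ℝ≥0∞) :
    ∫⁻ p, h p.2.2.2 * Gc hΦ hε.ne' b' t₁ j (F6w L hΦ hε b' a η t w 0 V p.1) p.2.1 p.2.2.1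
      ∂(lamC hΦ hε.ne' b t K α L q) ≤
      dF ε δ (2 * wV B ε η t V) * cG hΦ b t₁ (∑' n, a n) j *
        (cBr b t t₁ K α q * (hI2 α h * gI1 (b / 4) t t₁ L α (gTE L hΦ hε η t V))) := by
  have hT : TgC ε t t₁ L (gTE L hΦ hε η t V) (wV B ε η t V) (hzI L hΦ hε η t V)
      (wI L hΦ hε η t V) (wT L hΦ hε η t V) := TgC.world hB hV hη ht htt.le
  have h1 := lamC_Gc (δ := δ) (K := K) (α := α) (q := q) (M := ∑' n, a n) (b' := b') hbb hΦ hε hε1
    hb hδ ht htt.le hT j hh (κ := 2) (by norm_num) (F := FwC L hΦ hε η t w V)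
    (measurable_FwC V w) (fun e he s z hne => FwC_ne hV he.1.le hne)
    (K₁ := fun e q => ind (PG1 L hΦ hε η t V e q)) (K₂ := fun e q => ind (PG2 L hΦ hε η t V e q))
    (measurable_ind (measurableSet_PG1 V)) (measurable_ind (measurableSet_PG2 V))
    (fun e he q hne => PG1_ne hV he.1.le hne) (fun e he q hne => PG2_ne hV he.1.le hne)
  refine le_trans (lintegral_mono_ae ?_) h1
  filter_upwards [ae_lamC hΦ hε.ne' b t K α L q] with p hp
  refine mul_le_mul' le_rfl ?_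
  set F' : ℝ → Ph → ℝ≥0∞ := fun s l => if 0 ≤ s then F6w L hΦ hε b' a η t w 0 V p.1 s l else 0
    with hF'
  rw [Gc_congr_nonneg hΦ hε.ne' b' t₁ j (F' := F') (fun s hs l => by
    rw [hF']; simp only; rw [if_pos hs]) hp.2.1.le]
  refine Gc_mono hΦ hε.ne' b' t₁ j (fun s l => ?_) _ _
  rw [hF']
  simp only
  by_cases hs : 0 ≤ s
  · rw [if_pos hs]
    exact F6w_le hη ht htt hs l
  · rw [if_neg hs]
    exact zero_le

/-! ### The mass of the second branch -/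

/-- The constant of the mass of the second branch. -/
def cMs (b t : ℝ) (n : ℕ) : ℝ≥0∞ :=
  ENNReal.ofReal t * ((ENNReal.ofReal Real.pi * I0 (b / 2)) *
    (ENNReal.ofReal (1 + 1 / √b) * cF1 (b / 2) 1 t n))

theorem cMs_ne_top (hb : 0 < b) (t : ℝ) (n : ℕ) : cMs b t n ≠ ∞ :=
  ENNReal.mul_ne_top ENNReal.ofReal_ne_top (ENNReal.mul_ne_top
    (ENNReal.mul_ne_top ENNReal.ofReal_ne_top (I0_ne_top (by positivity)))
      (ENNReal.mul_ne_top ENNReal.ofReal_ne_top (cF1_ne_top _ _ _ _)))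

/-- **The mass of the branch of `m`**, with a Gaussian weight of `m`. -/
theorem caseC_massI (hε : 0 < ε) (hb : 0 < b) (ht : 0 ≤ t) {n : ℕ} {S : ℕ → Step} (x : Ph)
    {C : ℝ≥0∞} (hC : C ≠ ∞) {G : Ph → Ph → (Fin n → Ph) → ℝ≥0∞}
    (hG : ∀ m β p, G m β p ≠ 0 → Meets ε (m, β) ∧ exT ε (m, β) ∈ Icc 0 t ∧
      Chain ε t S n (exT ε (m, β)) β p ∧ Meets ε (x, line S n β p) ∧
      time ε S n (exT ε (m, β)) β p ≤ hitT ε (x, line S n β p) ∧ hitT ε (x, line S n β p) ≤ t ∧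
      G m β p ≤ (muE ε * ENNReal.ofReal (Real.exp (-b * ‖m.2‖ ^ 2)) *
          (C * ENNReal.ofReal (Real.exp (b / 2 * ‖m.2‖ ^ 2)))) *
        (muE ε * ENNReal.ofReal (Real.exp (-b * ‖β.2‖ ^ 2)) * wt b ε n p)) :
    ∫⁻ m, ∫⁻ β, ∫⁻ p, G m β p ≤ C * cMs b t n * (lineTarget t 0 x).w ε := by
  have h1 : ∀ m β p, G m β p ≤ (C * muE ε) * hC1 ε b t t S n x m (β, p) := by
    intro m β p
    by_cases h0 : G m β p = 0
    · rw [h0]; exact zero_le
    obtain ⟨a1, a2, a3, a4, a5, a6, a8⟩ := hG m β p h0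
    have h3 : (β, p) ∈ aC1 ε t S n x := by
      refine ⟨chain_start a2.1 a3, hitT ε (x, line S n β p),
        ⟨max_le (a2.1.trans ((le_time n S _ β p a3).trans a5)) ((time_start a2.1).trans a5),
          a6⟩, ?_⟩
      have h4 := M.dist_hitT hε a4
      rw [norm_sub_rev] at h4
      exact h4.le
    have h4 : exT ε (m, β) ∈ Icc (hitT ε (x, line S n β p) - t) (hitT ε (x, line S n β p)) :=
      ⟨by linarith [a2.1], (le_time n S _ β p a3).trans a5⟩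
    have h5 : hC1 ε b t t S n x m (β, p) = gw (b / 2) m.2 *
        (muE ε * ENNReal.ofReal (Real.exp (-b * ‖β.2‖ ^ 2)) * wt b ε n p) := by
      unfold hC1 uC1
      rw [indicator_of_mem (show m ∈ {m : Ph | Meets ε (m, β)} from a1), indicator_of_mem h4,
        indicator_of_mem h3, mul_one]
    rw [h5]
    refine a8.trans (le_of_eq ?_)
    have h7 : ENNReal.ofReal (Real.exp (-b * ‖m.2‖ ^ 2)) *
        ENNReal.ofReal (Real.exp (b / 2 * ‖m.2‖ ^ 2)) = gw (b / 2) m.2 := by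
      unfold gw
      rw [← ENNReal.ofReal_mul (Real.exp_nonneg _), ← Real.exp_add]
      congr 2; ring
    calc _ = (C * muE ε) * ((ENNReal.ofReal (Real.exp (-b * ‖m.2‖ ^ 2)) *
          ENNReal.ofReal (Real.exp (b / 2 * ‖m.2‖ ^ 2))) *
          (muE ε * ENNReal.ofReal (Real.exp (-b * ‖β.2‖ ^ 2)) * wt b ε n p)) := by ring
      _ = _ := by rw [h7]
  have hCm : C * muE ε ≠ ∞ := ENNReal.mul_ne_top hC muE_ne_top
  calc ∫⁻ m, ∫⁻ β, ∫⁻ p, G m β p
      ≤ ∫⁻ m, ∫⁻ β, ∫⁻ p, (C * muE ε) * hC1 ε b t t S n x m (β, p) :=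
        lintegral_mono fun m => lintegral_mono fun β => lintegral_mono fun p => h1 m β p
    _ = C * (muE ε * ∫⁻ m, ∫⁻ q : Ph × (Fin n → Ph), hC1 ε b t t S n x m q) := by
        simp_rw [lintegral_const_mul' _ _ hCm, lintegral_hC1_pair]
        rw [mul_assoc]
    _ ≤ C * (ENNReal.ofReal t * ((ENNReal.ofReal Real.pi * I0 (b / 2)) *
        (ENNReal.ofReal (1 + 1 / √b) * cF1 (b / 2) 1 t n)) * (lineTarget t 0 x).w ε) :=
        mul_le_mul' le_rfl (lintegral_hC1 hε hb ht S n x)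
    _ = _ := by unfold cMs; ring

/-- **The mass of the two branches.** -/
theorem caseC_mass (hε : 0 < ε) (hε1 : ε ≤ 1) (hb : 0 < b) (ht : 0 ≤ t) {i n : ℕ}
    {S₁ S₂ : ℕ → Step} {C : ℝ≥0∞} (hC : C ≠ ∞) {g : ℝ → Ph → ℝ≥0∞} (hg : ∀ σ e, g σ e ≠ ∞)
    {G : Ph → Ph → (Fin i → Ph) → Ph → Ph → (Fin n → Ph) → ℝ≥0∞}
    (hG : ∀ e β p m β' p', G e β p m β' p' ≠ 0 →
      (Meets ε (e, β) ∧ exT ε (e, β) ∈ Icc 0 t ∧ Chain ε t S₁ i (exT ε (e, β)) β p) ∧
      (Meets ε (m, β') ∧ exT ε (m, β') ∈ Icc 0 t ∧ Chain ε t S₂ n (exT ε (m, β')) β' p') ∧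
      (Meets ε (line S₁ i β p, line S₂ n β' p') ∧
        time ε S₂ n (exT ε (m, β')) β' p' ≤ hitT ε (line S₁ i β p, line S₂ n β' p') ∧
        hitT ε (line S₁ i β p, line S₂ n β' p') ≤ t) ∧
      G e β p m β' p' ≤ g (exT ε (e, β)) e * (gw b e.2 *
        (muE ε * ENNReal.ofReal (Real.exp (-b * ‖β.2‖ ^ 2)) * wt b ε i p)) *
        ((muE ε * ENNReal.ofReal (Real.exp (-b * ‖m.2‖ ^ 2)) *
          (C * ENNReal.ofReal (Real.exp (b / 2 * ‖m.2‖ ^ 2)))) *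
        (muE ε * ENNReal.ofReal (Real.exp (-b * ‖β'.2‖ ^ 2)) * wt b ε n p'))) :
    ∫⁻ e, ∫⁻ β, ∫⁻ p, ∫⁻ m, ∫⁻ β', ∫⁻ p', G e β p m β' p' ≤
      cO b t i * (C * cMs b t n) * ∫⁻ e : Ph, ∫⁻ σ in Icc (0 : ℝ) t, gw (b / 2) e.2 * g σ e := by
  have hD : C * cMs b t n ≠ ∞ := ENNReal.mul_ne_top hC (cMs_ne_top hb t n)
  have hmain : ∫⁻ e, ∫⁻ β, ∫⁻ p, ∫⁻ m, ∫⁻ β', ∫⁻ p', G e β p m β' p' ≤
      cO b t i * ∫⁻ e : Ph, ∫⁻ σ in Icc (0 : ℝ) t, gw (b / 2) e.2 *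
        (g σ e * (C * cMs b t n)) := by
    refine caseC_outer hε hε1 hb ht (S := S₁) (g := fun σ e => g σ e * (C * cMs b t n))
      fun e β p hne => ?_
    obtain ⟨m, β', p', h0⟩ : ∃ m β' p', G e β p m β' p' ≠ 0 := by
      by_contra hcon
      push Not at hcon
      exact hne (by simp [hcon])
    obtain ⟨⟨a1, a2, a3⟩, -⟩ := hG e β p m β' p' h0
    refine ⟨a1, a2, a3, ?_⟩
    set σ := exT ε (e, β) with hσ
    set A : ℝ≥0∞ := g σ e * (gw b e.2 *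
      (muE ε * ENNReal.ofReal (Real.exp (-b * ‖β.2‖ ^ 2)) * wt b ε i p)) with hA
    have hA0 : A ≠ ∞ := ENNReal.mul_ne_top (hg σ e) (ENNReal.mul_ne_top ENNReal.ofReal_ne_top
      (ENNReal.mul_ne_top (ENNReal.mul_ne_top muE_ne_top ENNReal.ofReal_ne_top)
        (wt_ne_top _ _ _ _)))
    classical
    set x := line S₁ i β p with hx
    set cond : Ph → Ph → (Fin n → Ph) → Prop := fun m β' p' =>
      (Meets ε (m, β') ∧ exT ε (m, β') ∈ Icc 0 t ∧ Chain ε t S₂ n (exT ε (m, β')) β' p') ∧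
        (Meets ε (x, line S₂ n β' p') ∧
          time ε S₂ n (exT ε (m, β')) β' p' ≤ hitT ε (x, line S₂ n β' p') ∧
          hitT ε (x, line S₂ n β' p') ≤ t) with hcond
    set G' : Ph → Ph → (Fin n → Ph) → ℝ≥0∞ := fun m β' p' => if cond m β' p' then
      (muE ε * ENNReal.ofReal (Real.exp (-b * ‖m.2‖ ^ 2)) *
        (C * ENNReal.ofReal (Real.exp (b / 2 * ‖m.2‖ ^ 2)))) *
        (muE ε * ENNReal.ofReal (Real.exp (-b * ‖β'.2‖ ^ 2)) * wt b ε n p') else 0 with hG'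
    have h1 : ∀ m β' p', G e β p m β' p' ≤ A * G' m β' p' := by
      intro m β' p'
      by_cases h2 : G e β p m β' p' = 0
      · rw [h2]; exact zero_le
      obtain ⟨-, b1, b2, b3⟩ := hG e β p m β' p' h2
      have h3 : cond m β' p' := ⟨b1, b2⟩
      rw [hG']
      simp only
      rw [if_pos h3]
      exact b3
    have h2 := caseC_massI hε hb ht (S := S₂) x hC (G := G') (by
      intro m β' p' hne
      have h3 : cond m β' p' := by
        by_contra hcon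
        exact hne (if_neg hcon)
      obtain ⟨⟨b1, b2, b3⟩, b4, b5, b6⟩ := h3
      refine ⟨b1, b2, b3, b4, b5, b6, ?_⟩
      have h4 : G' m β' p' = _ := if_pos ⟨⟨b1, b2, b3⟩, b4, b5, b6⟩
      exact h4.le)
    calc ∫⁻ m, ∫⁻ β', ∫⁻ p', G e β p m β' p' ≤ ∫⁻ m, ∫⁻ β', ∫⁻ p', A * G' m β' p' :=
          lintegral_mono fun m => lintegral_mono fun β' => lintegral_mono fun p' => h1 m β' p'
      _ = A * ∫⁻ m, ∫⁻ β', ∫⁻ p', G' m β' p' := by
          simp_rw [lintegral_const_mul' _ _ hA0]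
      _ ≤ A * (C * cMs b t n * (lineTarget t 0 x).w ε) := mul_le_mul' le_rfl h2
      _ = _ := by rw [hA]; ring
  refine hmain.trans (le_of_eq ?_)
  have h2 : ∀ e : Ph, ∫⁻ σ in Icc (0 : ℝ) t, gw (b / 2) e.2 * (g σ e * (C * cMs b t n)) =
      (C * cMs b t n) * ∫⁻ σ in Icc (0 : ℝ) t, gw (b / 2) e.2 * g σ e := by
    intro e
    rw [← lintegral_const_mul' _ _ hD]
    refine lintegral_congr fun σ => ?_
    ring
  simp_rw [h2, lintegral_const_mul' _ _ hD]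
  ring

/-- **One term of the law of two branches**, without contact. -/
theorem BrO_mass (hε : 0 < ε) (hε1 : ε ≤ 1) (hb : 0 < b)
    (ht : 0 ≤ t) (htt : t ≤ t₁) {i i' d n L : ℕ} {S₁ S₂ : ℕ → Step} {C : ℝ≥0∞} (hC : C ≠ ∞)
    {g : Src → ℝ≥0∞} (hg : ∀ e ∈ srcS t L, g e ≠ ∞)
    {h : ℕ → ℝ≥0∞} (hh : h n ≠ ∞) {G : Src × Src → ℝ≥0∞}
    (hG : ∀ e ∈ srcS t L, ∀ m ∈ srcS t L, G (e, m) ≤ h m.2.2 * (g e *
      (C * ENNReal.ofReal (Real.exp (b / 2 * ‖m.2.1.2‖ ^ 2))))) :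
    muE ε * BrO b ε t S₁ i d (fun x => BrO b ε t S₂ i' n fun y =>
      (joinS ε t L).indicator (fun z => G (z.1.1, z.2.1)) (x, y)) ≤
      cO b t₁ i * (C * cMs b t₁ i') * (h n * ∫⁻ e : Ph,
        ∫⁻ σ in Icc (0 : ℝ) t₁, gw (b / 2) e.2 * (srcS t L).indicator g (σ, e, d)) := by
  have ht₁ : 0 ≤ t₁ := ht.trans htt
  rw [BrO_BrO b ε t S₁ S₂ i i' d n muE_ne_top]
  have hcase := caseC_mass (ε := ε) (b := b) (t := t₁) hε hε1
    hb ht₁ (i := i) (n := i') (S₁ := S₁) (S₂ := S₂) hC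
    (g := fun σ e => h n * (srcS t L).indicator g (σ, e, d)) (by
      intro σ e
      refine ENNReal.mul_ne_top hh ?_
      by_cases hs : (σ, e, d) ∈ srcS t L
      · rw [indicator_of_mem hs]; exact hg _ hs
      · rw [indicator_of_notMem hs]; exact ENNReal.zero_ne_top)
    (G := fun e β p m β' p' => muE ε * (HD b ε t S₁ i e β p * (HD b ε t S₂ i' m β' p' *
      (joinS ε t L).indicator (fun z => G (z.1.1, z.2.1))
        (brA ε S₁ i d (e, β, p), brA ε S₂ i' n (m, β', p'))))) (by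
      intro e β p m β' p' hne
      have h1 : (e, β, p) ∈ brS ε t S₁ i := by
        by_contra hs
        refine hne ?_
        unfold HD
        rw [indicator_of_notMem hs]
        simp
      have h2 : (m, β', p') ∈ brS ε t S₂ i' := by
        by_contra hs
        refine hne ?_
        have : HD b ε t S₂ i' m β' p' = 0 := indicator_of_notMem hs _
        rw [this]
        simp
      have h3 : (brA ε S₁ i d (e, β, p), brA ε S₂ i' n (m, β', p')) ∈ joinS ε t L := by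
        by_contra hs
        refine hne ?_
        rw [indicator_of_notMem hs]
        simp
      obtain ⟨a1, a2, a3⟩ := h1
      obtain ⟨b1, b2, b3⟩ := h2
      obtain ⟨⟨c1, c2, c3, c4⟩, c5, c6⟩ := id h3
      have he : (exT ε (e, β), e, d) ∈ srcS t L := c5
      have hm : (exT ε (m, β'), m, n) ∈ srcS t L := c6
      refine ⟨⟨a1, ⟨a2.1, a2.2.trans htt⟩, chain_le_time htt i _ _ _ _ a3⟩,
        ⟨b1, ⟨b2.1, b2.2.trans htt⟩, chain_le_time htt i' _ _ _ _ b3⟩,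
        ⟨c1, c3, c4.trans htt⟩, ?_⟩
      rw [indicator_of_mem h3]
      have e1 : HD b ε t S₁ i e β p = gw b e.2 * (muE ε * gw b β.2 * wt b ε i p) :=
        indicator_of_mem (show (e, β, p) ∈ brS ε t S₁ i from ⟨a1, a2, a3⟩) _
      have e2 : HD b ε t S₂ i' m β' p' = gw b m.2 * (muE ε * gw b β'.2 * wt b ε i' p') :=
        indicator_of_mem (show (m, β', p') ∈ brS ε t S₂ i' from ⟨b1, b2, b3⟩) _
      have e3 := hG _ he _ hm
      rw [e1, e2, indicator_of_mem he]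
      change muE ε * (gw b e.2 * (muE ε * gw b β.2 * wt b ε i p) *
        (gw b m.2 * (muE ε * gw b β'.2 * wt b ε i' p') *
          G ((exT ε (e, β), e, d), (exT ε (m, β'), m, n)))) ≤ _
      have e4 : ∀ v : E3, ENNReal.ofReal (Real.exp (-b * ‖v‖ ^ 2)) = gw b v := fun v => rfl
      rw [e4, e4, e4]
      refine (mul_le_mul' le_rfl (mul_le_mul' le_rfl (mul_le_mul' le_rfl e3))).trans (le_of_eq ?_)
      ring)
  refine hcase.trans (le_of_eq ?_)
  have e5 : ∀ e : Ph, ∫⁻ σ in Icc (0 : ℝ) t₁, gw (b / 2) e.2 *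
      (h n * (srcS t L).indicator g (σ, e, d)) =
      h n * ∫⁻ σ in Icc (0 : ℝ) t₁, gw (b / 2) e.2 * (srcS t L).indicator g (σ, e, d) := by
    intro e
    rw [← lintegral_const_mul' _ _ hh]
    refine lintegral_congr fun σ => ?_
    ring
  simp_rw [e5, lintegral_const_mul' _ _ hh]

/-- The constant of the mass of the law of two branches. -/
def cMas (b t t₁ : ℝ) (K : ℝ≥0∞) (α : ℕ → ℝ≥0∞) (q : ℕ) : ℝ≥0∞ :=
  sumL b t K α q (cO (b / 2) t₁) (cMs (b / 2) t₁)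

theorem tsum_cMs_ne_top (hb : 0 < b) (ht : 0 ≤ t) {c : ℝ≥0∞} (hc : c ≠ ∞) :
    ∑' i, c ^ i * cMs b t i ≠ ∞ := by
  have h1 : ∀ i, c ^ i * cMs b t i = (ENNReal.ofReal t * ((ENNReal.ofReal Real.pi * I0 (b / 2)) *
      ENNReal.ofReal (1 + 1 / √b))) * (c ^ i * cF1 (b / 2) 1 t i) := by
    intro i
    unfold cMs
    ring
  simp_rw [h1]
  rw [ENNReal.tsum_mul_left]
  exact ENNReal.mul_ne_top (ENNReal.mul_ne_top ENNReal.ofReal_ne_top (ENNReal.mul_ne_top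
    (ENNReal.mul_ne_top ENNReal.ofReal_ne_top (I0_ne_top (by positivity)))
      ENNReal.ofReal_ne_top)) (tsum_cF1_ne_top ht hc)

theorem cMas_ne_top (hb : 0 < b) (ht : 0 ≤ t) {t₁ : ℝ} (ht₁ : 0 ≤ t₁) {K : ℝ≥0∞} (hK : K ≠ ∞)
    {α : ℕ → ℝ≥0∞} (hα : ∑' n, α n ≠ ∞) (q : ℕ) : cMas b t t₁ K α q ≠ ∞ := by
  unfold cMas
  rw [sumL_eq]
  have hX : 2 * (K * ∑' n, α n) ≠ ∞ := ENNReal.mul_ne_top (by norm_num) (ENNReal.mul_ne_top hK hα)
  refine ENNReal.mul_ne_top (ENNReal.mul_ne_top (cTR_ne_top (ENNReal.mul_ne_top hK hα) ht q)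
    (ENNReal.pow_ne_top hK)) (ENNReal.mul_ne_top ?_ ?_)
  · exact tsum_cO_ne_top (by positivity) ht₁ hX
  · exact tsum_cMs_ne_top (by positivity) ht₁ hX

/-- **The mass of the law of two branches**, with weights of both exhausts. -/
theorem lamC_mass (hΦ : IsPotential Φ) (hε : 0 < ε) (hε1 : ε ≤ 1) (hb : 0 < b)
    (ht : 0 ≤ t) (htt : t ≤ t₁) {C : ℝ≥0∞} (hC : C ≠ ∞)
    {g : Src → ℝ≥0∞} (hg : ∀ e ∈ srcS t L, g e ≠ ∞) {h : ℕ → ℝ≥0∞} (hh : ∀ n, h n ≠ ∞)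
    {G : Src × Src → ℝ≥0∞} (hGm : Measurable G)
    (hG : ∀ e ∈ srcS t L, ∀ m ∈ srcS t L, G (e, m) ≤ h m.2.2 * (g e *
      (C * ENNReal.ofReal (Real.exp (b / 4 * ‖m.2.1.2‖ ^ 2))))) :
    ∫⁻ z, G z ∂(lamC hΦ hε.ne' b t K α L q) ≤
      C * (cMas b t t₁ K α q * (hI2 α h * gI1 (b / 4) t t₁ L α g)) := by
  refine (lamC_sum hΦ hε.ne' b t K α L q hGm (A := cO (b / 2) t₁)
    (B := fun n => C * cMs (b / 2) t₁ n) (h := h)
    (I := fun d => ∫⁻ e : Ph, ∫⁻ σ in Icc (0 : ℝ) t₁, gw (b / 2 / 2) e.2 *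
      (srcS t L).indicator g (σ, e, d)) fun i i' d n o o' => ?_).trans (le_of_eq ?_)
  · refine BrO_mass hε hε1 (by positivity) ht htt hC hg (hh n) fun e he m hm => ?_
    rw [show b / 2 / 2 = b / 4 by ring]
    exact hG e he m hm
  · unfold gI1 cMas
    rw [show b / 2 / 2 = b / 4 by ring, sumL_const]
    ring

end Vale.Agent.P119.FL
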