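import Vale.Agent.P119.FL.LawC3

/-!
# P119: law C, the remainder and the hits of a line (`helper690`)

* `lamC_rem`: the remainder of the iteration;
* `line_flux_Gc`: the flux of the iterates of the hits of a fixed line;
* `hitLam_lamC`: **`HitLam` for the law of two branches**, `tsum_cHit_ne_top`: with summable constants.
-/

open MeasureTheory Set Filter Topology Metric ProbabilityTheory
open scoped ENNReal

noncomputable section

namespace Vale.Agent.P119.FL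

open KU M M.CTree RB EN PB AU Cap

variable {Φ : E3 → ℝ} {ε b b' t t₁ δ : ℝ} {K : ℝ≥0∞} {α : ℕ → ℝ≥0∞} {L q : ℕ}

/-! ### The remainder -/

/-- The constant of the remainder. -/
def cRem (b t₁ : ℝ) (J : ℕ) : ℝ≥0∞ :=
  3 ^ J * ENNReal.ofReal ((Kc (b / 2) * t₁) ^ J / √(J.factorial : ℝ))

theorem cRem_ne_top (b t₁ : ℝ) (J : ℕ) : cRem b t₁ J ≠ ∞ :=
  ENNReal.mul_ne_top (ENNReal.pow_ne_top (by norm_num)) ENNReal.ofReal_ne_top

theorem tsum_cRem_ne_top (ht : 0 ≤ t) {c : ℝ≥0∞} (hc : c ≠ ∞) :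
    ∑' j, c ^ j * cRem b t j ≠ ∞ := by
  have h1 : ∀ j, c ^ j * cRem b t j = (3 * c * ENNReal.ofReal (Kc (b / 2) * t)) ^ j * rf j := by
    intro j
    unfold cRem
    rw [ofReal_rf (mul_nonneg (Kc_nonneg _) ht), mul_pow, mul_pow]
    ring
  simp_rw [h1]
  exact sf_ne_top (ENNReal.mul_ne_top (ENNReal.mul_ne_top (by norm_num) hc)
    ENNReal.ofReal_ne_top)

theorem Gc_one_le (hbb : b / 2 ≤ b') (hΦ : IsPotential Φ) (hε : 0 < ε) (hb : 0 < b) (J : ℕ)
    {s : ℝ} (hs : s ∈ Icc 0 t₁) (l : Ph) :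
    Gc hΦ hε.ne' b' t₁ J (fun _ _ => 1) s l ≤
      cRem b t₁ J * ENNReal.ofReal (Real.exp (b / 4 * ‖l.2‖ ^ 2)) := by
  have hm : Measurable fun _ : ℝ × Ph => (1 : ℝ≥0∞) := measurable_const
  have h1 : Gc hΦ hε.ne' b' t₁ J (fun _ _ => 1) s l ≤
      Gc hΦ hε.ne' (b / 2) t₁ J (fun _ _ => 1) s l := by
    rw [Gc_eq_opn hΦ hε.ne' b' t₁ J (F := fun _ _ => 1) hm,
      Gc_eq_opn hΦ hε.ne' (b / 2) t₁ J (F := fun _ _ => 1) hm]
    exact Finset.sum_le_sum fun o _ => opn_mono_b hbb J _ _ _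
  refine h1.trans ((Gc_const_le hΦ hε (by positivity : 0 < b / 2) J 1 hs.2 l).trans ?_)
  have h2 := Kc_nonneg (b / 2)
  have h3 : (Kc (b / 2) * (t₁ - s)) ^ J / √(J.factorial : ℝ) ≤
      (Kc (b / 2) * t₁) ^ J / √(J.factorial : ℝ) := by
    have h4 : 0 ≤ Kc (b / 2) * (t₁ - s) := mul_nonneg h2 (by linarith [hs.2])
    have h5 : Kc (b / 2) * (t₁ - s) ≤ Kc (b / 2) * t₁ :=
      mul_le_mul_of_nonneg_left (by linarith [hs.1]) h2
    gcongr
  have h6 : 0 ≤ (Kc (b / 2) * t₁) ^ J / √(J.factorial : ℝ) := by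
    have h4 : 0 ≤ Kc (b / 2) * t₁ := mul_nonneg h2 (hs.1.trans hs.2)
    positivity
  unfold cRem
  rw [one_mul, mul_assoc, ← ENNReal.ofReal_mul h6]
  refine mul_le_mul' le_rfl (ENNReal.ofReal_le_ofReal ?_)
  rw [show b / 2 / 2 = b / 4 by ring]
  exact mul_le_mul_of_nonneg_right h3 (Real.exp_pos _).le

/-- **The remainder of the iteration**, for the law of two branches. -/
theorem lamC_rem (hbb : b / 2 ≤ b') (hΦ : IsPotential Φ) (hε : 0 < ε) (hε1 : ε ≤ 1) (hb : 0 < b)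
    (ht : 0 ≤ t) (htt : t ≤ t₁) (J : ℕ) {g : Src → ℝ≥0∞} (hg : ∀ e ∈ srcS t L, g e ≠ ∞)
    (hgm : Measurable g) {h : ℕ → ℝ≥0∞} (hh : ∀ n, h n ≠ ∞) :
    ∫⁻ p, h p.2.2.2 * (g p.1 * Gc hΦ hε.ne' b' t₁ J (fun _ _ => 1) p.2.1 p.2.2.1)
      ∂(lamC hΦ hε.ne' b t K α L q) ≤
      cRem b t₁ J * (cMas b t t₁ K α q * (hI2 α h * gI1 (b / 4) t t₁ L α g)) := by
  have hG : Measurable fun p : Src × Src => Gc hΦ hε.ne' b' t₁ J (fun _ _ => 1) p.2.1 p.2.2.1 :=
    (measurable_Gc hΦ hε.ne' b' t₁ J (F := fun _ _ => 1) measurable_const).comp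
      (measurable_snd.fst.prodMk measurable_snd.snd.fst)
  have hd : Measurable fun z : Src × Src => h z.2.2.2 :=
    (measurable_from_top (f := h)).comp measurable_snd.snd.snd
  refine lamC_mass hΦ hε hε1 hb ht htt (cRem_ne_top b t₁ J) hg hh
    (hd.mul ((hgm.comp measurable_fst).mul hG)) fun e _ m hm => ?_
  exact mul_le_mul' le_rfl (mul_le_mul' le_rfl (Gc_one_le hbb hΦ hε hb J
    ⟨hm.1.le, hm.2.1.trans htt⟩ m.2.1))

/-! ### The hits of a fixed line -/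

theorem opn_le_cR_nonneg {ι : Type*} {h t₁ : ℝ} {I : Finset ι} {T : ι → Target h} {j : ℕ}
    {S : ℕ → Step} {F : ℝ → Ph → ℝ≥0∞} (hF : Measurable fun q : ℝ × Ph => F q.1 q.2)
    {g : ℝ≥0∞} (hFc : ∀ s z, 0 ≤ s → F s z ≠ 0 → LnC ε I T s z ∧ F s z ≤ g) (hg : g ≠ ∞)
    {s : ℝ} (hs : 0 ≤ s) (l : Ph) :
    opn ε b t₁ j S F s l ≤ g * cR b ε t₁ (lineFam ε S j) I T s l := by
  rw [opn_eq j S hF]
  unfold cR
  rw [← lintegral_const_mul' _ _ hg]
  refine lintegral_mono fun p => ?_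
  by_cases hc : Chain ε t₁ S j s l p
  swap
  · rw [opI_of_not hc]; exact zero_le
  rw [opI_of hc]
  by_cases h0 : F (time ε S j s l p) (line S j l p) = 0
  · rw [h0, mul_zero]; exact zero_le
  obtain ⟨⟨k, hk, τ, hτ, h1⟩, h2⟩ := hFc _ _ (hs.trans (le_time j S s l p hc)) h0
  have h3 : p ∈ ctcF ε t₁ (lineFam ε S j) I T s l := ⟨hc, k, hk, τ, hτ, h1⟩
  rw [indicator_of_mem h3, mul_comm]
  exact mul_le_mul' h2 le_rfl

/-- The flux of the chains into the line `z'`, for a fixed birth. -/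
theorem line_flux_cR (hε : 0 < ε) (hb : 0 < b) (ht : 0 ≤ t) (htt : t < t₁) {j : ℕ}
    (S : ℕ → Step) (z' : Ph) {σ : ℝ} (hσ : 0 ≤ σ) :
    ∫⁻ e : Ph, gw b e.2 * cR b ε t₁ (lineFam ε S j) (Finset.univ : Finset Unit)
      (fun _ => lineTarget t 0 z') σ e ≤
      ENNReal.ofReal (ε ^ 2) * cF1 b 1 t₁ j * (lineTarget t 0 z').w ε := by
  by_cases hσt : t < σ
  · have h0 : ∀ e : Ph, cR b ε t₁ (lineFam ε S j) (Finset.univ : Finset Unit)
        (fun _ => lineTarget t 0 z') σ e = 0 := fun e => cR_of_lt hσt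
    simp_rw [h0, mul_zero, lintegral_zero]
    exact zero_le
  rw [not_lt] at hσt
  have h1 := first_flux_H (b := b) (s := σ) (t := t₁) (h := t) (t₁ := t₁) (c₁ := 1) hε hb
    zero_le_one htt (lineFam ε S j) (Finset.univ : Finset Unit) (fun _ => lineTarget t 0 z')
    (Ψ := fun l p => gw b l.2 * (ctcF ε t₁ (lineFam ε S j) (Finset.univ : Finset Unit)
      (fun _ => lineTarget t 0 z') σ l).indicator (wt b ε j) p) (by
        intro l p hne
        have hp : p ∈ ctcF ε t₁ (lineFam ε S j) (Finset.univ : Finset Unit)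
            (fun _ => lineTarget t 0 z') σ l := by
          by_contra hn
          exact hne (by rw [indicator_of_notMem hn, mul_zero])
        refine ⟨hp.1, hp.2, ?_⟩
        rw [indicator_of_mem hp]
        exact le_rfl)
  have h2 : ∀ e : Ph, gw b e.2 * cR b ε t₁ (lineFam ε S j) (Finset.univ : Finset Unit)
      (fun _ => lineTarget t 0 z') σ e = ∫⁻ p, gw b e.2 *
        (ctcF ε t₁ (lineFam ε S j) (Finset.univ : Finset Unit)
          (fun _ => lineTarget t 0 z') σ e).indicator (wt b ε j) p := by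
    intro e
    unfold cR
    exact (lintegral_const_mul' _ _ ENNReal.ofReal_ne_top).symm
  simp_rw [h2]
  refine h1.trans ?_
  rw [Finset.univ_unique, Finset.sum_singleton]
  unfold cF1
  have h3 := Kc_nonneg (b / 2)
  have h4 := D2_nonneg b
  have h5 : 0 ≤ Kc (b / 2) * (t₁ - σ) := mul_nonneg h3 (by linarith)
  have h6 : Kc (b / 2) * (t₁ - σ) ≤ Kc (b / 2) * t₁ := mul_le_mul_of_nonneg_left (by linarith) h3
  rw [mul_assoc (ENNReal.ofReal (ε ^ 2))]
  gcongr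

theorem hitL_ne {ε t s : ℝ} (hε : 0 < ε) (hs : 0 ≤ s) {z' l : Ph} (hne : hitL ε t z' s l ≠ 0) :
    LnC ε (Finset.univ : Finset Unit) (fun _ => lineTarget t 0 z') s l ∧
      hitL ε t z' s l ≤ 1 := by
  refine ⟨?_, ind_le_one _⟩
  obtain ⟨h1, h2, h3⟩ := ind_ne_zero hne
  exact ⟨(), Finset.mem_univ _, hitT ε (l, z'), ⟨max_le (hs.trans h2.le) h2.le, h3⟩,
    (M.dist_hitT hε h1).le⟩

/-- **The flux of the iterates of the hits of a fixed line.** -/
theorem line_flux_Gc (hbb : b ≤ b') (hΦ : IsPotential Φ) (hε : 0 < ε) (hb : 0 < b) (ht : 0 ≤ t)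
    (htt : t < t₁) (j : ℕ) (z' : Ph) {σ : ℝ} (hσ : 0 ≤ σ) :
    ∫⁻ e : Ph, gw b e.2 * Gc hΦ hε.ne' b' t₁ j (hitL ε t z') σ e ≤
      3 ^ j * (ENNReal.ofReal (ε ^ 2) * cF1 b 1 t₁ j * (lineTarget t 0 z').w ε) := by
  have hm : Measurable fun q : ℝ × Ph => hitL ε t z' q.1 q.2 :=
    measurable_hitL measurable_const measurable_fst measurable_snd
  have h1 : ∀ e : Ph, gw b e.2 * Gc hΦ hε.ne' b' t₁ j (hitL ε t z') σ e =
      ∑ o : Fin j → Fin 3, gw b e.2 * opn ε b' t₁ j (stps hΦ hε.ne' o) (hitL ε t z') σ e := by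
    intro e
    rw [Gc_eq_opn hΦ hε.ne' b' t₁ j hm, Finset.mul_sum]
  have hmo : ∀ o : Fin j → Fin 3, Measurable fun e : Ph => gw b e.2 *
      opn ε b' t₁ j (stps hΦ hε.ne' o) (hitL ε t z') σ e := fun o =>
    ((measurable_gw b).comp measurable_snd).mul ((measurable_opn j _ hm).comp
      (measurable_const.prodMk measurable_id))
  simp_rw [h1]
  rw [lintegral_finsetSum _ fun o _ => hmo o]
  have h2 : ∀ o : Fin j → Fin 3, ∫⁻ e : Ph, gw b e.2 *
      opn ε b' t₁ j (stps hΦ hε.ne' o) (hitL ε t z') σ e ≤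
      ENNReal.ofReal (ε ^ 2) * cF1 b 1 t₁ j * (lineTarget t 0 z').w ε := by
    intro o
    refine le_trans (lintegral_mono fun e => mul_le_mul' le_rfl ?_)
      (line_flux_cR hε hb ht htt (stps hΦ hε.ne' o) z' hσ)
    refine (opn_le_cR_nonneg hm (fun s z hs hne => hitL_ne hε hs hne) ENNReal.one_ne_top hσ
      e).trans ?_
    rw [one_mul]
    exact cR_mono_b hbb _ _ _ _ _
  refine (Finset.sum_le_sum fun o _ => h2 o).trans (le_of_eq ?_)
  rw [Finset.sum_const, Finset.card_univ, Fintype.card_fun, Fintype.card_fin, Fintype.card_fin,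
    nsmul_eq_mul]
  push_cast
  ring

/-- The sum over the depths, with a geometric weight. -/
theorem tsum_pow_max (α : ℕ → ℝ≥0∞) {A : ℝ≥0∞} (hA : 1 ≤ A) :
    ∑' d, ∑' d', α d * α d' * A ^ (max d d' + 1) ≤ A * (∑' d, α d * A ^ d) ^ 2 := by
  have h1 : ∀ d d', α d * α d' * A ^ (max d d' + 1) ≤ A * ((α d * A ^ d) * (α d' * A ^ d')) := by
    intro d d'
    have h2 : A ^ (max d d' + 1) ≤ A ^ (d + d' + 1) := pow_le_pow_right₀ hA (by omega)
    calc _ ≤ α d * α d' * A ^ (d + d' + 1) := mul_le_mul' le_rfl h2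
      _ = _ := by rw [pow_succ, pow_add]; ring
  refine (ENNReal.tsum_le_tsum fun d => ENNReal.tsum_le_tsum fun d' => h1 d d').trans
    (le_of_eq ?_)
  simp_rw [ENNReal.tsum_mul_left, ENNReal.tsum_mul_right]
  ring

/-- The constants of `HitLam`. -/
def cHit (b t t₁ : ℝ) (K : ℝ≥0∞) (α : ℕ → ℝ≥0∞) (q : ℕ) (A : ℝ≥0∞) (j : ℕ) : ℝ≥0∞ :=
  (cMas b t t₁ K α q * (∑' d, α d) ^ 2 * (A * (∑' d, α d * A ^ d) ^ 2) *
    (ENNReal.ofReal t₁ * ENNReal.ofReal (1 + t))) * (3 ^ j * cF1 (b / 4) 1 t₁ j)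

/-- **The iterates of the hits of a fixed line**, for the law of two branches. -/
theorem hitLam_lamC (hbb : b / 2 ≤ b') (hΦ : IsPotential Φ) (hε : 0 < ε) (hε1 : ε ≤ 1)
    (hb : 0 < b) (ht : 0 ≤ t) (htt : t < t₁) {A : ℝ≥0∞} (hA : 1 ≤ A) (hA' : A ≠ ∞) :
    HitLam hΦ hε.ne' b' t t₁ A (lamC hΦ hε.ne' b t K α L q) (cHit b t t₁ K α q A) := by
  intro j z'
  have ht₁ : 0 ≤ t₁ := ht.trans htt.le
  set gH : Src → ℝ≥0∞ := fun e => A ^ e.2.2 * Gc hΦ hε.ne' b' t₁ j (hitL ε t z') e.1 e.2.1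
    with hgH
  have hm : Measurable fun q : ℝ × Ph => hitL ε t z' q.1 q.2 :=
    measurable_hitL measurable_const measurable_fst measurable_snd
  have hgm : Measurable gH := by
    refine Measurable.mul ((measurable_from_top (f := fun n : ℕ => A ^ n)).comp
      measurable_snd.snd) ?_
    exact (measurable_Gc hΦ hε.ne' b' t₁ j hm).comp (measurable_fst.prodMk measurable_snd.fst)
  have hgt : ∀ e ∈ srcS t L, gH e ≠ ∞ := by
    intro e he
    refine ENNReal.mul_ne_top (ENNReal.pow_ne_top hA') ?_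
    refine ne_top_of_le_ne_top (ENNReal.mul_ne_top (cRem_ne_top b t₁ j) ENNReal.ofReal_ne_top)
      (le_trans (Gc_mono hΦ hε.ne' b' t₁ j (F' := fun _ _ => 1) (fun s l => ind_le_one _) _ _)
        (Gc_one_le hbb hΦ hε hb j ⟨he.1.le, he.2.1.trans htt.le⟩ e.2.1))
  have h1 : ∫⁻ p, A ^ p.2.2.2 * Gc hΦ hε.ne' b' t₁ j (hitL ε t z') p.2.1 p.2.2.1
      ∂(lamC hΦ hε.ne' b t K α L q) = ∫⁻ p, gH p.1 ∂(lamC hΦ hε.ne' b t K α L q) := by
    have h2 := lamC_swap hΦ hε.ne' b t K α L q (f := fun z : Src × Src => gH z.2)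
      (hgm.comp measurable_snd)
    exact h2.symm
  rw [h1]
  have h2 := lamC_mass (K := K) (α := α) (q := q) (L := L) hΦ hε hε1 hb ht htt.le (C := 1)
    ENNReal.one_ne_top (g := gH) hgt (h := fun _ => 1) (fun _ => ENNReal.one_ne_top)
    (G := fun p => gH p.1) (hgm.comp measurable_fst) (by
      intro e _ m _
      have h3 : (1 : ℝ≥0∞) ≤ ENNReal.ofReal (Real.exp (b / 4 * ‖m.2.1.2‖ ^ 2)) := by
        rw [← ENNReal.ofReal_one]
        exact ENNReal.ofReal_le_ofReal (Real.one_le_exp (by positivity))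
      rw [one_mul, one_mul]
      exact le_mul_of_one_le_right zero_le h3)
  refine h2.trans ?_
  rw [one_mul]
  have h3 : hI2 α (fun _ => 1) = (∑' d, α d) ^ 2 := by
    unfold hI2
    simp_rw [mul_one, ENNReal.tsum_mul_left, ENNReal.tsum_mul_right]
    ring
  -- the integral of the first exhaust
  set X : ℝ≥0∞ := 3 ^ j * (ENNReal.ofReal (ε ^ 2) * cF1 (b / 4) 1 t₁ j *
    (lineTarget t 0 z').w ε) with hX
  have h4 : ∀ d, ∫⁻ e : Ph, ∫⁻ σ in Icc (0 : ℝ) t₁, gw (b / 4) e.2 *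
      (srcS t L).indicator gH (σ, e, d) ≤ A ^ d * (ENNReal.ofReal t₁ * X) := by
    intro d
    have hAd : A ^ d ≠ ∞ := ENNReal.pow_ne_top hA'
    have m1 : Measurable fun z : Ph × ℝ => gw (b / 4) z.1.2 *
        Gc hΦ hε.ne' b' t₁ j (hitL ε t z') z.2 z.1 :=
      ((measurable_gw _).comp measurable_fst.snd).mul
        ((measurable_Gc hΦ hε.ne' b' t₁ j hm).comp (measurable_snd.prodMk measurable_fst))
    calc ∫⁻ e : Ph, ∫⁻ σ in Icc (0 : ℝ) t₁, gw (b / 4) e.2 *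
          (srcS t L).indicator gH (σ, e, d)
        ≤ ∫⁻ e : Ph, ∫⁻ σ in Icc (0 : ℝ) t₁, A ^ d * (gw (b / 4) e.2 *
          Gc hΦ hε.ne' b' t₁ j (hitL ε t z') σ e) := by
          refine lintegral_mono fun e => lintegral_mono fun σ => ?_
          by_cases hs : (σ, e, d) ∈ srcS t L
          · rw [indicator_of_mem hs, hgH]
            refine le_of_eq ?_
            ring
          · rw [indicator_of_notMem hs, mul_zero]
            exact zero_le
      _ = A ^ d * ∫⁻ e : Ph, ∫⁻ σ in Icc (0 : ℝ) t₁, (gw (b / 4) e.2 *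
          Gc hΦ hε.ne' b' t₁ j (hitL ε t z') σ e) := by
          simp_rw [lintegral_const_mul' _ _ hAd]
      _ = A ^ d * ∫⁻ σ in Icc (0 : ℝ) t₁, ∫⁻ e : Ph, (gw (b / 4) e.2 *
          Gc hΦ hε.ne' b' t₁ j (hitL ε t z') σ e) := by
          rw [lintegral_lintegral_swap m1.aemeasurable]
      _ ≤ A ^ d * ∫⁻ _ in Icc (0 : ℝ) t₁, X := by
          refine mul_le_mul' le_rfl (setLIntegral_mono' measurableSet_Icc fun σ hσ => ?_)
          exact line_flux_Gc (by linarith) hΦ hε (by positivity) ht htt j z' hσ.1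
      _ = _ := by
          rw [setLIntegral_const, Real.volume_Icc, sub_zero]
          ring
  have h5 : gI1 (b / 4) t t₁ L α gH ≤ (A * (∑' d, α d * A ^ d) ^ 2) *
      (ENNReal.ofReal t₁ * X) := by
    unfold gI1
    refine (ENNReal.tsum_le_tsum fun d => ENNReal.tsum_le_tsum fun d' =>
      mul_le_mul' le_rfl (h4 (max d d' + 1))).trans ?_
    have h6 : ∀ d d', α d * α d' * (A ^ (max d d' + 1) * (ENNReal.ofReal t₁ * X)) =
        (α d * α d' * A ^ (max d d' + 1)) * (ENNReal.ofReal t₁ * X) := fun d d' => by ring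
    simp_rw [h6, ENNReal.tsum_mul_right]
    exact mul_le_mul' (tsum_pow_max α hA) le_rfl
  have h7 := lineTarget_w_le (t := t) hε1 ht z'
  rw [h3]
  calc cMas b t t₁ K α q * ((∑' d, α d) ^ 2 * gI1 (b / 4) t t₁ L α gH)
      ≤ cMas b t t₁ K α q * ((∑' d, α d) ^ 2 * ((A * (∑' d, α d * A ^ d) ^ 2) *
        (ENNReal.ofReal t₁ * X))) := by gcongr
    _ ≤ cMas b t t₁ K α q * ((∑' d, α d) ^ 2 * ((A * (∑' d, α d * A ^ d) ^ 2) *
        (ENNReal.ofReal t₁ * (3 ^ j * (ENNReal.ofReal (ε ^ 2) * cF1 (b / 4) 1 t₁ j *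
          (ENNReal.ofReal (1 + t) * ENNReal.ofReal (1 + ‖z'.2‖))))))) := by
        rw [hX]
        gcongr
    _ = _ := by
        unfold cHit
        ring

theorem tsum_cHit_ne_top (hb : 0 < b) (ht : 0 ≤ t) (ht₁ : 0 ≤ t₁) (hK : K ≠ ∞) {A : ℝ≥0∞}
    (hA : 1 ≤ A) (hA' : A ≠ ∞) (hα : ∑' d, α d * A ^ d ≠ ∞) {c : ℝ≥0∞} (hc : c ≠ ∞) :
    ∑' j, c ^ j * cHit b t t₁ K α q A j ≠ ∞ := by
  have hα1 : ∑' d, α d ≠ ∞ := ne_top_of_le_ne_top hα (ENNReal.tsum_le_tsum fun d =>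
    le_mul_of_one_le_right zero_le (one_le_pow₀ hA))
  have h1 : ∀ j, c ^ j * cHit b t t₁ K α q A j = (cMas b t t₁ K α q * (∑' d, α d) ^ 2 *
      (A * (∑' d, α d * A ^ d) ^ 2) * (ENNReal.ofReal t₁ * ENNReal.ofReal (1 + t))) *
      ((3 * c) ^ j * cF1 (b / 4) 1 t₁ j) := by
    intro j
    unfold cHit
    rw [mul_pow]
    ring
  simp_rw [h1]
  rw [ENNReal.tsum_mul_left]
  refine ENNReal.mul_ne_top (ENNReal.mul_ne_top (ENNReal.mul_ne_top (ENNReal.mul_ne_top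
    (cMas_ne_top hb ht ht₁ hK hα1 q) (ENNReal.pow_ne_top hα1)) (ENNReal.mul_ne_top hA'
      (ENNReal.pow_ne_top hα))) (ENNReal.mul_ne_top ENNReal.ofReal_ne_top
        ENNReal.ofReal_ne_top)) ?_
  exact tsum_cF1_ne_top ht₁ (ENNReal.mul_ne_top (by norm_num) hc)

end Vale.Agent.P119.FL
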