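import Vale.Agent.P119.FL.LawC4
import Vale.Agent.P119.PB.Lam6d
import Vale.Agent.P119.PB.CardTE
import Vale.Agent.P119.PB.SumC
import Vale.Agent.P119.PB.PairsPP

/-!
# P119: law C, weights of the first exhaust and expectations (`helper690`)

* `cBr_mono`, `cMas_mono`: the constants are monotone in the horizon;
* `lamC_mainG`: `lamC_main` with a weight of the first exhaust;
* `gI1_lintegral`, `gI1_le_Nm`, `gI1_TE_le`: the weighted measure of the first exhaust;
* `TypLaw.ldLaw`: the typical laws are laws with lines and depths.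
-/

open MeasureTheory Set Filter Topology Metric ProbabilityTheory
open scoped ENNReal

noncomputable section

namespace Vale.Agent.P119.FL

open KU M M.CTree RB EN PB AU Cap

variable {Φ : E3 → ℝ} {ε b b' t t₁ δ T : ℝ} {K : ℝ≥0∞} {α : ℕ → ℝ≥0∞} {L q : ℕ}

/-! ### Monotonicity of the constants -/

theorem cTr_mono (ht : 0 ≤ t) (htT : t ≤ T) (b : ℝ) (K : ℝ≥0∞) (q k : ℕ) :
    cTr b t K q k ≤ cTr b T K q k := by
  unfold cTr
  have h1 := Kc_nonneg (b / 2)
  gcongr

theorem cTR_mono (ht : 0 ≤ t) (htT : t ≤ T) (b : ℝ) (K : ℝ≥0∞) (q : ℕ) :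
    cTR b t K q ≤ cTR b T K q :=
  ENNReal.tsum_le_tsum fun k => cTr_mono ht htT b K q k

theorem sumL_mono_t (ht : 0 ≤ t) (htT : t ≤ T) (b : ℝ) (K : ℝ≥0∞) (α : ℕ → ℝ≥0∞) (q : ℕ)
    (A B : ℕ → ℝ≥0∞) : sumL b t K α q A B ≤ sumL b T K α q A B := by
  unfold sumL
  refine ENNReal.tsum_le_tsum fun i => ENNReal.tsum_le_tsum fun i' => mul_le_mul' ?_ le_rfl
  unfold cLam
  exact mul_le_mul' (cTR_mono ht htT _ _ _) le_rfl

theorem cBr_mono (ht : 0 ≤ t) (htT : t ≤ T) (b t₁ : ℝ) (K : ℝ≥0∞) (α : ℕ → ℝ≥0∞) (q : ℕ) :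
    cBr b t t₁ K α q ≤ cBr b T t₁ K α q := sumL_mono_t ht htT _ _ _ _ _ _

theorem cMas_mono (ht : 0 ≤ t) (htT : t ≤ T) (b t₁ : ℝ) (K : ℝ≥0∞) (α : ℕ → ℝ≥0∞) (q : ℕ) :
    cMas b t t₁ K α q ≤ cMas b T t₁ K α q := sumL_mono_t ht htT _ _ _ _ _ _

theorem cHit_mono (ht : 0 ≤ t) (htT : t ≤ T) (b t₁ : ℝ) (K : ℝ≥0∞) (α : ℕ → ℝ≥0∞) (q : ℕ)
    (A : ℝ≥0∞) (j : ℕ) : cHit b t t₁ K α q A j ≤ cHit b T t₁ K α q A j := by
  unfold cHit
  have h1 := cMas_mono ht htT b t₁ K α q
  gcongr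

theorem jF_ne_top (b c₁ t t' : ℝ) (j : ℕ) : jF b c₁ t t' j ≠ ∞ :=
  ENNReal.add_ne_top.2 ⟨cF1_ne_top _ _ _ _, ENNReal.ofReal_ne_top⟩

theorem cG_ne_top (hΦ : IsPotential Φ) (b t₁ : ℝ) {M : ℝ≥0∞} (hM : M ≠ ∞) (j : ℕ) :
    cG hΦ b t₁ M j ≠ ∞ := by
  unfold cG
  exact ENNReal.mul_ne_top (ENNReal.pow_ne_top (by norm_num)) (ENNReal.add_ne_top.2
    ⟨ENNReal.mul_ne_top (by norm_num) (jF_ne_top _ _ _ _ _),
      ENNReal.mul_ne_top (ENNReal.mul_ne_top (by norm_num) hM) (jF_ne_top _ _ _ _ _)⟩)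

/-! ### A weight of the first exhaust -/

theorem opP_const_mul {c : ℝ≥0∞} (hc : c ≠ ∞) (F : Ph × Ph → ℝ≥0∞) (s : ℝ) (l : Ph) :
    opP ε b t₁ (fun q => c * F q) s l = c * opP ε b t₁ F s l := by
  unfold opP
  rw [← lintegral_const_mul' _ _ hc]
  refine lintegral_congr fun z' => ?_
  ring

theorem TgC.mono_g {g g' : Src → ℝ≥0∞} {w : ℝ≥0∞} {ι : Type} {H : Src → ℝ} {I : Src → Finset ι}
    {Tg : ∀ e : Src, ι → Target (H e)} (h : TgC ε t t₁ L g w H I Tg) (hg : ∀ e, g' e ≤ g e) :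
    TgC ε t t₁ L g' w H I Tg where
  H_mem := h.H_mem
  g_ne e := ne_top_of_le_ne_top (h.g_ne e) (hg e)
  w_ne := h.w_ne
  w_le e he hne := h.w_le e he fun h0 => hne (le_antisymm ((hg e).trans h0.le) zero_le)

/-- **The main terms of the second events over a fixed world**, with a weight of the first
exhaust. -/
theorem lamC_mainG (hbb : b / 2 ≤ b') (hΦ : IsPotential Φ) (hε : 0 < ε) (hε1 : ε ≤ 1) (hb : 0 < b)
    (hδ : 0 < δ) (ht : 0 ≤ t) (htt : t < t₁) {B : ℝ} (hB : RW.StableWith Φ B) {V : Finset Src}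
    (hV : GV ε V) {η : ℝ} (hη : 0 < η) (w : ℝ) (j : ℕ) (a : ℕ → ℝ≥0∞) {g₀ : Src → ℝ≥0∞}
    (hgm : Measurable g₀) (hg1 : ∀ e, g₀ e ≤ 1) :
    ∫⁻ p, g₀ p.1 * Gc hΦ hε.ne' b' t₁ j (F6w L hΦ hε b' a η t w 0 V p.1) p.2.1 p.2.2.1
      ∂(lamC hΦ hε.ne' b t K α L q) ≤
      dF ε δ (2 * wV B ε η t V) * cG hΦ b t₁ (∑' n, a n) j *
        (cBr b t t₁ K α q * (hI2 α (fun _ => 1) *
          gI1 (b / 4) t t₁ L α (fun e => g₀ e * gTE L hΦ hε η t V e))) := by
  have hT₀ : TgC ε t t₁ L (gTE L hΦ hε η t V) (wV B ε η t V) (hzI L hΦ hε η t V)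
      (wI L hΦ hε η t V) (wT L hΦ hε η t V) := TgC.world hB hV hη ht htt.le
  have hgt : ∀ e, g₀ e ≠ ∞ := fun e => ((hg1 e).trans_lt ENNReal.one_lt_top).ne
  have hT : TgC ε t t₁ L (fun e => g₀ e * gTE L hΦ hε η t V e) (wV B ε η t V)
      (hzI L hΦ hε η t V) (wI L hΦ hε η t V) (wT L hΦ hε η t V) :=
    hT₀.mono_g fun e => (mul_le_mul' (hg1 e) le_rfl).trans (one_mul _).le
  have mP1 : Measurable fun q : Src × (Ph × Ph) => ind (PG1 L hΦ hε η t V q.1 q.2) :=
    measurable_ind (measurableSet_PG1 V)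
  have mP2 : Measurable fun q : Src × (Ph × Ph) => ind (PG2 L hΦ hε η t V q.1 q.2) :=
    measurable_ind (measurableSet_PG2 V)
  have h1 := lamC_Gc (δ := δ) (K := K) (α := α) (q := q) (M := ∑' n, a n) (b' := b') hbb hΦ hε hε1
    hb hδ ht htt.le hT j (h := fun _ => 1) (fun _ => ENNReal.one_ne_top) (κ := 2) (by norm_num)
    (F := fun e s l => g₀ e * FwC L hΦ hε η t w V e s l)
    ((hgm.comp measurable_fst).mul (measurable_FwC V w))
    (fun e he s z hne => by
      obtain ⟨a1, a2⟩ := FwC_ne hV he.1.le (right_ne_zero_of_mul hne)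
      refine ⟨a1, (mul_le_mul' le_rfl a2).trans (le_of_eq ?_)⟩
      ring)
    (K₁ := fun e q => g₀ e * ind (PG1 L hΦ hε η t V e q))
    (K₂ := fun e q => g₀ e * ind (PG2 L hΦ hε η t V e q))
    ((hgm.comp measurable_fst).mul mP1) ((hgm.comp measurable_fst).mul mP2)
    (fun e he q hne => by
      obtain ⟨a1, a2⟩ := PG1_ne hV he.1.le (right_ne_zero_of_mul hne)
      exact ⟨a1, mul_le_mul' le_rfl a2⟩)
    (fun e he q hne => by
      obtain ⟨a1, a2⟩ := PG2_ne hV he.1.le (right_ne_zero_of_mul hne)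
      exact ⟨a1, mul_le_mul' le_rfl a2⟩)
  refine le_trans (lintegral_mono_ae ?_) h1
  filter_upwards [ae_lamC hΦ hε.ne' b t K α L q] with p hp
  rw [one_mul]
  set F' : ℝ → Ph → ℝ≥0∞ := fun s l => if 0 ≤ s then
    g₀ p.1 * F6w L hΦ hε b' a η t w 0 V p.1 s l else 0 with hF'
  have hFm : Measurable fun q : ℝ × Ph => F6w L hΦ hε b' a η t w 0 V p.1 q.1 q.2 :=
    measurable_F6w (rs_const V) measurable_const measurable_const measurable_fst measurable_snd
  rw [← Gc_const_mul hΦ hε.ne' b' t₁ j (g₀ p.1) hFm,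
    Gc_congr_nonneg hΦ hε.ne' b' t₁ j (F' := F') (fun s hs l => by
    rw [hF']; simp only; rw [if_pos hs]) hp.2.1.le]
  refine Gc_mono hΦ hε.ne' b' t₁ j (fun s l => ?_) _ _
  rw [hF']
  simp only
  by_cases hs : 0 ≤ s
  · rw [if_pos hs, opP_const_mul (hgt _), opP_const_mul (hgt _)]
    refine (mul_le_mul' le_rfl (F6w_le hη ht htt hs l)).trans (le_of_eq ?_)
    ring
  · rw [if_neg hs]
    exact zero_le

/-! ### The weighted measure of the first exhaust -/

theorem gI1_mono {g g' : Src → ℝ≥0∞} (h : ∀ e, g e ≤ g' e) :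
    gI1 b t t₁ L α g ≤ gI1 b t t₁ L α g' := by
  unfold gI1
  refine ENNReal.tsum_le_tsum fun d => ENNReal.tsum_le_tsum fun d' => mul_le_mul' le_rfl
    (lintegral_mono fun e => lintegral_mono fun σ => mul_le_mul' le_rfl ?_)
  exact indicator_le_indicator (h _)

theorem measurable_srcS_ind (t : ℝ) (L : ℕ) {Ω : Type*} [MeasurableSpace Ω]
    {g : Ω → Src → ℝ≥0∞} (hg : Measurable fun q : Ω × Src => g q.1 q.2) :
    Measurable fun x : Ω × Src => (srcS t L).indicator (g x.1) x.2 := by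
  have e : (fun x : Ω × Src => (srcS t L).indicator (g x.1) x.2) =
      {x : Ω × Src | x.2 ∈ srcS t L}.indicator (fun x => g x.1 x.2) := by
    funext x
    by_cases hx : x.2 ∈ srcS t L
    · rw [indicator_of_mem hx, indicator_of_mem (show x ∈ {x : Ω × Src | x.2 ∈ srcS t L} from hx)]
    · rw [indicator_of_notMem hx,
        indicator_of_notMem (show x ∉ {x : Ω × Src | x.2 ∈ srcS t L} from hx)]
  rw [e]
  exact hg.indicator (measurable_snd (measurableSet_srcS t L))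

theorem measurable_gI1_term (b t : ℝ) (L d : ℕ) {Ω : Type*} [MeasurableSpace Ω]
    {g : Ω → Src → ℝ≥0∞} (hg : Measurable fun q : Ω × Src => g q.1 q.2) :
    Measurable fun q : Ω × (Ph × ℝ) => gw b q.2.1.2 *
      (srcS t L).indicator (g q.1) (q.2.2, q.2.1, d) := by
  have h1 : Measurable fun q : Ω × (Ph × ℝ) => ((q.1, (q.2.2, q.2.1, d)) : Ω × Src) :=
    measurable_fst.prodMk (measurable_snd.snd.prodMk (measurable_snd.fst.prodMk measurable_const))
  have h2 := (measurable_srcS_ind t L hg).comp h1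
  exact Measurable.mul ((measurable_gw b).comp measurable_snd.fst.snd) h2

/-- **Tonelli** for the weighted measure of the first exhaust. -/
theorem gI1_lintegral {Ω : Type*} [MeasurableSpace Ω] {P : Measure Ω} [SFinite P]
    {g : Ω → Src → ℝ≥0∞} (hg : Measurable fun q : Ω × Src => g q.1 q.2) :
    ∫⁻ c, gI1 b t t₁ L α (g c) ∂P = gI1 b t t₁ L α (fun e => ∫⁻ c, g c e ∂P) := by
  have hq : Measurable fun q : (Ω × Ph) × ℝ => ((q.1.1, (q.1.2, q.2)) : Ω × (Ph × ℝ)) :=
    measurable_fst.fst.prodMk (measurable_fst.snd.prodMk measurable_snd)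
  have m1 : ∀ d : ℕ, Measurable fun q : (Ω × Ph) × ℝ => gw b q.1.2.2 *
      (srcS t L).indicator (g q.1.1) (q.2, q.1.2, d) := by
    intro d
    have h := (measurable_gI1_term b t L d hg).comp hq
    simpa only [Function.comp_def] using h
  have m2 : ∀ d : ℕ, Measurable fun q : Ω × Ph => ∫⁻ σ in Icc (0 : ℝ) t₁, gw b q.2.2 *
      (srcS t L).indicator (g q.1) (σ, q.2, d) := fun d => (m1 d).lintegral_prod_right'
  have m3 : ∀ d : ℕ, Measurable fun c : Ω => ∫⁻ e : Ph, ∫⁻ σ in Icc (0 : ℝ) t₁, gw b e.2 *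
      (srcS t L).indicator (g c) (σ, e, d) := fun d => (m2 d).lintegral_prod_right'
  unfold gI1
  rw [lintegral_tsum fun d => (Measurable.tsum fun d' => (m3 _).const_mul _).aemeasurable]
  refine tsum_congr fun d => ?_
  rw [lintegral_tsum fun d' => ((m3 _).const_mul _).aemeasurable]
  refine tsum_congr fun d' => ?_
  rw [lintegral_const_mul _ (m3 _), lintegral_lintegral_swap (m2 _).aemeasurable]
  congr 1
  refine lintegral_congr fun e => ?_
  have m4 : Measurable fun q : Ω × ℝ => gw b e.2 *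
      (srcS t L).indicator (g q.1) (q.2, e, max d d' + 1) := by
    have hr : Measurable fun q : Ω × ℝ => (((q.1, e), q.2) : (Ω × Ph) × ℝ) :=
      (measurable_fst.prodMk measurable_const).prodMk measurable_snd
    have h := (m1 (max d d' + 1)).comp hr
    simpa only [Function.comp_def] using h
  rw [lintegral_lintegral_swap m4.aemeasurable]
  refine lintegral_congr fun σ => ?_
  rw [lintegral_const_mul' _ _ (by unfold gw; exact ENNReal.ofReal_ne_top)]
  congr 1
  by_cases hs : (σ, e, max d d' + 1) ∈ srcS t L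
  · simp only [indicator_of_mem hs]
  · simp only [indicator_of_notMem hs, lintegral_zero]

theorem measurable_gI1 {Ω : Type*} [MeasurableSpace Ω] {g : Ω → Src → ℝ≥0∞}
    (hg : Measurable fun q : Ω × Src => g q.1 q.2) :
    Measurable fun c => gI1 b t t₁ L α (g c) := by
  have hq : Measurable fun q : (Ω × Ph) × ℝ => ((q.1.1, (q.1.2, q.2)) : Ω × (Ph × ℝ)) :=
    measurable_fst.fst.prodMk (measurable_fst.snd.prodMk measurable_snd)
  have m1 : ∀ d : ℕ, Measurable fun q : (Ω × Ph) × ℝ => gw b q.1.2.2 *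
      (srcS t L).indicator (g q.1.1) (q.2, q.1.2, d) := by
    intro d
    have h := (measurable_gI1_term b t L d hg).comp hq
    simpa only [Function.comp_def] using h
  have m2 : ∀ d : ℕ, Measurable fun q : Ω × Ph => ∫⁻ σ in Icc (0 : ℝ) t₁, gw b q.2.2 *
      (srcS t L).indicator (g q.1) (σ, q.2, d) := fun d => (m1 d).lintegral_prod_right'
  have m3 : ∀ d : ℕ, Measurable fun c : Ω => ∫⁻ e : Ph, ∫⁻ σ in Icc (0 : ℝ) t₁, gw b e.2 *
      (srcS t L).indicator (g c) (σ, e, d) := fun d => (m2 d).lintegral_prod_right'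
  unfold gI1
  exact Measurable.tsum fun d => Measurable.tsum fun d' => (m3 _).const_mul _

/-- The time integral is over `[0, t]`. -/
theorem gI1_term_le (hbβ : b' ≤ b) (d : ℕ) {g : Src → ℝ≥0∞}
    (hg : Measurable g) :
    ∫⁻ e : Ph, ∫⁻ σ in Icc (0 : ℝ) t₁, gw b e.2 * (srcS t L).indicator g (σ, e, d) ≤
      ∫⁻ σ in Icc (0 : ℝ) t, ∫⁻ e : Ph, gw b' e.2 * (if d ≤ L then g (σ, e, d) else 0) := by
  have m1 : Measurable fun q : Ph × ℝ => ((q.2, q.1, d) : Src) :=
    measurable_snd.prodMk (measurable_fst.prodMk measurable_const)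
  have m2 : Measurable fun q : Ph × ℝ => gw b q.1.2 * (srcS t L).indicator g (q.2, q.1, d) :=
    Measurable.mul ((measurable_gw b).comp measurable_fst.snd)
      ((hg.indicator (measurableSet_srcS t L)).comp m1)
  rw [lintegral_lintegral_swap m2.aemeasurable, ← lintegral_indicator measurableSet_Icc,
    ← lintegral_indicator measurableSet_Icc]
  refine lintegral_mono fun σ => ?_
  by_cases hσ : σ ∈ Icc 0 t₁
  swap
  · rw [indicator_of_notMem hσ]; exact zero_le
  rw [indicator_of_mem hσ]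
  by_cases hσ2 : σ ∈ Icc 0 t
  · rw [indicator_of_mem hσ2]
    refine lintegral_mono fun e => mul_le_mul' (gw_anti hbβ e.2) ?_
    by_cases hs : (σ, e, d) ∈ srcS t L
    · rw [indicator_of_mem hs, if_pos hs.2.2]
    · rw [indicator_of_notMem hs]; exact zero_le
  · rw [indicator_of_notMem hσ2]
    refine le_of_eq ?_
    have h1 : ∀ e : Ph, gw b e.2 * (srcS t L).indicator g (σ, e, d) = 0 := fun e => by
      have h2 : (σ, e, d) ∉ srcS t L := fun h => hσ2 ⟨h.1.le, h.2.1⟩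
      rw [indicator_of_notMem h2, mul_zero]
    simp only [h1, lintegral_zero]

/-- **The weighted measure of the first exhaust is bounded by the norm.** -/
theorem gI1_le_Nm {l₁ l₂ Q : ℝ} {αP a m : ℕ → ℝ} (hb : 0 < b') (hbβ : b' ≤ b) (hT : 0 < T)
    (htT : t ≤ T) (h₁ : 0 ≤ l₁) (h₂ : 0 ≤ l₂) (hw : Wts αP a Q)
    (hm0 : ∀ n, 0 ≤ m n) (hm : ∀ n : ℕ, m n * √((n : ℝ) + 1) ≤ αP n) {g : Src → ℝ≥0∞}
    (hg : Measurable g) :
    gI1 b t t₁ L (fun n => ENNReal.ofReal (m n)) g ≤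
      ENNReal.ofReal (T * Q ^ 2) * Nm b' T l₁ l₂ a t g := by
  have ha := hw.apos
  have h1 : ∀ d : ℕ, ∫⁻ e : Ph, ∫⁻ σ in Icc (0 : ℝ) t₁, gw b e.2 *
      (srcS t L).indicator g (σ, e, d) ≤
      ENNReal.ofReal T * (ENNReal.ofReal (1 / a d) * Nm b' T l₁ l₂ a t g) := by
    intro d
    have e1 : ∀ σ ∈ Icc (0 : ℝ) t, ∫⁻ e : Ph, gw b' e.2 * (if d ≤ L then g (σ, e, d) else 0) ≤
        ENNReal.ofReal (1 / a d) * Nm b' T l₁ l₂ a t g := by
      intro σ hσ
      calc ∫⁻ e : Ph, gw b' e.2 * (if d ≤ L then g (σ, e, d) else 0) ≤ PB.Y b' T g σ d := by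
            unfold PB.Y
            refine lintegral_mono fun z => mul_le_mul' (gw_anti (bt_le hb hT hσ.1) _) ?_
            split_ifs
            · exact le_rfl
            · exact zero_le
        _ ≤ ENNReal.ofReal (1 / wgt l₁ l₂ a σ d) * Nm b' T l₁ l₂ a t g := Y_le_Nm ha hσ d g
        _ ≤ _ := mul_le_mul' (ENNReal.ofReal_le_ofReal
            (one_div_le_one_div_of_le (ha d) (wgt_ge ha h₁ h₂ hσ.1 d))) le_rfl
    refine (gI1_term_le hbβ d hg).trans ((setLIntegral_mono' measurableSet_Icc e1).trans ?_)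
    rw [setLIntegral_const, Real.volume_Icc, sub_zero, mul_comm]
    exact mul_le_mul' (ENNReal.ofReal_le_ofReal htT) le_rfl
  unfold gI1
  calc ∑' d, ∑' d', ENNReal.ofReal (m d) * ENNReal.ofReal (m d') * ∫⁻ e : Ph,
        ∫⁻ σ in Icc (0 : ℝ) t₁, gw b e.2 * (srcS t L).indicator g (σ, e, max d d' + 1)
      ≤ ∑' d, ∑' d', ENNReal.ofReal (m d) * ENNReal.ofReal (m d') *
        (ENNReal.ofReal T * (ENNReal.ofReal (1 / a (max d d' + 1)) *
          Nm b' T l₁ l₂ a t g)) :=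
        ENNReal.tsum_le_tsum fun d => ENNReal.tsum_le_tsum fun d' => mul_le_mul' le_rfl (h1 _)
    _ = ∑' d, ∑' d', ENNReal.ofReal (m d * m d' / a (max d d' + 1)) *
        (ENNReal.ofReal T * Nm b' T l₁ l₂ a t g) := by
        refine tsum_congr fun d => tsum_congr fun d' => ?_
        rw [div_eq_mul_one_div (m d * m d'), ENNReal.ofReal_mul (mul_nonneg (hm0 d) (hm0 d')),
          ENNReal.ofReal_mul (hm0 d)]
        ring
    _ = (∑' d, ∑' d', ENNReal.ofReal (m d * m d' / a (max d d' + 1))) *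
        (ENNReal.ofReal T * Nm b' T l₁ l₂ a t g) := by
        simp_rw [ENNReal.tsum_mul_right]
    _ ≤ ENNReal.ofReal (Q ^ 2) * (ENNReal.ofReal T * Nm b' T l₁ l₂ a t g) :=
        mul_le_mul' (SC.Wts_pair_le hw hm hm0) le_rfl
    _ = _ := by
        rw [ENNReal.ofReal_mul hT.le]
        ring

/-- **The weighted measure of the first exhaust and the flux of the touching lines.** -/
theorem gI1_TE_le {hΦ : IsPotential Φ} {hε : 0 < ε} {η : ℝ} {V : Finset Src} {g₀ : Src → ℝ≥0∞}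
    (hgm : Measurable g₀) (hg1 : ∀ e, g₀ e ≤ 1) :
    gI1 b t t₁ L α (fun e => g₀ e * gTE L hΦ hε η t V e) ≤
      (∑' d, α d) ^ 2 * (ENNReal.ofReal t * sTE L hΦ hε b η t V) := by
  have hTm : Measurable fun e => gTE L hΦ hε η t V e :=
    measurable_ind (measurableSet_TE (rs_const V) measurable_const measurable_const
      measurable_id)
  have h1 : ∀ d : ℕ, ∫⁻ e : Ph, ∫⁻ σ in Icc (0 : ℝ) t₁, gw b e.2 *
      (srcS t L).indicator (fun e => g₀ e * gTE L hΦ hε η t V e) (σ, e, d) ≤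
      ENNReal.ofReal t * sTE L hΦ hε b η t V := by
    intro d
    refine (gI1_term_le le_rfl d (hgm.mul hTm)).trans
      ((setLIntegral_mono' measurableSet_Icc (g := fun _ => sTE L hΦ hε b η t V)
        fun σ hσ => ?_).trans ?_)
    · by_cases hd : d ≤ L
      · simp only [if_pos hd]
        refine le_trans (lintegral_mono fun e => mul_le_mul' le_rfl ?_) (le_sTE V hσ hd)
        exact (mul_le_mul' (hg1 _) le_rfl).trans (one_mul _).le
      · simp only [if_neg hd, mul_zero, lintegral_zero]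
        exact zero_le
    · rw [setLIntegral_const, Real.volume_Icc, sub_zero, mul_comm]
  unfold gI1
  refine (ENNReal.tsum_le_tsum fun d => ENNReal.tsum_le_tsum fun d' =>
    mul_le_mul' le_rfl (h1 _)).trans (le_of_eq ?_)
  simp_rw [ENNReal.tsum_mul_right, ENNReal.tsum_mul_left, ENNReal.tsum_mul_right]
  ring

/-! ### The typical laws -/

/-- **The typical laws are laws with lines and depths.** -/
theorem _root_.Vale.Agent.P119.PB.TypLaw.ldLaw {m : ℕ → ℝ} {Θ : Measure CTree} (hT : 0 ≤ T)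
    [SFinite (EX.dmeas m)]
    (h : TypLaw Φ ε b T m Θ) :
    LDLaw Φ ε b (ENNReal.ofReal (1 + T)) (fun n => ENNReal.ofReal (m n)) Θ := by
  intro F hF
  have h1 : Measurable fun σ : Src => F (σ.2.1, σ.2.2) :=
    hF.comp (measurable_snd.fst.prodMk measurable_snd.snd)
  have h2 := h.le (fun σ => F (σ.2.1, σ.2.2)) h1
  refine (le_of_eq ?_).trans (h2.trans (le_of_eq ?_))
  · rfl
  · rw [EX.lintegral_refM b T _ h1]
    simp only [EX.lintegral_dmeas]
    rw [lintegral_const, EX.tm_univ hT]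
    have hFn : ∀ n : ℕ, Measurable fun z : Ph => F (z, n) := fun n =>
      hF.comp (measurable_id.prodMk measurable_const)
    have hg : ∀ n : ℕ, Measurable fun z : Ph => gw b z.2 * F (z, n) := fun n =>
      ((measurable_gw b).comp measurable_snd).mul (hFn n)
    have e1 : ∫⁻ z : Ph, gw b z.2 * ∑' n, ENNReal.ofReal (m n) * F (z, n) =
        ∑' n, ENNReal.ofReal (m n) * ∫⁻ z : Ph, gw b z.2 * F (z, n) := by
      have e2 : ∀ z : Ph, gw b z.2 * ∑' n, ENNReal.ofReal (m n) * F (z, n) =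
          ∑' n, ENNReal.ofReal (m n) * (gw b z.2 * F (z, n)) := by
        intro z
        rw [← ENNReal.tsum_mul_left]
        refine tsum_congr fun n => ?_
        ring
      simp_rw [e2]
      rw [lintegral_tsum fun n => ((hg n).const_mul _).aemeasurable]
      refine tsum_congr fun n => ?_
      rw [lintegral_const_mul _ (hg n)]
    have e3 : ∀ n : ℕ, ∫⁻ z : Ph, muE ε * gw b z.2 * F (z, n) =
        muE ε * ∫⁻ z : Ph, gw b z.2 * F (z, n) := by
      intro n
      rw [← lintegral_const_mul' _ _ muE_ne_top]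
      refine lintegral_congr fun z => ?_
      ring
    rw [e1]
    simp_rw [e3]
    have e4 : ∀ n : ℕ, ENNReal.ofReal (m n) * (muE ε * ∫⁻ z : Ph, gw b z.2 * F (z, n)) =
        muE ε * (ENNReal.ofReal (m n) * ∫⁻ z : Ph, gw b z.2 * F (z, n)) := fun n => by ring
    simp_rw [e4]
    rw [ENNReal.tsum_mul_left]
    ring

end Vale.Agent.P119.FL
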