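import Vale.Agent.P119.FL.LawC5
import Vale.Agent.P119.PB.TrickB
import Vale.Agent.P119.PB.TEG
import Vale.Agent.P119.PB.Par
import Vale.Agent.P119.PB.Op9

/-!
# P119: law C, the expectation of the main terms (`helper690`)

* `lamC_gas`: the iterates of the sources of the second events, with a set of first exhausts;
* `lamC_Mn`: the main terms `Mn6` (no window: `u = 0`);
* **`lawC_Mn6`**: the main terms are bounded by the norm of the probability of the first touch.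
-/

open MeasureTheory Set Filter Topology Metric ProbabilityTheory
open scoped ENNReal

noncomputable section

namespace Vale.Agent.P119.FL

open KU M M.CTree RB EN PB AU Cap

variable {Φ : E3 → ℝ} {ε b b' t t₁ δ T η w κ : ℝ} {K : ℝ≥0∞} {α : ℕ → ℝ≥0∞} {L q : ℕ}
  {f₀ : Ph → ℝ} {G : Set Src}

/-! ### The small factor -/

theorem gv_of_excl {c : GC.Conf Ph} (hc : c.2 ∈ excl ε c.1) : GV ε (wS (GC.pts c)) where
  birth _ ha := wS_birth0 ha
  excl a ha a' ha' hne := wS_excl hc a ha a' ha' hne (wS_birth0 ha) (wS_birth0 ha')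

/-- The constant of the small factor. -/
def cTC (B T : ℝ) : ℝ := 2 * (2 * cDD B 1 * T + (1 + T))

theorem cTC_nonneg {B : ℝ} (hB : 0 ≤ B) (hT : 0 ≤ T) : 0 ≤ cTC B T := by
  have := cDD_nonneg hB 1
  unfold cTC
  positivity

theorem dF_wV_le {B : ℝ} (hB : 0 ≤ B) (hε : 0 < ε) (hε1 : ε ≤ 1) (hδ : 0 < δ) (hη : 0 < η)
    (ht : 0 ≤ t) (htT : t ≤ T) (V : Finset Src) :
    dF ε δ (2 * wV B ε η t V) ≤ 4 * ENNReal.ofReal (1 / δ ^ 3) *
      (((V.card : ℝ≥0∞) + 1) * ENNReal.ofReal ε ^ 3) +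
      ENNReal.ofReal (cTC B T * (η / δ ^ 3) + δ) := by
  have hc := cDD_nonneg hB 1
  have e2 : ENNReal.ofReal (ε ^ 2) = ENNReal.ofReal ε ^ 2 := ENNReal.ofReal_pow hε.le 2
  have hT : 0 ≤ T := ht.trans htT
  have e3 : ENNReal.ofReal (ε ^ 2) * ENNReal.ofReal (η * mu ε) = ENNReal.ofReal η := by
    rw [← ENNReal.ofReal_mul (by positivity)]
    congr 1
    unfold mu
    field_simp
  have e4 : 2 * ENNReal.ofReal (2 * cDD B 1 * t + (ε + t)) * ENNReal.ofReal η *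
      ENNReal.ofReal (1 / δ ^ 3) ≤ ENNReal.ofReal (cTC B T * (η / δ ^ 3)) := by
    have h2 : (2 : ℝ≥0∞) = ENNReal.ofReal 2 := by norm_num
    rw [h2, ← ENNReal.ofReal_mul (by norm_num), ← ENNReal.ofReal_mul (by positivity),
      ← ENNReal.ofReal_mul (by positivity)]
    apply ENNReal.ofReal_le_ofReal
    unfold cTC
    have h3 : 2 * (2 * cDD B 1 * t + (ε + t)) ≤ 2 * (2 * cDD B 1 * T + (1 + T)) := by
      have h4 : cDD B 1 * t ≤ cDD B 1 * T := mul_le_mul_of_nonneg_left htT hc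
      nlinarith
    calc 2 * (2 * cDD B 1 * t + (ε + t)) * η * (1 / δ ^ 3)
        = 2 * (2 * cDD B 1 * t + (ε + t)) * (η / δ ^ 3) := by ring
      _ ≤ _ := mul_le_mul_of_nonneg_right h3 (by positivity)
  unfold dF wV
  calc ENNReal.ofReal (ε ^ 2) * (2 * (2 * (((V.card : ℝ≥0∞) + 1) * ENNReal.ofReal ε) +
        ENNReal.ofReal (2 * cDD B 1 * t + (ε + t)) * ENNReal.ofReal (η * mu ε))) *
        ENNReal.ofReal (1 / δ ^ 3) + ENNReal.ofReal δ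
      = 4 * ENNReal.ofReal (1 / δ ^ 3) * (((V.card : ℝ≥0∞) + 1) *
        (ENNReal.ofReal (ε ^ 2) * ENNReal.ofReal ε)) +
        (2 * ENNReal.ofReal (2 * cDD B 1 * t + (ε + t)) *
          (ENNReal.ofReal (ε ^ 2) * ENNReal.ofReal (η * mu ε)) * ENNReal.ofReal (1 / δ ^ 3) +
          ENNReal.ofReal δ) := by ring
    _ ≤ _ := by
        rw [e3, e2, ENNReal.ofReal_add (mul_nonneg (cTC_nonneg hB hT) (by positivity)) hδ.le]
        refine add_le_add (le_of_eq (by ring)) (add_le_add e4 le_rfl)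

/-! ### The expectation of one iterate -/

theorem measurable_indG (hG : MeasurableSet G) : Measurable fun e : Src => ind (e ∈ G) :=
  measurable_ind hG

theorem measurable_TEc {hΦ : IsPotential Φ} {hε : 0 < ε} : Measurable fun q : GC.Conf Ph × Src =>
    gTE L hΦ hε η t (wS (GC.pts q.1)) q.2 :=
  measurable_ind (measurableSet_TE (MM.RS.comp RM.rs_conf measurable_fst) measurable_const
    measurable_const measurable_snd)

theorem measurable_gG {hΦ : IsPotential Φ} {hε : 0 < ε} (hG : MeasurableSet G) :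
    Measurable fun q : GC.Conf Ph × Src =>
      ind (q.2 ∈ G) * gTE L hΦ hε η t (wS (GC.pts q.1)) q.2 :=
  ((measurable_indG hG).comp measurable_snd).mul measurable_TEc

theorem lintegral_gG {hΦ : IsPotential Φ} {hε : 0 < ε} (e : Src) :
    ∫⁻ c, ind (e ∈ G) * gTE L hΦ hε η t (wS (GC.pts c)) e ∂(GC.PP f₀ ε) =
      ind (e ∈ G) * tE6 L hΦ hε f₀ η t e := by
  rw [lintegral_const_mul' _ _ ((ind_le_one _).trans_lt ENNReal.one_lt_top).ne]
  rfl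

/-- The expectation of the bound over a fixed world. -/
theorem lintegral_dF_gI1 (h₀ : GoodDatum f₀ κ) {B : ℝ} (hB : 0 ≤ B) {hΦ : IsPotential Φ}
    {hε : 0 < ε} (hε1 : ε ≤ 1) (hδ : 0 < δ) (hη : 0 < η) (ht : 0 ≤ t) (htT : t ≤ T)
    (hα : ∑' n, α n ≠ ∞) (hG : MeasurableSet G) {X : ℝ≥0∞} (hX : X ≠ ∞) :
    ∫⁻ c, dF ε δ (2 * wV B ε η t (wS (GC.pts c))) * (X *
        gI1 b t t₁ L α (fun e => ind (e ∈ G) * gTE L hΦ hε η t (wS (GC.pts c)) e))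
        ∂(GC.PP f₀ ε) ≤
      X * ((4 * ENNReal.ofReal (1 / δ ^ 3) * (∑' n, α n) ^ 2 * ENNReal.ofReal T) *
        ∫⁻ c, (((wS (GC.pts c)).card : ℝ≥0∞) + 1) * ENNReal.ofReal ε ^ 3 *
          sTE L hΦ hε b η t (wS (GC.pts c)) ∂(GC.PP f₀ ε)) +
      X * (ENNReal.ofReal (cTC B T * (η / δ ^ 3) + δ) *
        gI1 b t t₁ L α (fun e => ind (e ∈ G) * tE6 L hΦ hε f₀ η t e)) := by
  have := GC.isProbability_PP (ε := ε) h₀
  set Y₁ : ℝ≥0∞ := 4 * ENNReal.ofReal (1 / δ ^ 3) with hY₁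
  set Y₂ : ℝ≥0∞ := ENNReal.ofReal (cTC B T * (η / δ ^ 3) + δ) with hY₂
  have hY₁t : Y₁ ≠ ∞ := ENNReal.mul_ne_top (by norm_num) ENNReal.ofReal_ne_top
  set gi : GC.Conf Ph → ℝ≥0∞ := fun c =>
    gI1 b t t₁ L α (fun e => ind (e ∈ G) * gTE L hΦ hε η t (wS (GC.pts c)) e) with hgi
  set s : GC.Conf Ph → ℝ≥0∞ := fun c => (((wS (GC.pts c)).card : ℝ≥0∞) + 1) *
    ENNReal.ofReal ε ^ 3 * sTE L hΦ hε b η t (wS (GC.pts c)) with hs
  have hgm : Measurable fun q : GC.Conf Ph × Src =>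
      ind (q.2 ∈ G) * gTE L hΦ hε η t (wS (GC.pts q.1)) q.2 := measurable_gG hG
  have hint : ∫⁻ c, gi c ∂(GC.PP f₀ ε) =
      gI1 b t t₁ L α (fun e => ind (e ∈ G) * tE6 L hΦ hε f₀ η t e) := by
    rw [hgi, gI1_lintegral hgm]
    congr 1
    funext e
    exact lintegral_gG e
  have hgim : Measurable gi := measurable_gI1 hgm
  have hpt : ∀ c, dF ε δ (2 * wV B ε η t (wS (GC.pts c))) * (X * gi c) ≤
      (X * (Y₁ * (∑' n, α n) ^ 2 * ENNReal.ofReal T)) * s c + X * (Y₂ * gi c) := by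
    intro c
    have h1 := dF_wV_le hB hε hε1 hδ hη ht htT (wS (GC.pts c))
    have h2 : gi c ≤ (∑' d, α d) ^ 2 * (ENNReal.ofReal T * sTE L hΦ hε b η t (wS (GC.pts c))) :=
      (gI1_TE_le (measurable_indG hG) fun e => ind_le_one _).trans
        (mul_le_mul' le_rfl (mul_le_mul' (ENNReal.ofReal_le_ofReal htT) le_rfl))
    calc dF ε δ (2 * wV B ε η t (wS (GC.pts c))) * (X * gi c)
        ≤ (Y₁ * ((((wS (GC.pts c)).card : ℝ≥0∞) + 1) * ENNReal.ofReal ε ^ 3) + Y₂) *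
          (X * gi c) := mul_le_mul' h1 le_rfl
      _ = Y₁ * ((((wS (GC.pts c)).card : ℝ≥0∞) + 1) * ENNReal.ofReal ε ^ 3) * (X * gi c) +
          X * (Y₂ * gi c) := by ring
      _ ≤ Y₁ * ((((wS (GC.pts c)).card : ℝ≥0∞) + 1) * ENNReal.ofReal ε ^ 3) *
          (X * ((∑' d, α d) ^ 2 * (ENNReal.ofReal T * sTE L hΦ hε b η t (wS (GC.pts c))))) +
          X * (Y₂ * gi c) := by gcongr
      _ = _ := by
          rw [hs]
          ring
  refine (lintegral_mono hpt).trans ?_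
  have hm2 : Measurable fun c => X * (Y₂ * gi c) := (hgim.const_mul _).const_mul _
  have hC : X * (Y₁ * (∑' n, α n) ^ 2 * ENNReal.ofReal T) ≠ ∞ :=
    ENNReal.mul_ne_top hX (ENNReal.mul_ne_top (ENNReal.mul_ne_top hY₁t (ENNReal.pow_ne_top hα))
      ENNReal.ofReal_ne_top)
  rw [lintegral_add_right _ hm2, lintegral_const_mul' _ _ hC,
    lintegral_const_mul _ (hgim.const_mul _), lintegral_const_mul _ hgim, hint]
  exact le_of_eq (by ring)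

/-! ### The iterates -/

/-- **One iterate of the sources of the second events.** -/
theorem lamC_gas (hbb : b / 2 ≤ b') (h₀ : GoodDatum f₀ κ) {hΦ : IsPotential Φ} {hε : 0 < ε}
    (hε1 : ε ≤ 1) (hb : 0 < b) (hδ : 0 < δ) (hη : 0 < η) (ht : 0 ≤ t) (htT : t ≤ T)
    (htt : t < t₁) {B : ℝ} (hB : RW.StableWith Φ B) (hα : ∑' n, α n ≠ ∞)
    (hG : MeasurableSet G) (w : ℝ) (j : ℕ) {a : ℕ → ℝ≥0∞} (ha : ∑' n, a n ≠ ∞)
    (hc : cBr b t t₁ K α q ≠ ∞) :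
    ∫⁻ p in {p : Src × Src | p.1 ∈ G},
      Gc hΦ hε.ne' b' t₁ j (F6 L hΦ hε f₀ b' a η t w 0 p.1) p.2.1 p.2.2.1
        ∂(lamC hΦ hε.ne' b t K α L q) ≤
      cG hΦ b t₁ (∑' n, a n) j * (cBr b t t₁ K α q * hI2 α fun _ => 1) *
        ((4 * ENNReal.ofReal (1 / δ ^ 3) * (∑' n, α n) ^ 2 * ENNReal.ofReal T) *
          (∫⁻ c, (((wS (GC.pts c)).card : ℝ≥0∞) + 1) * ENNReal.ofReal ε ^ 3 *
            sTE L hΦ hε (b / 4) η t (wS (GC.pts c)) ∂(GC.PP f₀ ε)) +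
        ENNReal.ofReal (cTC B T * (η / δ ^ 3) + δ) *
          gI1 (b / 4) t t₁ L α (fun e => ind (e ∈ G) * tE6 L hΦ hε f₀ η t e)) := by
  have hGm : MeasurableSet {p : Src × Src | p.1 ∈ G} := measurable_fst hG
  set X : ℝ≥0∞ := cG hΦ b t₁ (∑' n, a n) j * (cBr b t t₁ K α q * hI2 α fun _ => 1) with hX
  have hI2t : hI2 α (fun _ => 1) ≠ ∞ := by
    unfold hI2
    simp_rw [mul_one, ENNReal.tsum_mul_left, ENNReal.tsum_mul_right]
    exact ENNReal.mul_ne_top hα hα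
  have hXt : X ≠ ∞ := ENNReal.mul_ne_top (cG_ne_top hΦ b t₁ ha j) (ENNReal.mul_ne_top hc hI2t)
  rw [lam_main_eq (lam := (lamC hΦ hε.ne' b t K α L q).restrict {p : Src × Src | p.1 ∈ G})
    h₀ (u := fun _ => 0) measurable_const j]
  refine le_trans ?_ ((lintegral_dF_gI1 (b := b / 4) (t₁ := t₁) (L := L) (α := α) h₀ hB.1
    (hΦ := hΦ) (hε := hε) hε1 hδ hη ht htT hα hG hXt).trans (le_of_eq (by ring)))
  refine lintegral_mono_ae ?_
  filter_upwards [GC.ae_excl f₀ ε] with c hc'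
  have h1 := lamC_mainG (δ := δ) (K := K) (α := α) (q := q) (L := L) hbb hΦ hε hε1 hb hδ ht htt
    hB (gv_of_excl hc') hη w j a (measurable_indG hG) fun e => ind_le_one _
  rw [← lintegral_indicator hGm]
  refine le_trans (lintegral_mono fun p => ?_) (h1.trans (le_of_eq (by rw [hX]; ring)))
  by_cases hp : p.1 ∈ G
  · rw [indicator_of_mem (show p ∈ {p : Src × Src | p.1 ∈ G} from hp), ind_of hp, one_mul]
  · rw [indicator_of_notMem (show p ∉ {p : Src × Src | p.1 ∈ G} from hp)]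
    exact zero_le

/-- **The main terms**, for the law of two branches and a set of first exhausts. -/
theorem lamC_Mn (hbb : b / 2 ≤ b') (h₀ : GoodDatum f₀ κ) {hΦ : IsPotential Φ} {hε : 0 < ε}
    (hε1 : ε ≤ 1) (hb : 0 < b) (hδ : 0 < δ) (hη : 0 < η) (ht : 0 ≤ t) (htT : t ≤ T)
    (htt : t < t₁) {B : ℝ} (hB : RW.StableWith Φ B) (hα : ∑' n, α n ≠ ∞)
    (hG : MeasurableSet G) (w : ℝ) (J : ℕ) {a : ℕ → ℝ≥0∞} (ha : ∑' n, a n ≠ ∞)
    (hc : cBr b t t₁ K α q ≠ ∞) :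
    ∫⁻ p, ind (p.1 ∈ G) * Mn6 L hΦ hε f₀ b' a η t w 0 t₁ J p.1 p.2
        ∂(lamC hΦ hε.ne' b t K α L q) ≤
      (∑' j, (∑' n, a n) ^ j * cG hΦ b t₁ (∑' n, a n) j) *
        ((cBr b t t₁ K α q * hI2 α fun _ => 1) *
        ((4 * ENNReal.ofReal (1 / δ ^ 3) * (∑' n, α n) ^ 2 * ENNReal.ofReal T) *
          (∫⁻ c, (((wS (GC.pts c)).card : ℝ≥0∞) + 1) * ENNReal.ofReal ε ^ 3 *
            sTE L hΦ hε (b / 4) η t (wS (GC.pts c)) ∂(GC.PP f₀ ε)) +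
        ENNReal.ofReal (cTC B T * (η / δ ^ 3) + δ) *
          gI1 (b / 4) t t₁ L α (fun e => ind (e ∈ G) * tE6 L hΦ hε f₀ η t e))) +
      (∑' n, a n) ^ J * cRem b t₁ J * (cMas b t t₁ K α q * (hI2 α (fun _ => 1) *
        gI1 (b / 4) t t₁ L α (fun e => ind (e ∈ G) * tE6 L hΦ hε f₀ η t e))) := by
  have hGm : MeasurableSet {p : Src × Src | p.1 ∈ G} := measurable_fst hG
  have hpt : ∀ p : Src × Src, ind (p.1 ∈ G) * Mn6 L hΦ hε f₀ b' a η t w 0 t₁ J p.1 p.2 =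
      {p : Src × Src | p.1 ∈ G}.indicator
        (fun p => Mn6 L hΦ hε f₀ b' a η t w 0 t₁ J p.1 p.2) p := by
    intro p
    by_cases hp : p.1 ∈ G
    · rw [indicator_of_mem (show p ∈ {p : Src × Src | p.1 ∈ G} from hp), ind_of hp, one_mul]
    · rw [indicator_of_notMem (show p ∉ {p : Src × Src | p.1 ∈ G} from hp), ind_of_not hp,
        zero_mul]
  simp_rw [hpt]
  rw [lintegral_indicator hGm]
  unfold Mn6
  have m1 : ∀ j, Measurable fun p : Src × Src =>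
      Gc hΦ hε.ne' b' t₁ j (F6 L hΦ hε f₀ b' a η t w 0 p.1) p.2.1 p.2.2.1 := fun j =>
    measurable_Gc_F6 h₀ (u := fun _ => 0) measurable_const j
  rw [lintegral_add_left (Finset.measurable_sum _ fun j _ => (m1 j).const_mul _),
    lintegral_finsetSum _ fun j _ => (m1 j).const_mul _]
  refine add_le_add ?_ ?_
  · rw [← ENNReal.tsum_mul_right]
    refine le_trans ?_ (ENNReal.sum_le_tsum (Finset.range J))
    refine Finset.sum_le_sum fun j _ => ?_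
    rw [lintegral_const_mul _ (m1 j)]
    refine (mul_le_mul' le_rfl (lamC_gas hbb h₀ hε1 hb hδ hη ht htT htt hB hα hG w j ha
      hc)).trans (le_of_eq ?_)
    ring
  · have mT : Measurable fun e : Src => ind (e ∈ G) * tE6 L hΦ hε f₀ η t e :=
      (measurable_indG hG).mul (measurable_tE6' h₀)
    rw [lintegral_const_mul _ (measurable_Gc_tE6 h₀ J), mul_assoc]
    refine mul_le_mul' le_rfl ?_
    have h1 := lamC_rem (K := K) (α := α) (q := q) (L := L) hbb hΦ hε hε1 hb ht htt.le J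
      (g := fun e => ind (e ∈ G) * tE6 L hΦ hε f₀ η t e)
      (fun e _ => ENNReal.mul_ne_top ((ind_le_one _).trans_lt ENNReal.one_lt_top).ne
        ((tE6_le_one h₀).trans_lt ENNReal.one_lt_top).ne) mT (h := fun _ => 1)
      (fun _ => ENNReal.one_ne_top)
    refine le_trans (le_of_eq ?_) h1
    rw [← lintegral_indicator hGm]
    refine lintegral_congr fun p => ?_
    rw [one_mul]
    by_cases hp : p.1 ∈ G
    · rw [indicator_of_mem (show p ∈ {p : Src × Src | p.1 ∈ G} from hp), ind_of hp, one_mul,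
        Gc_const]
    · rw [indicator_of_notMem (show p ∉ {p : Src × Src | p.1 ∈ G} from hp), ind_of_not hp,
        zero_mul, zero_mul]

theorem tsum_cG_ne_top (hΦ : IsPotential Φ) (ht₁ : 0 ≤ t₁) {M : ℝ≥0∞} (hM : M ≠ ∞) :
    ∑' j, M ^ j * cG hΦ b t₁ M j ≠ ∞ := by
  have h1 : ∀ j, M ^ j * cG hΦ b t₁ M j = 2 * ((3 * M) ^ j * jF (b / 2) 1 t₁ (t₁ + 1) j) +
      2 * ((3 * M) ^ j * M * jF (b / 2) (cS hΦ) t₁ (t₁ + 1) (j + 1)) := by
    intro j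
    unfold cG
    rw [mul_pow]
    ring
  have h3 : 3 * M ≠ ∞ := ENNReal.mul_ne_top (by norm_num) hM
  have h2 : ∀ j, (3 * M) ^ j * M * jF (b / 2) (cS hΦ) t₁ (t₁ + 1) (j + 1) ≤
      (3 * M) ^ (j + 1) * jF (b / 2) (cS hΦ) t₁ (t₁ + 1) (j + 1) := by
    intro j
    rw [pow_succ]
    gcongr
    exact le_mul_of_one_le_left zero_le (by norm_num)
  simp_rw [h1]
  rw [ENNReal.tsum_add, ENNReal.tsum_mul_left, ENNReal.tsum_mul_left]
  refine ENNReal.add_ne_top.2 ⟨ENNReal.mul_ne_top (by norm_num)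
    (tsum_jF_ne_top ht₁ (by linarith) h3), ENNReal.mul_ne_top (by norm_num) ?_⟩
  refine ne_top_of_le_ne_top (tsum_jF_ne_top (b := b / 2) (c₁ := cS hΦ) ht₁
    (by linarith : 0 ≤ t₁ + 1) h3) ((ENNReal.tsum_le_tsum h2).trans ?_)
  exact ENNReal.tsum_comp_le_tsum_of_injective (add_left_injective 1)
    fun j => (3 * M) ^ j * jF (b / 2) (cS hΦ) t₁ (t₁ + 1) j

theorem tsum_m_ne_top {b₀ b l₁ l₂ Q : ℝ} {m αP a : ℕ → ℝ} (hP : PB.Par T b₀ m b l₁ l₂ Q αP a) :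
    ∑' n, ENNReal.ofReal (m n) ≠ ∞ := by
  have h1 := dmeas_univ_ne_top hP.wts hP.m0 hP.succ_mul_le
  have h2 : EX.dmeas m univ = ∑' n, ENNReal.ofReal (m n) := by
    rw [← lintegral_one, EX.lintegral_dmeas]
    simp only [mul_one]
  rwa [h2] at h1

theorem par_sqrt {b₀ b l₁ l₂ Q : ℝ} {m αP a : ℕ → ℝ} (hP : PB.Par T b₀ m b l₁ l₂ Q αP a) (n : ℕ) :
    m n * √((n : ℝ) + 1) ≤ αP n := by
  refine le_trans ?_ (hP.succ_mul_le n)
  rw [mul_comm]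
  refine mul_le_mul_of_nonneg_right ?_ (hP.m0 n)
  rw [Real.sqrt_le_left (by positivity)]
  have : (0 : ℝ) ≤ n := Nat.cast_nonneg n
  nlinarith

theorem gI1_cut (g : Src → ℝ≥0∞) : gI1 b t t₁ L α g =
    gI1 b t t₁ L α fun e => if e.2.2 ≤ L then g e else 0 := by
  unfold gI1
  congr 1
  funext d
  congr 1
  funext d'
  congr 1
  refine lintegral_congr fun e => lintegral_congr fun σ => ?_
  congr 1
  by_cases hs : (σ, e, max d d' + 1) ∈ srcS t L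
  · rw [indicator_of_mem hs, indicator_of_mem hs, if_pos hs.2.2]
  · rw [indicator_of_notMem hs, indicator_of_notMem hs]

theorem measurable_cut (L : ℕ) {g : Src → ℝ≥0∞} (hg : Measurable g) :
    Measurable fun e : Src => if e.2.2 ≤ L then g e else 0 :=
  Measurable.ite (measurableSet_le measurable_snd.snd measurable_const) hg measurable_const

/-- **The main terms of law C.** -/
theorem lawC_Mn6 {b₀ b l₁ l₂ Q : ℝ} {m αP a : ℕ → ℝ} (hP : PB.Par T b₀ m b l₁ l₂ Q αP a)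
    (hΦ : IsPotential Φ) (h₀ : GoodDatum f₀ κ) {B : ℝ} (hB : RW.StableWith Φ B)
    (hm2 : m2 f₀ < ∞) (q : ℕ) {K : ℝ≥0∞} (hK : K ≠ ∞) {a' : ℕ → ℝ≥0∞} (ha' : ∑' n, a' n ≠ ∞) :
    ∃ C : ℝ, 0 ≤ C ∧ ∀ δ ∈ Ioc (0 : ℝ) 1, ∃ J₀ : ℕ, ∀ J ≥ J₀, ∀ L : ℕ, ∀ ρ : ℝ, 0 < ρ →
      ∀ᶠ ε in 𝓝[>] (0 : ℝ), ∀ hε : 0 < ε, ∀ η : ℝ, 0 < η → ∀ t ∈ Icc 0 T, ∀ w : ℝ,
      ∀ G : Set Src, MeasurableSet G →
        ∫⁻ p, ind (p.1 ∈ G) * Mn6 L hΦ hε f₀ (b₀ / 2) a' η t w 0 (T + 1) J p.1 p.2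
          ∂(lamC hΦ hε.ne' (b₀ / 2) t K (fun n => ENNReal.ofReal (m n)) L q) ≤
        ENNReal.ofReal (C * (η / δ ^ 3 + δ)) *
          Nm b T l₁ l₂ a t (fun σ => if σ.2.2 ≤ L then
            ind (σ ∈ G) * tE6 L hΦ hε f₀ η t σ else 0) +
        ENNReal.ofReal ρ := by
  have hT := hP.T0
  have hb₀ := hP.b₀0
  have hβ : 0 < b₀ / 2 := by positivity
  have hα := tsum_m_ne_top hP
  set α : ℕ → ℝ≥0∞ := fun n => ENNReal.ofReal (m n) with hαd
  have hT1 : 0 ≤ T + 1 := by linarith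
  set CG : ℝ≥0∞ := ∑' j, (∑' n, a' n) ^ j * cG hΦ (b₀ / 2) (T + 1) (∑' n, a' n) j with hCG
  have hCGt : CG ≠ ∞ := tsum_cG_ne_top hΦ hT1 ha'
  set H : ℝ≥0∞ := hI2 α fun _ => 1 with hH
  have hHt : H ≠ ∞ := by
    rw [hH]
    unfold hI2
    simp_rw [mul_one, ENNReal.tsum_mul_left, ENNReal.tsum_mul_right]
    exact ENNReal.mul_ne_top hα hα
  set CB : ℝ≥0∞ := cBr (b₀ / 2) T (T + 1) K α q with hCB
  have hCBt : CB ≠ ∞ := cBr_ne_top hβ hT.le hT1 hK hα q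
  set CM : ℝ≥0∞ := cMas (b₀ / 2) T (T + 1) K α q with hCM
  have hCMt : CM ≠ ∞ := cMas_ne_top hβ hT.le hT1 hK hα q
  set R : ℝ≥0∞ := ENNReal.ofReal (T * Q ^ 2) with hR
  have hRt : R ≠ ∞ := ENNReal.ofReal_ne_top
  set C₁ : ℝ≥0∞ := CG * (CB * H) * R with hC₁
  have hC₁t : C₁ ≠ ∞ := ENNReal.mul_ne_top (ENNReal.mul_ne_top hCGt
    (ENNReal.mul_ne_top hCBt hHt)) hRt
  set C₂ : ℝ≥0∞ := CM * H * R with hC₂
  have hC₂t : C₂ ≠ ∞ := ENNReal.mul_ne_top (ENNReal.mul_ne_top hCMt hHt) hRt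
  have hcT : 0 ≤ cTC B T := cTC_nonneg hB.1 hT.le
  refine ⟨C₁.toReal * (cTC B T + 1) + C₂.toReal, by positivity, fun δ hδ => ?_⟩
  -- the remainder
  have hrem : Tendsto (fun J => (∑' n, a' n) ^ J * cRem (b₀ / 2) (T + 1) J) atTop (𝓝 0) :=
    ENNReal.tendsto_atTop_zero_of_tsum_ne_top (tsum_cRem_ne_top hT1 ha')
  obtain ⟨J₀, hJ₀⟩ := eventually_atTop.1
    ((ENNReal.tendsto_nhds_zero.1 hrem) (ENNReal.ofReal δ) (ENNReal.ofReal_pos.2 hδ.1))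
  refine ⟨J₀, fun J hJ L ρ hρ => ?_⟩
  -- the number of particles
  set KS : ℝ≥0∞ := CG * (CB * H) * (4 * ENNReal.ofReal (1 / δ ^ 3) * (∑' n, α n) ^ 2 *
    ENNReal.ofReal T) with hKS
  have hKSt : KS ≠ ∞ := ENNReal.mul_ne_top (ENNReal.mul_ne_top hCGt
    (ENNReal.mul_ne_top hCBt hHt)) (ENNReal.mul_ne_top (ENNReal.mul_ne_top
      (ENNReal.mul_ne_top (by norm_num) ENNReal.ofReal_ne_top) (ENNReal.pow_ne_top hα))
        ENNReal.ofReal_ne_top)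
  filter_upwards [card_TE_small (b := b₀ / 2 / 4) hΦ hB h₀ hm2 (by positivity) T L hρ hKSt,
    Ioc_mem_nhdsGT (zero_lt_one' ℝ)] with ε hcard hε1 hε η hη t ht w G hG
  have hcBt : cBr (b₀ / 2) t (T + 1) K α q ≠ ∞ := cBr_ne_top hβ ht.1 hT1 hK hα q
  have h1 := lamC_Mn (b := b₀ / 2) (b' := b₀ / 2) (K := K) (α := α) (q := q) (L := L)
    (δ := δ) (t₁ := T + 1) (by linarith) h₀ (hΦ := hΦ) (hε := hε) hε1.2 hβ hδ.1 hη ht.1 ht.2
    (by linarith [ht.2]) hB hα hG w J ha' hcBt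
  refine h1.trans ?_
  set N : ℝ≥0∞ := Nm b T l₁ l₂ a t (fun σ => if σ.2.2 ≤ L then
    ind (σ ∈ G) * tE6 L hΦ hε f₀ η t σ else 0) with hN
  set gI : ℝ≥0∞ := gI1 (b₀ / 2 / 4) t (T + 1) L α
    (fun e => ind (e ∈ G) * tE6 L hΦ hε f₀ η t e) with hgI
  set S : ℝ≥0∞ := ∫⁻ c, (((wS (GC.pts c)).card : ℝ≥0∞) + 1) * ENNReal.ofReal ε ^ 3 *
    sTE L hΦ hε (b₀ / 2 / 4) η t (wS (GC.pts c)) ∂(GC.PP f₀ ε) with hS
  have hgIN : gI ≤ R * N := by
    rw [hgI, gI1_cut]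
    refine gI1_le_Nm (b' := b) hP.b0 ?_ hT ht.2 hP.l₁0 hP.l₂0 hP.wts hP.m0 (par_sqrt hP)
      (measurable_cut L ((measurable_indG hG).mul (measurable_tE6' h₀)))
    rw [hP.hb]
    linarith
  have hSs : KS * S ≤ ENNReal.ofReal ρ := (hcard hε η hη t ht).1
  have hJ1 := hJ₀ J hJ
  have hb1 := cBr_mono ht.1 ht.2 (b₀ / 2) (T + 1) K α q
  have hb2 := cMas_mono ht.1 ht.2 (b₀ / 2) (T + 1) K α q
  have hfin : C₁ * ENNReal.ofReal (cTC B T * (η / δ ^ 3) + δ) + ENNReal.ofReal δ * C₂ ≤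
      ENNReal.ofReal ((C₁.toReal * (cTC B T + 1) + C₂.toReal) * (η / δ ^ 3 + δ)) := by
    have hδ0 := hδ.1
    have hx : 0 ≤ η / δ ^ 3 := by positivity
    rw [← ENNReal.ofReal_toReal hC₁t, ← ENNReal.ofReal_toReal hC₂t,
      ← ENNReal.ofReal_mul ENNReal.toReal_nonneg, ← ENNReal.ofReal_mul hδ0.le,
      ← ENNReal.ofReal_add (by positivity) (by positivity),
      ENNReal.toReal_ofReal ENNReal.toReal_nonneg, ENNReal.toReal_ofReal ENNReal.toReal_nonneg]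
    apply ENNReal.ofReal_le_ofReal
    have p1 : 0 ≤ C₁.toReal := ENNReal.toReal_nonneg
    have p2 : 0 ≤ C₂.toReal := ENNReal.toReal_nonneg
    nlinarith [mul_nonneg p1 hx, mul_nonneg p1 hδ0.le, mul_nonneg p2 hx, mul_nonneg p2 hδ0.le,
      mul_nonneg (mul_nonneg p1 hcT) hδ0.le, mul_nonneg (mul_nonneg p1 hcT) hx]
  calc CG * ((cBr (b₀ / 2) t (T + 1) K α q * H) *
        ((4 * ENNReal.ofReal (1 / δ ^ 3) * (∑' n, α n) ^ 2 * ENNReal.ofReal T) * S +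
          ENNReal.ofReal (cTC B T * (η / δ ^ 3) + δ) * gI)) +
        (∑' n, a' n) ^ J * cRem (b₀ / 2) (T + 1) J *
          (cMas (b₀ / 2) t (T + 1) K α q * (H * gI))
      ≤ CG * ((CB * H) *
        ((4 * ENNReal.ofReal (1 / δ ^ 3) * (∑' n, α n) ^ 2 * ENNReal.ofReal T) * S +
          ENNReal.ofReal (cTC B T * (η / δ ^ 3) + δ) * (R * N))) +
        ENNReal.ofReal δ * (CM * (H * (R * N))) := by gcongr
    _ = (C₁ * ENNReal.ofReal (cTC B T * (η / δ ^ 3) + δ) + ENNReal.ofReal δ * C₂) * N +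
        KS * S := by
        rw [hC₁, hC₂, hKS]
        ring
    _ ≤ _ := add_le_add (mul_le_mul' hfin le_rfl) hSs

end Vale.Agent.P119.FL
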