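import Vale.Agent.P119.FL.LawC6
import Vale.Agent.P119.PB.In8b

/-!
# P119: law C, the interface of P8 (`helper690`)

* **`law8_lamC`**: the law of the pairs of exhausts in different branches is a `Law8`.
-/

open MeasureTheory Set Filter Topology Metric ProbabilityTheory
open scoped ENNReal

noncomputable section

namespace Vale.Agent.P119.FL

open KU M M.CTree RB EN PB AU Cap

variable {Φ : E3 → ℝ} {T κ : ℝ} {f₀ : Ph → ℝ}

/-- Super-exponential weights have all geometric moments. -/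
theorem tsum_pow_ne_top {m : ℕ → ℝ} (hm0 : ∀ n, 0 ≤ m n) (hm : KE.SuperExp m) {A : ℝ≥0∞}
    (hA : A ≠ ∞) : ∑' d, ENNReal.ofReal (m d) * A ^ d ≠ ∞ := by
  set x : ℝ := A.toReal with hx
  have hx0 : 0 ≤ x := ENNReal.toReal_nonneg
  have h1 := hm (2 * x) (by positivity)
  obtain ⟨B, hB⟩ := h1.bddAbove_range
  have hB' : ∀ n, (2 * x) ^ n * m n ≤ B := fun n => hB (mem_range_self n)
  have hB0 : 0 ≤ B := le_trans (by have := hm0 0; simpa using this) (hB' 0)
  have h2 : ∀ d, ENNReal.ofReal (m d) * A ^ d ≤ ENNReal.ofReal (B * (1 / 2) ^ d) := by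
    intro d
    rw [← ENNReal.ofReal_toReal hA, ← hx, ← ENNReal.ofReal_pow hx0,
      ← ENNReal.ofReal_mul (hm0 d)]
    apply ENNReal.ofReal_le_ofReal
    calc m d * x ^ d = ((2 * x) ^ d * m d) * (1 / 2) ^ d := by
          rw [mul_pow]
          have : (2 : ℝ) ^ d * (1 / 2) ^ d = 1 := by
            rw [← mul_pow]
            norm_num
          calc m d * x ^ d = (2 ^ d * (1 / 2) ^ d) * (m d * x ^ d) := by rw [this, one_mul]
            _ = _ := by ring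
      _ ≤ _ := mul_le_mul_of_nonneg_right (hB' d) (by positivity)
  refine ne_top_of_le_ne_top ?_ (ENNReal.tsum_le_tsum h2)
  rw [← ENNReal.ofReal_tsum_of_nonneg (fun d => by positivity)
    ((summable_geometric_of_lt_one (by norm_num) (by norm_num)).mul_left B)]
  exact ENNReal.ofReal_ne_top

variable {b₀ b l₁ l₂ Q B : ℝ} {m αP a : ℕ → ℝ} {K : ℝ≥0∞} {a' : ℕ → ℝ≥0∞}
  {D F : ℕ → ℝ → ℝ → ℝ → ℝ≥0∞} {W : ℕ → ℝ → ℝ → ℝ → ℝ → ℝ≥0∞}

/-- The law of two branches, for all the parameters. -/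
def lam8C (hΦ : IsPotential Φ) (b : ℝ) (K : ℝ≥0∞) (α : ℕ → ℝ≥0∞) (q : ℕ) : Lam8 :=
  fun L _ hε t => lamC hΦ hε.ne' b t K α L q

/-- **The mass of the probability of the touch.** -/
theorem lamC_tE6_mass {b t t₁ η : ℝ} {α : ℕ → ℝ≥0∞} {L q : ℕ} {ε : ℝ} (hΦ : IsPotential Φ)
    (hε : 0 < ε) (hε1 : ε ≤ 1) (hb : 0 < b) (h₀ : GoodDatum f₀ κ) (hB : RW.StableWith Φ B)
    (hη : 0 < η) (ht : 0 ≤ t) (htT : t ≤ T) (htt : t ≤ t₁) (hα : ∑' d, α d ≠ ∞) :
    ∫⁻ x, tE6 L hΦ hε f₀ η t x.1 ∂(lamC hΦ hε.ne' b t K α L q) ≤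
      cMas b t t₁ K α q * (hI2 α (fun _ => 1) * ((∑' d, α d) ^ 2 *
        (ENNReal.ofReal T * (kTE B (b / 4) T * m2 f₀)))) := by
  have := GC.isProbability_PP (ε := ε) h₀
  have hm : Measurable (tE6 L hΦ hε f₀ η t) := measurable_tE6' h₀
  have h1 := lamC_mass (K := K) (α := α) (q := q) (L := L) hΦ hε hε1 hb ht htt (C := 1)
    ENNReal.one_ne_top (g := tE6 L hΦ hε f₀ η t)
    (fun e _ => ((tE6_le_one h₀).trans_lt ENNReal.one_lt_top).ne) (h := fun _ => 1)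
    (fun _ => ENNReal.one_ne_top) (G := fun p => tE6 L hΦ hε f₀ η t p.1)
    (hm.comp measurable_fst) (by
      intro e _ m' _
      have h3 : (1 : ℝ≥0∞) ≤ ENNReal.ofReal (Real.exp (b / 4 * ‖m'.2.1.2‖ ^ 2)) := by
        rw [← ENNReal.ofReal_one]
        exact ENNReal.ofReal_le_ofReal (Real.one_le_exp (by positivity))
      rw [one_mul, one_mul]
      exact le_mul_of_one_le_right zero_le h3)
  refine h1.trans ?_
  rw [one_mul]
  refine mul_le_mul' le_rfl (mul_le_mul' le_rfl ?_)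
  have h2 : gI1 (b / 4) t t₁ L α (tE6 L hΦ hε f₀ η t) =
      ∫⁻ c, gI1 (b / 4) t t₁ L α (fun e => gTE L hΦ hε η t (wS (GC.pts c)) e)
        ∂(GC.PP f₀ ε) := (gI1_lintegral measurable_TEc).symm
  rw [h2]
  have h3 : ∀ᵐ c ∂(GC.PP f₀ ε),
      gI1 (b / 4) t t₁ L α (fun e => gTE L hΦ hε η t (wS (GC.pts c)) e) ≤
      ((∑' d, α d) ^ 2 * (ENNReal.ofReal T * (ENNReal.ofReal (ε ^ 2) * kTE B (b / 4) T))) *
        ENNReal.ofReal (EW (wS (GC.pts c))) := by
    filter_upwards [GC.ae_excl f₀ ε] with c hc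
    have h4 := gI1_TE_le (b := b / 4) (t := t) (t₁ := t₁) (α := α) (L := L) (hΦ := hΦ) (hε := hε)
      (η := η) (V := wS (GC.pts c)) (g₀ := fun _ => 1) measurable_const (fun _ => le_rfl)
    simp only [one_mul] at h4
    have h5 := (sTE_le (L := L) (b := b / 4) (T := T) (t := t) (η := η) hΦ hB hε hc
      (by positivity) hη htT).trans (crG_le hε1 hB.1 _)
    refine h4.trans ?_
    calc (∑' d, α d) ^ 2 * (ENNReal.ofReal t * sTE L hΦ hε (b / 4) η t (wS (GC.pts c)))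
        ≤ (∑' d, α d) ^ 2 * (ENNReal.ofReal T * (ENNReal.ofReal (ε ^ 2) * kTE B (b / 4) T *
          ENNReal.ofReal (EW (wS (GC.pts c))))) := by
          refine mul_le_mul' le_rfl (mul_le_mul' (ENNReal.ofReal_le_ofReal htT) h5)
      _ = _ := by ring
  refine (lintegral_mono_ae h3).trans ?_
  have hC : (∑' d, α d) ^ 2 * (ENNReal.ofReal T * (ENNReal.ofReal (ε ^ 2) *
      kTE B (b / 4) T)) ≠ ∞ :=
    ENNReal.mul_ne_top (ENNReal.pow_ne_top hα) (ENNReal.mul_ne_top ENNReal.ofReal_ne_top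
      (ENNReal.mul_ne_top ENNReal.ofReal_ne_top (kTE_ne_top _ _ _)))
  rw [lintegral_const_mul' _ _ hC]
  calc _ ≤ (∑' d, α d) ^ 2 * (ENNReal.ofReal T * (ENNReal.ofReal (ε ^ 2) *
        kTE B (b / 4) T)) * (muE ε * m2 f₀) := mul_le_mul' le_rfl (lintegral_EW_le h₀ hε.le)
    _ = (muE ε * ENNReal.ofReal (ε ^ 2)) * ((∑' d, α d) ^ 2 * (ENNReal.ofReal T *
        (kTE B (b / 4) T * m2 f₀))) := by ring
    _ = _ := by rw [muE_mul hε, one_mul]

/-- **The law of the pairs of exhausts in different branches** has everything which is needed in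
P8. -/
theorem law8_lamC (hP : PB.Par T b₀ m b l₁ l₂ Q αP a) (hΦ : IsPotential Φ)
    (h₀ : GoodDatum f₀ κ) (hB : RW.StableWith Φ B) (hm2 : m2 f₀ < ∞) (q : ℕ) (hK : K ≠ ∞)
    (ha' : ∑' n, a' n ≠ ∞) :
    Law8 hΦ f₀ T (b₀ / 2) a' D (dTh b T l₁ l₂ a hΦ f₀ T) F W
      (lam8C hΦ (b₀ / 2) K (fun n => ENNReal.ofReal (m n)) q) where
  sf L ε hε t := by
    unfold lam8C
    infer_instance
  ok := by
    refine Eventually.of_forall fun L => Eventually.of_forall fun ε hε t _ => ?_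
    filter_upwards [ae_lamC hΦ hε.ne' (b₀ / 2) t K (fun n => ENNReal.ofReal (m n)) L q] with p hp
    exact ⟨hp.1.1.le, hp.1.2.2, hp.2.1.le⟩
  hit := by
    intro A hA hA'
    have hb₀ := hP.b₀0
    have hT := hP.T0
    refine ⟨cHit (b₀ / 2) T (T + 1) K (fun n => ENNReal.ofReal (m n)) q A, fun M hM => ?_, ?_⟩
    · exact tsum_cHit_ne_top (by positivity) hT.le (by linarith) hK hA hA'
        (tsum_pow_ne_top hP.m0 hP.msup hA') hM
    · refine Eventually.of_forall fun L => ?_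
      filter_upwards [Ioc_mem_nhdsGT (zero_lt_one' ℝ)] with ε hε1 hε t ht j z'
      refine (hitLam_lamC (b := b₀ / 2) (b' := b₀ / 2) (K := K)
        (α := fun n => ENNReal.ofReal (m n)) (L := L) (q := q) (by linarith) hΦ hε hε1.2
        (by positivity) ht.1 (by linarith [ht.2]) hA hA' j z').trans ?_
      exact mul_le_mul' (cHit_mono ht.1 ht.2 _ _ _ _ _ _ _) le_rfl
  mass := by
    have hb₀ := hP.b₀0
    have hT := hP.T0
    have hα := tsum_m_ne_top hP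
    have hI2t : hI2 (fun n => ENNReal.ofReal (m n)) (fun _ => 1) ≠ ∞ := by
      unfold hI2
      simp_rw [mul_one, ENNReal.tsum_mul_left, ENNReal.tsum_mul_right]
      exact ENNReal.mul_ne_top hα hα
    refine Eventually.of_forall fun L η hη => ?_
    refine ⟨cMas (b₀ / 2) T (T + 1) K (fun n => ENNReal.ofReal (m n)) q *
      (hI2 (fun n => ENNReal.ofReal (m n)) (fun _ => 1) * ((∑' n, ENNReal.ofReal (m n)) ^ 2 *
        (ENNReal.ofReal T * (kTE B (b₀ / 2 / 4) T * m2 f₀)))), ?_, ?_⟩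
    · refine ENNReal.mul_ne_top (cMas_ne_top (by positivity) hT.le (by linarith) hK hα q)
        (ENNReal.mul_ne_top hI2t (ENNReal.mul_ne_top (ENNReal.pow_ne_top hα)
          (ENNReal.mul_ne_top ENNReal.ofReal_ne_top (ENNReal.mul_ne_top (kTE_ne_top _ _ _)
            hm2.ne))))
    · filter_upwards [Ioc_mem_nhdsGT (zero_lt_one' ℝ)] with ε hε1 hε t ht
      refine (lamC_tE6_mass (T := T) (t₁ := T + 1) hΦ hε hε1.2 (by positivity) h₀ hB hη.1 ht.1
        ht.2 (by linarith [ht.2]) hα).trans ?_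
      exact mul_le_mul' (cMas_mono ht.1 ht.2 _ _ _ _ _) le_rfl
  main := by
    have hT := hP.T0
    have hb₀ := hP.b₀0
    obtain ⟨C, hC0, hC⟩ := lawC_Mn6 (a' := a') hP hΦ h₀ hB hm2 q hK ha'
    refine ⟨2 * C + 1, 3, by linarith, ?_⟩
    filter_upwards [eventually_ge_atTop 1] with L hL δ hδ η η' hη hηη hη1 δ₁ hδ₁ _ ρ hρ
    obtain ⟨J₀, hJ₀⟩ := hC δ hδ
    refine ⟨J₀, fun J hJ => ?_⟩
    filter_upwards [hJ₀ J hJ L ρ hρ] with ε h1 hε t ht G hG hGe
    refine ⟨fun _ => 0, measurable_const, ?_⟩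
    have h2 := h1 hε η hη t ht T G hG
    have h3 := Nm_ind_tE6_le (L := L) (hΦ := hΦ) (hε := hε) (bN := b) (T' := T) (l₁ := l₁)
      (l₂ := l₂) (a' := a) h₀ hη hηη.le ht.1 ht.2 hδ₁ hGe
    refine h2.trans (add_le_add ?_ le_rfl)
    unfold R8
    refine le_trans ?_ le_self_add
    have hδ0 := hδ.1
    have h4 : ENNReal.ofReal (C * (η / δ ^ 3 + δ)) * 2 ≤
        ENNReal.ofReal ((2 * C + 1) ^ L * (η' / δ ^ 3 + δ)) := by
      rw [show (2 : ℝ≥0∞) = ENNReal.ofReal 2 by norm_num, ← ENNReal.ofReal_mul (by positivity)]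
      apply ENNReal.ofReal_le_ofReal
      have h5 : 2 * C ≤ (2 * C + 1) ^ L := by
        calc 2 * C ≤ 2 * C + 1 := by linarith
          _ = (2 * C + 1) ^ 1 := (pow_one _).symm
          _ ≤ _ := pow_le_pow_right₀ (by linarith) hL
      calc C * (η / δ ^ 3 + δ) * 2 = 2 * C * (η / δ ^ 3 + δ) := by ring
        _ ≤ (2 * C + 1) ^ L * (η' / δ ^ 3 + δ) := by gcongr
    calc _ ≤ ENNReal.ofReal (C * (η / δ ^ 3 + δ)) *
          (2 * dTh b T l₁ l₂ a hΦ f₀ T L η' ε t) := mul_le_mul' le_rfl h3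
      _ = ENNReal.ofReal (C * (η / δ ^ 3 + δ)) * 2 * dTh b T l₁ l₂ a hΦ f₀ T L η' ε t := by ring
      _ ≤ _ := by
          refine mul_le_mul' h4 ?_
          exact le_add_right le_add_self

end Vale.Agent.P119.FL
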