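import Vale.Agent.P119.FL.Anchors
import Vale.Agent.P119.RB.MPath

/-!
# P119: the M-paths as targets (`helper690`)

* `exists_last_tree`: all the live trees of the label `c` before the time `h` are on one path, stopped
  at the last time `E ≤ h` at which `c` is alive;
* `ghostTarget`: the M-path of `c`, stopped at `E`, as a target.
-/

open MeasureTheory Set Filter Topology Metric ProbabilityTheory
open scoped ENNReal

namespace Vale.Agent.P119.FL

open KU M M.CTree RB

variable {Φ : E3 → ℝ} {ε : ℝ} {L : ℕ}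

/-- The M-path has its velocity as right derivative. -/
theorem path_deriv (hΦ : IsPotential Φ) (hε : 0 < ε) {T : CTree} (h : ok Φ ε T) (s : ℝ) :
    HasDerivWithinAt (fun r => (path Φ ε T r).1) (path Φ ε T s).2 (Ici s) s := by
  induction T with
  | leaf σ => exact (M.hasDerivAt_free σ.2.1 s).hasDerivWithinAt
  | node x y ihx _ =>
    rcases le_or_gt (sig Φ ε (node x y)) s with h1 | h1
    · have h2 := (st_hasDeriv hΦ hε h s).hasDerivWithinAt (s := Ici s)
      rw [path_of_sig_le h1]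
      refine h2.congr (fun r hr => ?_) ?_
      · rw [path_of_sig_le (h1.trans hr)]
      · rw [path_of_sig_le h1]
    · have h2 := ihx h.1
      have h3 : path Φ ε (node x y) s = path Φ ε x s := by
        unfold path
        rw [cur_of_lt_sig h1]
      rw [h3]
      refine h2.congr_of_eventuallyEq ?_ ?_
      · filter_upwards [nhdsWithin_le_nhds (Iio_mem_nhds h1)] with r hr
        unfold path
        rw [cur_of_lt_sig hr]
      · rw [h3]

/-- A live tree stays live in the limit from the left. -/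
theorem live_of_lt_seq {W : Set Src} {T : CTree} {E : ℝ} (hs : sig Φ ε T ≤ E)
    (h : ∀ s < E, ∃ r, s < r ∧ r ≤ E ∧ live Φ ε L W T r) : live Φ ε L W T E := by
  obtain ⟨r, -, -, hr⟩ := h (E - 1) (by linarith)
  refine ⟨hr.sub, hr.ok, hr.depth, hs, fun T' s hsE hh => ?_⟩
  obtain ⟨r', h1, -, h2⟩ := h s hsE
  exact h2.nohit T' s h1 hh

/-- **The last tree of a label.** -/
theorem exists_last_tree (hΦ : IsPotential Φ) (hε : 0 < ε) {W : Set Src} (hW : W.Finite)
    {c : Src} {h : ℝ} (hne : ∃ S : CTree, ∃ s, S.root = c ∧ s ≤ h ∧ live Φ ε L W S s) :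
    ∃ T : CTree, ∃ E : ℝ, T.root = c ∧ E ≤ h ∧ live Φ ε L W T E ∧
      (∀ (S : CTree) (s : ℝ), S.root = c → s ≤ h → live Φ ε L W S s →
        s ≤ E ∧ st Φ ε S s = path Φ ε T s) ∧
      (∀ s, c.1 ≤ s → s < E → stat Φ ε L W c s = some (cur Φ ε T s)) ∧
      (∀ s, E < s → s ≤ h → stat Φ ε L W c s = none) := by
  -- the last living time
  set A : Set ℝ := {s | s ≤ h ∧ ∃ S : CTree, S.root = c ∧ live Φ ε L W S s} with hA
  have hAne : A.Nonempty := by
    obtain ⟨S, s, h1, h2, h3⟩ := hne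
    exact ⟨s, h2, S, h1, h3⟩
  have hAb : BddAbove A := ⟨h, fun s hs => hs.1⟩
  set E : ℝ := sSup A with hE
  have hEh : E ≤ h := csSup_le hAne fun s hs => hs.1
  have hle : ∀ s ∈ A, s ≤ E := fun s hs => le_csSup hAb hs
  -- a tree which is live at the time `E`
  have hlive : ∃ S : CTree, S.root = c ∧ live Φ ε L W S E := by
    by_contra hcon
    push Not at hcon
    have hfin := finite_depth hW L
    have hfin' : {T : CTree | T.leaves ⊆ W ∧ T.depth ≤ L ∧ T.root = c ∧ sig Φ ε T ≤ E}.Finite :=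
      hfin.subset fun T hT => ⟨hT.1, hT.2.1⟩
    -- each tree is not live close to `E`
    have h1 : ∀ T ∈ {T : CTree | T.leaves ⊆ W ∧ T.depth ≤ L ∧ T.root = c ∧ sig Φ ε T ≤ E},
        ∃ s < E, ∀ r, s < r → r ≤ E → ¬live Φ ε L W T r := by
      intro T hT
      by_contra hcon'
      push Not at hcon'
      exact hcon T hT.2.2.1 (live_of_lt_seq hT.2.2.2 fun s hs => hcon' s hs)
    choose! f hf1 hf2 using h1
    obtain ⟨s₀, hs₀, hs₁⟩ : ∃ s₀ < E, ∀ T ∈ {T : CTree | T.leaves ⊆ W ∧ T.depth ≤ L ∧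
        T.root = c ∧ sig Φ ε T ≤ E}, f T ≤ s₀ := by
      classical
      set I := hfin'.toFinset with hI
      rcases I.eq_empty_or_nonempty with h0 | h0
      · refine ⟨E - 1, by linarith, fun T hT => ?_⟩
        have : T ∈ I := hfin'.mem_toFinset.2 hT
        rw [h0] at this
        simp at this
      · refine ⟨I.sup' h0 f, ?_, fun T hT => Finset.le_sup' f (hfin'.mem_toFinset.2 hT)⟩
        rw [Finset.sup'_lt_iff]
        intro T hT
        exact hf1 T (hfin'.mem_toFinset.1 hT)
    obtain ⟨s, hs, hlt⟩ := exists_lt_of_lt_csSup hAne hs₀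
    obtain ⟨hsh, S, hS1, hS2⟩ := hs
    have hsE := hle s ⟨hsh, S, hS1, hS2⟩
    have hmem : S ∈ {T : CTree | T.leaves ⊆ W ∧ T.depth ≤ L ∧ T.root = c ∧ sig Φ ε T ≤ E} :=
      ⟨hS2.sub, hS2.depth, hS1, hS2.sig_le.trans hsE⟩
    exact hf2 S hmem s ((hs₁ S hmem).trans_lt hlt) hsE hS2
  obtain ⟨S₁, hS₁, hS₂⟩ := hlive
  -- the right tree
  obtain ⟨T, hT1, hT2, hT3⟩ : ∃ T : CTree, T.root = c ∧ live Φ ε L W T E ∧
      ((T = leaf c ∧ c.1 = E) ∨ sig Φ ε T < E) := by
    rcases live_sig hΦ hε hW hS₂ with ⟨h1, h2⟩ | ⟨T₀, h1, h2, h3, -⟩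
    · rw [hS₁] at h1 h2
      exact ⟨S₁, hS₁, hS₂, Or.inl ⟨h1, h2⟩⟩
    · exact ⟨T₀, h1.trans hS₁, h2, Or.inr h3⟩
  have hstat : ∀ s, c.1 ≤ s → s < E → stat Φ ε L W c s = some (cur Φ ε T s) := by
    intro s h1 h2
    rw [stat_eq_some_iff hΦ hε hW]
    refine ⟨(cur_root T s).trans hT1, live_cur hΦ hε hW hT2 h2 ?_⟩
    rw [hT1]
    exact h1
  refine ⟨T, E, hT1, hEh, hT2, ?_, hstat, ?_⟩
  · intro S s h1 h2 h3
    have h4 := hle s ⟨h2, S, h1, h3⟩
    refine ⟨h4, ?_⟩
    rcases h4.lt_or_eq with h5 | h5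
    · have h6 : c.1 ≤ s := by
        have := live.birth_le hΦ hε h3
        rwa [h1] at this
      have h7 := hstat s h6 h5
      rw [← h1] at h7
      exact st_of_live hΦ hε hW h3 h7
    · subst h5
      rw [path_of_sig_le hT2.sig_le]
      rcases live_sig hΦ hε hW h3 with ⟨h6, h7⟩ | ⟨S₀, h6, h7, h8, h9⟩
      · rw [h1] at h6 h7
        rcases hT3 with ⟨h10, -⟩ | h10
        · rw [h6, h10]
        · have h11 := root_birth_le_sig hΦ hε hT2.ok
          rw [hT1, h7] at h11
          exact absurd h11 (not_le.2 h10)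
      · rcases hT3 with ⟨h10, h11⟩ | h10
        · have h12 := root_birth_le_sig hΦ hε h7.ok
          rw [h6, h1, h11] at h12
          exact absurd h12 (not_le.2 h8)
        · rw [← h9, live_unique hΦ hε hW h7 hT2 (h6.trans (h1.trans hT1.symm)) h8 h10]
  · intro s h1 h2
    rw [stat_eq_none_iff]
    intro S hS hl
    exact absurd (hle s ⟨h2, S, hS, hl.live⟩) (not_le.2 h1)

/-- A path with a continuous right derivative, stopped at `E`. -/
noncomputable def stopTarget {Z Z' : ℝ → E3} (hZ : Continuous Z)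
    (h : ∀ t, HasDerivWithinAt Z (Z' t) (Ici t) t) (hc : Continuous Z') (E t a : ℝ) : Target t where
  Y s := Z (min s E)
  a := a
  y' := (Iio E).indicator fun τ => ‖Z' τ‖ₑ
  cont := (hZ.comp (continuous_id.min continuous_const)).continuousOn
  speed := by
    intro s _ s' _ hss
    change ENNReal.ofReal ‖Z (min s' E) - Z (min s E)‖ ≤ _
    rcases le_or_gt E s with h1 | h1
    · rw [min_eq_right h1, min_eq_right (h1.trans hss), sub_self, norm_zero, ENNReal.ofReal_zero]
      exact zero_le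
    · rw [min_eq_left h1.le]
      have h2 := speedOn_of_right hZ h hc s (min s' E) s ⟨le_rfl, le_min hss h1.le⟩ (min s' E)
        ⟨le_min hss h1.le, le_rfl⟩ (le_min hss h1.le)
      refine h2.trans ?_
      have h3 : ∫⁻ τ in Icc s (min s' E), ‖Z' τ‖ₑ = ∫⁻ τ in Ico s (min s' E), ‖Z' τ‖ₑ :=
        setLIntegral_congr Ico_ae_eq_Icc.symm
      rw [h3]
      calc ∫⁻ τ in Ico s (min s' E), ‖Z' τ‖ₑ
          = ∫⁻ τ in Ico s (min s' E), (Iio E).indicator (fun τ => ‖Z' τ‖ₑ) τ := by
            refine setLIntegral_congr_fun measurableSet_Ico fun τ hτ => ?_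
            have h4 : τ ∈ Iio E := hτ.2.trans_le (min_le_right _ _)
            have h5 := indicator_of_mem h4 fun τ => ‖Z' τ‖ₑ
            exact h5.symm
        _ ≤ _ := lintegral_mono_set (Ico_subset_Icc_self.trans
            (Icc_subset_Icc_right (min_le_left _ _)))
  meas := (hc.enorm.measurable.indicator measurableSet_Iio).aemeasurable

/-- The M-path of a tree, stopped at `E`. -/
noncomputable def ghostTarget (hΦ : IsPotential Φ) (hε : 0 < ε) {T : CTree} (h : ok Φ ε T)
    (E t a : ℝ) : Target t :=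
  stopTarget (Z := fun s => (path Φ ε T s).1) (Z' := fun s => (path Φ ε T s).2)
    (continuous_path hΦ hε h).fst (fun s => path_deriv hΦ hε h s) (continuous_path hΦ hε h).snd E t a

end Vale.Agent.P119.FL
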