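import Vale.Agent.P119.FL.Mass

/-!
# P119: the one-line flux bound (`helper690`)

A chain starts at the event `(s, y)` with a free velocity `u`, makes `m` hits with lines of Gaussian
density and then meets an arbitrary path `Y`, at lag `≥ δ`.  The Galilean shift of the whole
chain shows that the flux is `≤ C^{m+1} δ⁻³ ε²`, whatever `Y` is.
-/

open MeasureTheory Set Filter Topology Metric ProbabilityTheory
open scoped ENNReal

namespace Vale.Agent.P119.FL

open KU

/-- The path followed after the last hit of a chain. -/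
structure ChainPath (ε t : ℝ) (S : ℕ → Step) (m : ℕ) (c₁ : ℝ) where
  X : Ph → (Fin m → Ph) → ℝ → E3
  boost : ∀ (c l : Ph) (p : Fin m → Ph) (τ : ℝ),
    X (KU.boost c l) (fun i => KU.boost c (p i)) τ = X l p τ + (c.1 + τ • c.2)
  cont : ∀ (s : ℝ) (l : Ph) (p : Fin m → Ph), Chain ε t S m s l p →
    ContinuousOn (X l p) (Icc (time ε S m s l p) t)
  speed : ∀ (s : ℝ) (l : Ph) (p : Fin m → Ph), Chain ε t S m s l p →
    SpeedOn (X l p) (fun _ => ENNReal.ofReal (c₁ * (1 + √(‖l.2‖ ^ 2 + ∑ i, ‖(p i).2‖ ^ 2))))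
      (time ε S m s l p) t

theorem boost_eq_add (c p : Ph) : boost c p = p + c := rfl

theorem haar_Ph : (volume : Measure Ph).IsAddHaarMeasure := by
  rw [Measure.volume_eq_prod]; infer_instance

theorem lintegral_shift (m : ℕ) (F : (Fin m → Ph) → ℝ≥0∞) (c : Ph) :
    ∫⁻ p : Fin m → Ph, F (fun i => boost c (p i)) = ∫⁻ p : Fin m → Ph, F p := by
  have h0 := haar_Ph
  have h1 : (volume : Measure Ph).IsAddLeftInvariant := inferInstance
  have h2 : ∀ _ : Fin m, (volume : Measure Ph).IsAddLeftInvariant := fun _ => h1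
  have : (volume : Measure (Fin m → Ph)).IsAddLeftInvariant :=
    Measure.pi.isAddLeftInvariant (μ := fun _ : Fin m => (volume : Measure Ph))
  exact lintegral_add_right_eq_self (μ := (volume : Measure (Fin m → Ph))) F (fun _ => c)

/-- The energy of the boosted chain. -/
noncomputable def En {m : ℕ} (p : Fin m → Ph) (u : E3) : ℝ := ‖u‖ ^ 2 + ∑ i, ‖(p i).2 + u‖ ^ 2

theorem En_nonneg {m : ℕ} (p : Fin m → Ph) (u : E3) : 0 ≤ En p u := by unfold En; positivity

theorem norm_sq_le_two (x y : E3) : ‖x‖ ^ 2 ≤ 2 * ‖y‖ ^ 2 + 2 * ‖x - y‖ ^ 2 := by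
  have h1 : ‖x‖ ≤ ‖y‖ + ‖x - y‖ := by
    have := norm_add_le y (x - y)
    rwa [add_sub_cancel] at this
  nlinarith [sq_nonneg (‖y‖ - ‖x - y‖), norm_nonneg x, norm_nonneg y, norm_nonneg (x - y)]

theorem En_le {m : ℕ} (p : Fin m → Ph) (u u' : E3) :
    En p u' ≤ 2 * En p u + 2 * (m + 1) * ‖u - u'‖ ^ 2 := by
  unfold En
  have h1 : ∀ i, ‖(p i).2 + u'‖ ^ 2 ≤ 2 * ‖(p i).2 + u‖ ^ 2 + 2 * ‖u - u'‖ ^ 2 := by
    intro i
    have := norm_sq_le_two ((p i).2 + u') ((p i).2 + u)
    rw [add_sub_add_left_eq_sub, norm_sub_rev u' u] at this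
    exact this
  have h2 : ‖u'‖ ^ 2 ≤ 2 * ‖u‖ ^ 2 + 2 * ‖u - u'‖ ^ 2 := by
    have := norm_sq_le_two u' u
    rwa [norm_sub_rev u' u] at this
  have h3 : ∑ i, ‖(p i).2 + u'‖ ^ 2 ≤ ∑ i : Fin m, (2 * ‖(p i).2 + u‖ ^ 2 + 2 * ‖u - u'‖ ^ 2) :=
    Finset.sum_le_sum fun i _ => h1 i
  rw [Finset.sum_add_distrib, ← Finset.mul_sum, Finset.sum_const, Finset.card_univ,
    Fintype.card_fin, nsmul_eq_mul] at h3
  linarith

theorem wt_mul_exp {b ε : ℝ} {m : ℕ} (p : Fin m → Ph) (c : Ph) :
    ENNReal.ofReal (Real.exp (-b * ‖c.2‖ ^ 2)) * wt b ε m (fun i => boost c (p i)) =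
      muE ε ^ m * ENNReal.ofReal (Real.exp (-b * En p c.2)) := by
  unfold wt En
  rw [Finset.prod_mul_distrib, Finset.prod_const, Finset.card_univ, Fintype.card_fin,
    ← ENNReal.ofReal_prod_of_nonneg (fun i _ => Real.exp_nonneg _), ← Real.exp_sum, mul_left_comm,
    ← ENNReal.ofReal_mul (Real.exp_nonneg _), ← Real.exp_add]
  congr 3
  rw [mul_add, Finset.mul_sum]
  rfl

theorem time_lt {ε t : ℝ} (m : ℕ) : ∀ (S : ℕ → Step) (s : ℝ) (l : Ph) (p : Fin m → Ph),
    Chain ε t S m s l p → s ≤ t → time ε S m s l p ≤ t := by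
  induction m with
  | zero => intro S s l p _ h; exact h
  | succ m ih =>
    intro S s l p h _
    exact ih _ _ _ _ h.2.2.2 h.2.2.1.le

/-- The constant of the one-line bound. -/
noncomputable def D1 (b : ℝ) : ℝ :=
  Real.exp (b / 2) * (∫⁻ u : E3, ENNReal.ofReal (Real.exp (-(b / 8) * ‖u‖ ^ 2))).toReal

/-- **(FL3) The one-line flux bound.**  The path `Y` is only used on `[a, t]`. -/
theorem one_line {ε b s a t δ c c₁ : ℝ} (hε : 0 < ε) (hb : 0 < b) (hδ : 0 < δ) (hc : 0 ≤ c)
    (hc₁ : 0 ≤ c₁) (hst : s ≤ t) {m : ℕ} {S : ℕ → Step} (P : ChainPath ε t S m c₁)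
    {y₀ : E3} {y : E3 → E3} (hy : Measurable y) (hy0 : ∀ u, ‖y u - y₀‖ ≤ c * ε)
    {Y : ℝ → E3} {y' : ℝ → ℝ≥0∞} (hYc : ContinuousOn Y (Icc a t)) (hYs : SpeedOn Y y' a t)
    (hy' : AEMeasurable y' (volume.restrict (Icc a t)))
    {Ψ : E3 → (Fin m → Ph) → ℝ≥0∞} (hΨm : Measurable fun q : E3 × (Fin m → Ph) => Ψ q.1 q.2)
    (hΨ : ∀ u p, Ψ u p ≠ 0 → Chain ε t S m s (y u - s • u, u) p ∧
      (∃ τ ∈ Icc (max (max a (s + δ)) (time ε S m s (y u - s • u, u) p)) t,
        ‖P.X (y u - s • u, u) p τ - Y τ‖ ≤ ε) ∧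
      Ψ u p ≤ ENNReal.ofReal (Real.exp (-b * ‖u‖ ^ 2)) * wt b ε m p) :
    ∫⁻ u, ∫⁻ p, Ψ u p ≤ ENNReal.ofReal ((2 * ((1 + c) * ε) * √(m + 1) / δ) ^ 3) *
      (1 + (ENNReal.ofReal ((1 + c) * ε))⁻¹ * ∫⁻ τ in Icc a t,
        (ENNReal.ofReal (c₁ * (1 + 1 / √b)) + y' τ)) *
      ENNReal.ofReal (D1 b * ((Kc (b / 4) * (t - s)) ^ m / √(m.factorial : ℝ))) := by
  have hε' : 0 < (1 + c) * ε := by positivity
  -- the boost
  set cu : E3 → Ph := fun u => (y u - s • u, u) with hcu
  set Ψt : E3 → (Fin m → Ph) → ℝ≥0∞ := fun u p => Ψ u (fun i => boost (cu u) (p i)) with hΨt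
  have hcum : Measurable cu := (hy.sub (measurable_id.const_smul s)).prodMk measurable_id
  have hΨtm : Measurable fun q : E3 × (Fin m → Ph) => Ψt q.1 q.2 := by
    have hB : Measurable fun q : E3 × (Fin m → Ph) => fun i => boost (cu q.1) (q.2 i) := by
      refine measurable_pi_iff.2 fun i => ?_
      simp only [boost_eq_add]
      exact ((measurable_pi_apply i).comp measurable_snd).add (hcum.comp measurable_fst)
    exact hΨm.comp (measurable_fst.prodMk hB)
  have e1 : ∫⁻ u, ∫⁻ p, Ψ u p = ∫⁻ u, ∫⁻ p, Ψt u p := by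
    refine lintegral_congr fun u => ?_
    exact (lintegral_shift m (fun p => Ψ u p) (cu u)).symm
  rw [e1, lintegral_lintegral_swap hΨtm.aemeasurable]
  set C : ℝ≥0∞ := ENNReal.ofReal ((2 * ((1 + c) * ε) * √(m + 1) / δ) ^ 3) *
      (1 + (ENNReal.ofReal ((1 + c) * ε))⁻¹ * ∫⁻ τ in Icc a t,
        (ENNReal.ofReal (c₁ * (1 + 1 / √b)) + y' τ)) with hC
  set z0 : Ph := (0, 0) with hz0
  -- the flux for each relative chain
  have key : ∀ p : Fin m → Ph, ∫⁻ u, Ψt u p ≤
      C * ({p | Chain ε t S m s z0 p}.indicator (fun p => ∫⁻ u, muE ε ^ m *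
        ENNReal.ofReal (Real.exp (b / 2) * Real.exp (-(b / 4) * En p u))) p) := by
    intro p
    by_cases hch : Chain ε t S m s z0 p
    swap
    · have h0 : ∀ u, Ψt u p = 0 := by
        intro u
        by_contra hne
        have h1 := (hΨ u _ hne).1
        have h2 : ((y u - s • u, u) : Ph) = boost (cu u) z0 := by
          rw [boost_eq_add, hz0, hcu]; simp
        rw [h2, chain_boost] at h1
        exact hch h1
      simp only [h0, lintegral_zero]
      exact zero_le
    rw [indicator_of_mem (show p ∈ {p | Chain ε t S m s z0 p} from hch)]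
    set a' : ℝ := max (max a (s + δ)) (time ε S m s z0 p) with ha
    have hsa : s + (a' - s) = a' := by ring
    have haa : a ≤ a' := (le_max_left _ _).trans (le_max_left _ _)
    have hδa : δ ≤ a' - s := by
      have := (le_max_right a (s + δ)).trans (le_max_left (max a (s + δ)) (time ε S m s z0 p))
      rw [← ha] at this; linarith
    have hta : time ε S m s z0 p ≤ a' := le_max_right _ _
    have hsm : 0 < √((m : ℝ) + 1) := Real.sqrt_pos.2 (by positivity)
    have hr : 0 < 1 / √((m : ℝ) + 1) := by positivity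
    have hr2 : ∀ x : ℝ, 0 ≤ x → x ≤ 1 / √((m : ℝ) + 1) → 2 * (m + 1) * x ^ 2 ≤ 2 := by
      intro x hx0 hx
      have h1 : x ^ 2 ≤ (1 / √((m : ℝ) + 1)) ^ 2 := by gcongr
      rw [div_pow, Real.sq_sqrt (by positivity), one_pow] at h1
      calc 2 * ((m : ℝ) + 1) * x ^ 2 ≤ 2 * (m + 1) * (1 / (m + 1)) := by gcongr
        _ = 2 := by field_simp
    have hXc : ∀ u : E3, Chain ε t S m s (boost (y₀ - s • u, u) z0)
        (fun i => boost (y₀ - s • u, u) (p i)) := fun u => (chain_boost _ _ _ _ _ _).2 hch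
    have hEe : ∀ u : E3, ‖(boost (y₀ - s • u, u) z0).2‖ ^ 2 +
        ∑ i, ‖(boost (y₀ - s • u, u) (p i)).2‖ ^ 2 = En p u := by
      intro u
      unfold En
      simp [boost, hz0]
    have hpath : ∀ (u : E3) (τ : ℝ), (τ - s) • u + (P.X z0 p τ + y₀ - Y τ) =
        P.X (boost (y₀ - s • u, u) z0) (fun i => boost (y₀ - s • u, u) (p i)) τ + -Y τ := by
      intro u τ
      rw [P.boost]
      module
    have hsub : Icc a' t ⊆ Icc a t := Icc_subset_Icc haa le_rfl
    have hmain := flux_vel (ζ := fun τ => P.X z0 p τ + y₀ - Y τ)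
      (g := fun u τ => ENNReal.ofReal (c₁ * (1 + √(En p u))) + y' τ)
      (h := fun τ => ENNReal.ofReal (c₁ * (1 + 1 / √b)) + y' τ) (s := s) (δ := a' - s) (t := t)
      (ε := (1 + c) * ε) (r := 1 / √((m : ℝ) + 1))
      (W := fun u => muE ε ^ m * ENNReal.ofReal (Real.exp (-b * En p u)))
      (V := fun u => muE ε ^ m *
        ENNReal.ofReal (Real.exp (b / 2) * Real.exp (-(b / 4) * En p u)))
      hε' (by linarith) hr (by
        unfold En
        refine Measurable.const_mul ?_ _
        refine Measurable.ennreal_ofReal ?_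
        fun_prop)
      (by
        rw [hsa]
        refine ContinuousOn.sub (ContinuousOn.add ?_ continuousOn_const) (hYc.mono hsub)
        exact (P.cont s z0 p hch).mono (Icc_subset_Icc hta le_rfl))
      (by
        intro u _
        rw [hsa]
        simp only [hpath]
        refine SpeedOn.add ?_ (hYs.neg.mono haa le_rfl fun _ _ => le_rfl)
          aemeasurable_const
        have h1 := P.speed s _ _ (hXc u)
        rw [time_boost, hEe u] at h1
        exact h1.mono hta le_rfl fun _ _ => le_rfl)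
      (by
        rw [hsa]
        exact aemeasurable_const.add (hy'.mono_measure (Measure.restrict_mono hsub le_rfl)))
      (by
        intro u u' huu
        gcongr
        rw [← Real.exp_add]
        apply Real.exp_le_exp.2
        have h1 := En_le p u u'
        have h2 := hr2 _ (norm_nonneg _) huu
        have h3 := En_nonneg p u
        nlinarith)
      (by
        intro τ _ u u' huu
        have h1 := En_le p u u'
        have h2 := hr2 _ (norm_nonneg _) huu
        have h3 := En_nonneg p u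
        have h4 := En_nonneg p u'
        have h5 : Real.exp (-(b / 2) * En p u) ≤ Real.exp (b / 2) * Real.exp (-(b / 4) * En p u') := by
          rw [← Real.exp_add]
          apply Real.exp_le_exp.2
          nlinarith
        have h6 : Real.exp (-b * En p u) ≤ Real.exp (-(b / 2) * En p u) := by
          apply Real.exp_le_exp.2
          nlinarith
        have h7 : Real.exp (-b * En p u) * (c₁ * (1 + √(En p u))) ≤
            c₁ * (1 + 1 / √b) * (Real.exp (b / 2) * Real.exp (-(b / 4) * En p u')) := by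
          have h8 := one_add_le (b := b) (x := √(En p u)) (M := 1) hb le_rfl
          rw [Real.sqrt_one, one_mul, mul_one, Real.sq_sqrt h3] at h8
          calc Real.exp (-b * En p u) * (c₁ * (1 + √(En p u)))
              ≤ Real.exp (-b * En p u) * (c₁ * ((1 + 1 / √b) * Real.exp (b / 2 * En p u))) := by
                gcongr
            _ = c₁ * (1 + 1 / √b) * Real.exp (-(b / 2) * En p u) := by
                have : Real.exp (-(b / 2) * En p u) =
                    Real.exp (-b * En p u) * Real.exp (b / 2 * En p u) := by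
                  rw [← Real.exp_add]; congr 1; ring
                rw [this]; ring
            _ ≤ _ := by gcongr
        rw [mul_add, add_mul]
        refine add_le_add ?_ ?_
        · calc muE ε ^ m * ENNReal.ofReal (Real.exp (-b * En p u)) *
                ENNReal.ofReal (c₁ * (1 + √(En p u)))
              = muE ε ^ m * ENNReal.ofReal (Real.exp (-b * En p u) * (c₁ * (1 + √(En p u)))) := by
                rw [mul_assoc, ← ENNReal.ofReal_mul (Real.exp_nonneg _)]
            _ ≤ muE ε ^ m * ENNReal.ofReal (c₁ * (1 + 1 / √b) *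
                (Real.exp (b / 2) * Real.exp (-(b / 4) * En p u'))) := by gcongr
            _ = _ := by
                rw [ENNReal.ofReal_mul (by positivity : (0:ℝ) ≤ c₁ * (1 + 1 / √b))]
                ring
        · rw [mul_comm]
          gcongr
          exact h6.trans h5)
      (Ψ := fun u => Ψt u p)
      (by
        intro u hne
        obtain ⟨h1, ⟨τ, hτ, hh⟩, h3⟩ := hΨ u _ hne
        have h2 : ((y u - s • u, u) : Ph) = boost (cu u) z0 := by
          rw [boost_eq_add, hz0, hcu]; simp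
        rw [h2, time_boost] at hτ
        rw [h2, P.boost] at hh
        refine ⟨⟨τ, by rw [hsa]; exact hτ, ?_⟩, ?_⟩
        · have h4 : (τ - s) • u + (P.X z0 p τ + y₀ - Y τ) =
              (P.X z0 p τ + ((cu u).1 + τ • (cu u).2) - Y τ) - (y u - y₀) := by
            rw [hcu]; module
          rw [h4]
          calc _ ≤ ‖P.X z0 p τ + ((cu u).1 + τ • (cu u).2) - Y τ‖ + ‖y u - y₀‖ := norm_sub_le _ _
            _ ≤ ε + c * ε := add_le_add hh (hy0 u)
            _ = _ := by ring
        · refine h3.trans (le_of_eq ?_)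
          exact wt_mul_exp p (cu u))
    refine hmain.trans ?_
    have hδa' : 0 < a' - s := hδ.trans_le hδa
    have hle : 2 * ((1 + c) * ε) / ((a' - s) * (1 / √((m : ℝ) + 1))) ≤
        2 * ((1 + c) * ε) * √((m : ℝ) + 1) / δ := by
      rw [show 2 * ((1 + c) * ε) / ((a' - s) * (1 / √((m : ℝ) + 1))) =
        2 * ((1 + c) * ε) * √((m : ℝ) + 1) / (a' - s) by field_simp]
      gcongr
    have hnn : 0 ≤ 2 * ((1 + c) * ε) / ((a' - s) * (1 / √((m : ℝ) + 1))) := by positivity
    rw [hsa, hC]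
    exact mul_le_mul' (mul_le_mul' (ENNReal.ofReal_le_ofReal (pow_le_pow_left₀ hnn hle 3))
      (add_le_add le_rfl (mul_le_mul' le_rfl (lintegral_mono_set hsub)))) le_rfl
  refine (lintegral_mono key).trans ?_
  have hVm : Measurable fun q : (Fin m → Ph) × E3 => muE ε ^ m *
      ENNReal.ofReal (Real.exp (b / 2) * Real.exp (-(b / 4) * En q.1 q.2)) := by
    refine Measurable.const_mul ?_ _
    refine Measurable.ennreal_ofReal ?_
    refine Measurable.const_mul ?_ _
    refine Measurable.exp ?_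
    refine Measurable.const_mul ?_ _
    unfold En
    refine (measurable_snd.norm.pow_const 2).add ?_
    refine Finset.measurable_sum _ fun i _ => ?_
    exact ((((measurable_pi_apply i).comp measurable_fst).snd.add measurable_snd).norm.pow_const 2)
  have hchm : MeasurableSet {p : Fin m → Ph | Chain ε t S m s z0 p} :=
    (measurable_const.prodMk (measurable_const.prodMk measurable_id) :
      Measurable fun p : Fin m → Ph => (s, z0, p)) (measurableSet_chain m S)
  rw [lintegral_const_mul _ ((hVm.lintegral_prod_right').indicator hchm)]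
  refine mul_le_mul' le_rfl ?_
  have hswap : ∫⁻ p, {p | Chain ε t S m s z0 p}.indicator (fun p => ∫⁻ u, muE ε ^ m *
        ENNReal.ofReal (Real.exp (b / 2) * Real.exp (-(b / 4) * En p u))) p =
      ∫⁻ u : E3, ∫⁻ p, {p | Chain ε t S m s z0 p}.indicator (fun p => muE ε ^ m *
        ENNReal.ofReal (Real.exp (b / 2) * Real.exp (-(b / 4) * En p u))) p := by
    rw [lintegral_indicator hchm, lintegral_lintegral_swap hVm.aemeasurable]
    refine lintegral_congr fun u => ?_
    rw [lintegral_indicator hchm]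
  rw [hswap]
  have hu : ∀ u : E3, ∫⁻ p, {p | Chain ε t S m s z0 p}.indicator (fun p => muE ε ^ m *
        ENNReal.ofReal (Real.exp (b / 2) * Real.exp (-(b / 4) * En p u))) p ≤
      ENNReal.ofReal (Real.exp (b / 2) * ((Kc (b / 4) * (t - s)) ^ m / √(m.factorial : ℝ))) *
        ENNReal.ofReal (Real.exp (-(b / 8) * ‖u‖ ^ 2)) := by
    intro u
    have h1 : ∀ p : Fin m → Ph, {p | Chain ε t S m s z0 p}.indicator (fun p => muE ε ^ m *
        ENNReal.ofReal (Real.exp (b / 2) * Real.exp (-(b / 4) * En p u))) p =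
        (fun p => ENNReal.ofReal (Real.exp (b / 2)) *
          ENNReal.ofReal (Real.exp (-(b / 4) * ‖u‖ ^ 2)) *
          {p | Chain ε t S m s (y₀ - s • u, u) p}.indicator (wt (b / 4) ε m) p)
          (fun i => boost (y₀ - s • u, u) (p i)) := by
      intro p
      have h2 : ((y₀ - s • u, u) : Ph) = boost (y₀ - s • u, u) z0 := by
        rw [boost_eq_add, hz0]; simp
      have h3 : (fun i => boost (y₀ - s • u, u) (p i)) ∈
          {p | Chain ε t S m s (y₀ - s • u, u) p} ↔ p ∈ {p | Chain ε t S m s z0 p} := by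
        have h8 := chain_boost (ε := ε) (t := t) (y₀ - s • u, u) m S s z0 p
        rw [← h2] at h8
        exact h8
      simp only
      by_cases hp : p ∈ {p | Chain ε t S m s z0 p}
      · rw [indicator_of_mem hp, indicator_of_mem (h3.2 hp)]
        have h4 := wt_mul_exp (b := b / 4) (ε := ε) p (y₀ - s • u, u)
        simp only at h4
        rw [mul_assoc, h4, ENNReal.ofReal_mul (Real.exp_nonneg _)]
        ring
      · rw [indicator_of_notMem hp, indicator_of_notMem (fun h => hp (h3.1 h)), mul_zero]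
    simp_rw [h1]
    rw [lintegral_shift m (fun p => ENNReal.ofReal (Real.exp (b / 2)) *
          ENNReal.ofReal (Real.exp (-(b / 4) * ‖u‖ ^ 2)) *
          {p | Chain ε t S m s (y₀ - s • u, u) p}.indicator (wt (b / 4) ε m) p)]
    rw [lintegral_const_mul' _ _ (ENNReal.mul_ne_top ENNReal.ofReal_ne_top ENNReal.ofReal_ne_top)]
    have h5 := chain_mass (t := t) hε (by positivity : 0 < b / 4) m S s (y₀ - s • u, u) hst
    have h6 : 0 ≤ (Kc (b / 4) * (t - s)) ^ m / √(m.factorial : ℝ) :=
      div_nonneg (pow_nonneg (mul_nonneg (Kc_nonneg _) (sub_nonneg.2 hst)) _) (Real.sqrt_nonneg _)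
    calc ENNReal.ofReal (Real.exp (b / 2)) * ENNReal.ofReal (Real.exp (-(b / 4) * ‖u‖ ^ 2)) *
          ∫⁻ p, {p | Chain ε t S m s (y₀ - s • u, u) p}.indicator (wt (b / 4) ε m) p
        ≤ ENNReal.ofReal (Real.exp (b / 2)) * ENNReal.ofReal (Real.exp (-(b / 4) * ‖u‖ ^ 2)) *
          ENNReal.ofReal ((Kc (b / 4) * (t - s)) ^ m / √(m.factorial : ℝ) *
            Real.exp (b / 4 / 2 * ‖u‖ ^ 2)) := by gcongr
      _ = _ := by
          rw [← ENNReal.ofReal_mul (Real.exp_nonneg _), ← ENNReal.ofReal_mul (by positivity),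
            ← ENNReal.ofReal_mul (mul_nonneg (Real.exp_nonneg _) h6)]
          congr 1
          have h7 : Real.exp (-(b / 8) * ‖u‖ ^ 2) =
              Real.exp (-(b / 4) * ‖u‖ ^ 2) * Real.exp (b / 4 / 2 * ‖u‖ ^ 2) := by
            rw [← Real.exp_add]; congr 1; ring
          rw [h7]; ring
  refine (lintegral_mono hu).trans (le_of_eq ?_)
  rw [lintegral_const_mul' _ _ ENNReal.ofReal_ne_top]
  have hJ : (∫⁻ u : E3, ENNReal.ofReal (Real.exp (-(b / 8) * ‖u‖ ^ 2))) ≠ ∞ :=
    ((integrable_gauss (by positivity : 0 < b / 8)).lintegral_lt_top).ne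
  have h6 : 0 ≤ (Kc (b / 4) * (t - s)) ^ m / √(m.factorial : ℝ) :=
    div_nonneg (pow_nonneg (mul_nonneg (Kc_nonneg _) (sub_nonneg.2 hst)) _) (Real.sqrt_nonneg _)
  have h9 : D1 b * ((Kc (b / 4) * (t - s)) ^ m / √(m.factorial : ℝ)) =
      (Real.exp (b / 2) * ((Kc (b / 4) * (t - s)) ^ m / √(m.factorial : ℝ))) *
        (∫⁻ u : E3, ENNReal.ofReal (Real.exp (-(b / 8) * ‖u‖ ^ 2))).toReal := by
    unfold D1; ring
  rw [h9, ENNReal.ofReal_mul (mul_nonneg (Real.exp_nonneg _) h6), ENNReal.ofReal_toReal hJ]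

end Vale.Agent.P119.FL
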