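import Vale.Agent.P119.FL.Path
import Vale.Agent.P119.K1.Disk

/-!
# P119: the sister line of a given line, and its flux (`helper690`)

After a node the two outgoing lines `e`, `β` leave the distance `ε` at the exit time `exT ε (e, β)`.
Given `e`, the sister `β` has the free velocity `u`: it starts at the event
`(σ, e(σ) - ε (ρ + h V))`, where `σ` is the exit time.
-/

open MeasureTheory Set Filter Topology Metric ProbabilityTheory
open scoped ENNReal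

namespace Vale.Agent.P119.FL

open KU

/-- The time at which two lines leave the distance `ε`. -/
noncomputable def exT (ε : ℝ) (q : Ph × Ph) : ℝ := ε * (-crd (rel ε q) + half (rel ε q))

theorem measurable_exT {ε : ℝ} : Measurable (exT ε) := by
  unfold exT
  have h := (continuous_rel (ε := ε)).measurable
  exact ((measurable_crd.comp h).neg.add (measurable_half.comp h)).const_mul ε

/-- The separation time of a collision is the exit time of the two outgoing lines. -/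
theorem exT_sc2 {Φ : E3 → ℝ} {ε : ℝ} (hΦ : IsPotential Φ) (hε : ε ≠ 0) (q : Ph × Ph) :
    exT ε (sc2 Φ ε q) = sepT Φ ε q := by
  unfold exT sepT tout
  rw [rel_sc2 hε, half_scat hΦ]

theorem exT_swap {ε : ℝ} (q : Ph × Ph) : exT ε q.swap = exT ε q := by
  unfold exT
  rw [rel_swap]
  have h1 : crd (act parity (rel ε q)) = crd (rel ε q) := crd_act _ _
  have h2 : half (act parity (rel ε q)) = half (rel ε q) := by
    unfold half
    rw [perp_act, LinearIsometryEquiv.norm_map]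
    unfold act
    rw [LinearIsometryEquiv.norm_map]
  rw [h1, h2]

/-- The sister of the line `e` with velocity `u`, exit time `σ` and impact parameter `ξ`. -/
noncomputable def sis (ε : ℝ) (e : Ph) (u : E3) (σ : ℝ) (ξ : E3) : Ph :=
  partner ε e u (σ - ε * half (K1.refl (e.2 - u) ξ, e.2 - u)) (K1.refl (e.2 - u) ξ)

theorem measurable_sis_refl (e : Ph) :
    Measurable fun q : E3 × ℝ × E3 => K1.refl (e.2 - q.1) q.2.2 := by
  have h0 : Measurable fun q : E3 × ℝ × E3 => ((e.2 - q.1, q.2.2) : E3 × E3) := by fun_prop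
  exact K1.measurable_refl.comp h0

theorem measurable_sis_time {ε : ℝ} (e : Ph) : Measurable fun q : E3 × ℝ × E3 =>
    q.2.1 - ε * half (K1.refl (e.2 - q.1) q.2.2, e.2 - q.1) := by
  have h1 : Measurable fun q : E3 × ℝ × E3 => e.2 - q.1 := measurable_const.sub measurable_fst
  have h0 : Measurable fun q : E3 × ℝ × E3 => half (K1.refl (e.2 - q.1) q.2.2, e.2 - q.1) :=
    measurable_half.comp ((measurable_sis_refl e).prodMk h1)
  fun_prop

theorem measurable_sis {ε : ℝ} (e : Ph) :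
    Measurable fun q : E3 × ℝ × E3 => sis ε e q.1 q.2.1 q.2.2 := by
  have h4 : Measurable fun q : E3 × ℝ × E3 => ((q.1,
      (q.2.1 - ε * half (K1.refl (e.2 - q.1) q.2.2, e.2 - q.1),
        K1.refl (e.2 - q.1) q.2.2)) : E3 × ℝ × E3) :=
    measurable_fst.prodMk ((measurable_sis_time e).prodMk (measurable_sis_refl e))
  have h5 := (measurable_partner (ε := ε) e).comp h4
  exact h5

theorem measurable_sis_u {ε : ℝ} (e : Ph) (σ : ℝ) (ξ : E3) :
    Measurable fun u : E3 => sis ε e u σ ξ := by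
  have h0 : Measurable fun u : E3 => ((u, (σ, ξ)) : E3 × (ℝ × E3)) :=
    measurable_id.prodMk measurable_const
  have h := (measurable_sis (ε := ε) e).comp h0
  simp only [Function.comp_def] at h
  exact h

theorem sis_snd {ε : ℝ} (e : Ph) (u : E3) (σ : ℝ) (ξ : E3) : (sis ε e u σ ξ).2 = u := rfl

theorem norm_refl (V ξ : E3) : ‖K1.refl V ξ‖ = ‖ξ‖ := by
  rw [K1.refl_eq, LinearIsometryEquiv.norm_map]

/-- Position of the sister at the exit time: within `ε` of the given line. -/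
theorem sis_pos {ε : ℝ} (hε : 0 ≤ ε) (e : Ph) (u : E3) (σ : ℝ) {ξ : E3} (hξ : ξ ∈ K1.disc K1.e0) :
    ‖((sis ε e u σ ξ).1 + σ • u) - (e.1 + σ • e.2)‖ ≤ 1 * ε := by
  set V := e.2 - u with hV
  set ρ := K1.refl V ξ with hρ
  have h1 : ((sis ε e u σ ξ).1 + σ • u) - (e.1 + σ • e.2) = -(ε • (ρ + half (ρ, V) • V)) := by
    unfold sis partner
    simp only [← hV, ← hρ]
    rw [hV]
    module
  rw [h1, norm_neg, norm_smul, Real.norm_eq_abs, abs_of_nonneg hε, one_mul]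
  have h2 : ‖ρ‖ < 1 := by rw [hρ, norm_refl]; exact hξ.1
  have h3 : ‖ρ + half (ρ, V) • V‖ ≤ 1 := by
    rcases eq_or_ne V 0 with h0 | h0
    · rw [h0, smul_zero, add_zero]; exact h2.le
    · have h4 : ρ ∈ K1.disc V := by
        have : ξ ∈ K1.refl V ⁻¹' K1.disc V := by rw [K1.refl_preimage_disc h0]; exact hξ
        exact this
      have h5 : perp (ρ, V) = ρ := perp_of_inner (p := (ρ, V)) h4.2
      have h6 := half_sq (p := (ρ, V)) h0 (by rw [h5]; exact h2.le)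
      rw [h5] at h6
      have h7 : ‖ρ + half (ρ, V) • V‖ ^ 2 = 1 := by
        rw [norm_add_sq_real, inner_smul_right, h4.2, norm_smul, mul_pow, Real.norm_eq_abs, sq_abs]
        simp only at h6
        nlinarith
      nlinarith [norm_nonneg (ρ + half (ρ, V) • V)]
  nlinarith

theorem lintegral_kappa_refl {V : E3} (hV : V ≠ 0) (F : E3 → ℝ≥0∞) :
    ∫⁻ ρ, F ρ ∂(kappa V) = ∫⁻ ξ, F (K1.refl V ξ) ∂K1.sig := by
  rw [kappa_eq_hausdorff hV]
  exact K1.lintegral_disc hV F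

theorem measurable_partner2 {ε : ℝ} (e : Ph) (u : E3) :
    Measurable fun q : ℝ × E3 => partner ε e u q.1 q.2 := by
  unfold partner; fun_prop

theorem measurable_half2 {ε : ℝ} (V : E3) : Measurable fun q : ℝ × E3 => ε * half (q.2, V) := by
  have h0 : Measurable fun q : ℝ × E3 => half (q.2, V) :=
    measurable_half.comp (measurable_snd.prodMk measurable_const)
  fun_prop

theorem shift_time {ε : ℝ} (e : Ph) (u : E3) {F : ℝ → Ph → ℝ≥0∞}
    (hF : Measurable fun q : ℝ × Ph => F q.1 q.2) (κ : Measure E3) [SFinite κ] :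
    ∫⁻ s : ℝ, ∫⁻ ρ, F (s + ε * half (ρ, e.2 - u)) (partner ε e u s ρ) ∂κ =
      ∫⁻ σ : ℝ, ∫⁻ ρ, F σ (partner ε e u (σ - ε * half (ρ, e.2 - u)) ρ) ∂κ := by
  have hpm := measurable_partner2 (ε := ε) e u
  have hhm := measurable_half2 (ε := ε) (e.2 - u)
  have a1 : Measurable fun q : ℝ × E3 => ((q.1 + ε * half (q.2, e.2 - u),
      partner ε e u q.1 q.2) : ℝ × Ph) := (measurable_fst.add hhm).prodMk hpm
  have hm2 : Measurable fun q : ℝ × E3 => F (q.1 + ε * half (q.2, e.2 - u))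
      (partner ε e u q.1 q.2) := hF.comp a1
  have a2 : Measurable fun q : ℝ × E3 => ((q.1 - ε * half (q.2, e.2 - u), q.2) : ℝ × E3) :=
    (measurable_fst.sub hhm).prodMk measurable_snd
  have a4 : Measurable fun q : ℝ × E3 => partner ε e u (q.1 - ε * half (q.2, e.2 - u)) q.2 := by
    have h := hpm.comp a2
    simp only [Function.comp_def] at h
    exact h
  have a3 : Measurable fun q : ℝ × E3 => ((q.1,
      partner ε e u (q.1 - ε * half (q.2, e.2 - u)) q.2) : ℝ × Ph) := measurable_fst.prodMk a4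
  have hm3 : Measurable fun q : ℝ × E3 => F q.1
      (partner ε e u (q.1 - ε * half (q.2, e.2 - u)) q.2) := hF.comp a3
  rw [lintegral_lintegral_swap hm2.aemeasurable]
  refine Eq.trans ?_ (lintegral_lintegral_swap (μ := (volume : Measure ℝ)) (ν := κ)
    (f := fun σ ρ => F σ (partner ε e u (σ - ε * half (ρ, e.2 - u)) ρ)) hm3.aemeasurable).symm
  refine lintegral_congr fun ρ => ?_
  rw [← lintegral_sub_right_eq_self (fun s => F (s + ε * half (ρ, e.2 - u)) (partner ε e u s ρ))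
    (ε * half (ρ, e.2 - u))]
  refine lintegral_congr fun s => ?_
  rw [sub_add_cancel]

theorem exT_partner {ε : ℝ} (hε : ε ≠ 0) (e : Ph) {u : E3} (h0 : e.2 - u ≠ 0) (s : ℝ) {ρ : E3}
    (hρ : (inner ℝ ρ (e.2 - u) : ℝ) = 0) :
    exT ε (e, partner ε e u s ρ) = s + ε * half (ρ, e.2 - u) := by
  unfold exT
  rw [crd_rel_partner hε e h0 s hρ, rel_partner hε, half_free, neg_neg, mul_add,
    mul_div_cancel₀ _ hε]

/-- **The sisters of a given line.** -/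
theorem lintegral_sister {ε : ℝ} (hε : 0 < ε) (e : Ph) {F : ℝ → Ph → ℝ≥0∞}
    (hF : Measurable fun q : ℝ × Ph => F q.1 q.2) :
    ∫⁻ β in {β : Ph | Meets ε (e, β)}, F (exT ε (e, β)) β =
      ENNReal.ofReal (ε ^ 2) * ∫⁻ u : E3, ‖e.2 - u‖ₑ * ∫⁻ σ : ℝ, ∫⁻ ξ,
        F σ (sis ε e u σ ξ) ∂K1.sig := by
  have a0 : Measurable fun β : Ph => ((exT ε (e, β), β) : ℝ × Ph) :=
    (measurable_exT.comp (measurable_const.prodMk measurable_id)).prodMk measurable_id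
  have hm : Measurable fun β : Ph => F (exT ε (e, β)) β := hF.comp a0
  rw [lintegral_partner hε e hm]
  congr 1
  refine lintegral_congr fun u => ?_
  rcases eq_or_ne (e.2 - u) 0 with h0 | h0
  · rw [h0]; simp
  congr 1
  have h1 : ∀ s : ℝ, ∫⁻ ρ, F (exT ε (e, partner ε e u s ρ)) (partner ε e u s ρ)
      ∂(kappa (e.2 - u)) = ∫⁻ ρ, F (s + ε * half (ρ, e.2 - u)) (partner ε e u s ρ)
      ∂(kappa (e.2 - u)) := by
    intro s
    refine lintegral_congr_ae ?_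
    filter_upwards [ae_kappa h0] with ρ hρ
    rw [exT_partner hε.ne' e h0 s hρ.2]
  rw [lintegral_congr h1, shift_time e u hF]
  refine lintegral_congr fun σ => ?_
  rw [lintegral_kappa_refl h0]
  rfl

theorem swap3 {a : E3 → ℝ≥0∞} (ha : Measurable a) {J : E3 × (ℝ × E3) → ℝ≥0∞}
    (hJ : Measurable J) (t : ℝ) :
    ∫⁻ u, a u * ∫⁻ σ : ℝ, ∫⁻ ξ, (Icc (0 : ℝ) t).indicator (fun _ => J (u, (σ, ξ))) σ ∂K1.sig =
      ∫⁻ q, (∫⁻ u, a u * J (u, q)) ∂((volume.restrict (Icc (0 : ℝ) t)).prod K1.sig) := by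
  have e2 : ∀ u : E3, ∫⁻ σ : ℝ, ∫⁻ ξ, (Icc (0 : ℝ) t).indicator (fun _ => J (u, (σ, ξ))) σ
      ∂K1.sig = ∫⁻ q, J (u, q) ∂((volume.restrict (Icc (0 : ℝ) t)).prod K1.sig) := by
    intro u
    have hm : Measurable fun q : ℝ × E3 => J (u, q) :=
      hJ.comp (measurable_const.prodMk measurable_id)
    rw [lintegral_prod _ hm.aemeasurable, ← lintegral_indicator measurableSet_Icc]
    refine lintegral_congr fun σ => ?_
    by_cases hσ : σ ∈ Icc (0 : ℝ) t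
    · simp only [indicator_of_mem hσ]
    · simp only [indicator_of_notMem hσ, lintegral_zero]
  have h5 : Measurable fun q : E3 × (ℝ × E3) => a q.1 * J q := (ha.comp measurable_fst).mul hJ
  rw [← lintegral_lintegral_swap (μ := (volume : Measure E3)) h5.aemeasurable]
  refine lintegral_congr fun u => ?_
  have hm : Measurable fun q : ℝ × E3 => J (u, q) :=
    hJ.comp (measurable_const.prodMk measurable_id)
  rw [e2 u, lintegral_const_mul _ hm]

/-- The bound of `one_line`. -/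
noncomputable def B1 (ε b s a t δ c c₁ : ℝ) (m : ℕ) (y' : ℝ → ℝ≥0∞) : ℝ≥0∞ :=
  ENNReal.ofReal ((2 * ((1 + c) * ε) * √(m + 1) / δ) ^ 3) *
      (1 + (ENNReal.ofReal ((1 + c) * ε))⁻¹ * ∫⁻ τ in Icc a t,
        (ENNReal.ofReal (c₁ * (1 + 1 / √b)) + y' τ)) *
      ENNReal.ofReal (D1 b * ((Kc (b / 4) * (t - s)) ^ m / √(m.factorial : ℝ)))

theorem D1_nonneg (b : ℝ) : 0 ≤ D1 b := by unfold D1; positivity

theorem B1_anti {ε b s s' a t δ c c₁ : ℝ} {m : ℕ} {y' : ℝ → ℝ≥0∞} (h : s ≤ s') (hs' : s' ≤ t) :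
    B1 ε b s' a t δ c c₁ m y' ≤ B1 ε b s a t δ c c₁ m y' := by
  unfold B1
  have h1 : Kc (b / 4) * (t - s') ≤ Kc (b / 4) * (t - s) :=
    mul_le_mul_of_nonneg_left (by linarith) (Kc_nonneg _)
  have h0 : 0 ≤ Kc (b / 4) * (t - s') := mul_nonneg (Kc_nonneg _) (by linarith)
  have h2 := D1_nonneg b
  have h3 : (Kc (b / 4) * (t - s')) ^ m ≤ (Kc (b / 4) * (t - s)) ^ m :=
    pow_le_pow_left₀ h0 h1 m
  refine mul_le_mul' le_rfl (ENNReal.ofReal_le_ofReal ?_)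
  gcongr

/-- `one_line` with a constant factor. -/
theorem one_line_const {ε b s a t δ c c₁ : ℝ} (hε : 0 < ε) (hb : 0 < b) (hδ : 0 < δ) (hc : 0 ≤ c)
    (hc₁ : 0 ≤ c₁) (hst : s ≤ t) {m : ℕ} {S : ℕ → Step} (P : ChainPath ε t S m c₁)
    {y₀ : E3} {y : E3 → E3} (hy : Measurable y) (hy0 : ∀ u, ‖y u - y₀‖ ≤ c * ε)
    {Y : ℝ → E3} {y' : ℝ → ℝ≥0∞} (hYc : ContinuousOn Y (Icc a t)) (hYs : SpeedOn Y y' a t)
    (hy' : AEMeasurable y' (volume.restrict (Icc a t))) {K : ℝ≥0∞} (hK0 : K ≠ 0) (hKt : K ≠ ∞)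
    {Ψ : E3 → (Fin m → Ph) → ℝ≥0∞} (hΨm : Measurable fun q : E3 × (Fin m → Ph) => Ψ q.1 q.2)
    (hΨ : ∀ u p, Ψ u p ≠ 0 → Chain ε t S m s (y u - s • u, u) p ∧
      (∃ τ ∈ Icc (max (max a (s + δ)) (time ε S m s (y u - s • u, u) p)) t,
        ‖P.X (y u - s • u, u) p τ - Y τ‖ ≤ ε) ∧
      Ψ u p ≤ K * (ENNReal.ofReal (Real.exp (-b * ‖u‖ ^ 2)) * wt b ε m p)) :
    ∫⁻ u, ∫⁻ p, Ψ u p ≤ K * B1 ε b s a t δ c c₁ m y' := by
  have hm2 : Measurable fun q : E3 × (Fin m → Ph) => K⁻¹ * Ψ q.1 q.2 := hΨm.const_mul _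
  have h1 := one_line hε hb hδ hc hc₁ hst P hy hy0 hYc hYs hy' (Ψ := fun u p => K⁻¹ * Ψ u p) hm2
    (by
      intro u p hne
      have hne' : Ψ u p ≠ 0 := fun h => hne (by rw [h, mul_zero])
      obtain ⟨a1, a2, a3⟩ := hΨ u p hne'
      refine ⟨a1, a2, ?_⟩
      calc K⁻¹ * Ψ u p ≤ K⁻¹ * (K * (ENNReal.ofReal (Real.exp (-b * ‖u‖ ^ 2)) * wt b ε m p)) := by
            gcongr
        _ = _ := by rw [← mul_assoc, ENNReal.inv_mul_cancel hK0 hKt, one_mul])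
  have h2 : ∀ u, ∫⁻ p, K⁻¹ * Ψ u p = K⁻¹ * ∫⁻ p, Ψ u p := fun u =>
    lintegral_const_mul' _ _ (ENNReal.inv_ne_top.2 hK0)
  simp_rw [h2] at h1
  rw [lintegral_const_mul' _ _ (ENNReal.inv_ne_top.2 hK0)] at h1
  calc ∫⁻ u, ∫⁻ p, Ψ u p = K * (K⁻¹ * ∫⁻ u, ∫⁻ p, Ψ u p) := by
        rw [← mul_assoc, ENNReal.mul_inv_cancel hK0 hKt, one_mul]
    _ ≤ _ := mul_le_mul' le_rfl h1

theorem wt_mono {b b' ε : ℝ} (h : b' ≤ b) (m : ℕ) (p : Fin m → Ph) : wt b ε m p ≤ wt b' ε m p := by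
  unfold wt
  refine Finset.prod_le_prod' fun i _ => ?_
  gcongr

theorem vel_gauss {b : ℝ} (hb : 0 < b) (v u : E3) : ‖v - u‖ * Real.exp (-b * ‖u‖ ^ 2) ≤
    ((1 + ‖v‖) * (√2 * (1 + 1 / √b))) * Real.exp (-(b / 2) * ‖u‖ ^ 2) := by
  have h1 : ‖v - u‖ ≤ (1 + ‖v‖) * (1 + ‖u‖) := by
    have := norm_sub_le v u
    nlinarith [mul_nonneg (norm_nonneg v) (norm_nonneg u)]
  have h2 := one_add_le (x := ‖u‖) hb (M := 2) (by norm_num)
  have h3 : Real.exp (b / (2 * 2) * ‖u‖ ^ 2) * Real.exp (-b * ‖u‖ ^ 2) ≤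
      Real.exp (-(b / 2) * ‖u‖ ^ 2) := by
    rw [← Real.exp_add]
    apply Real.exp_le_exp.2
    nlinarith [sq_nonneg ‖u‖]
  calc ‖v - u‖ * Real.exp (-b * ‖u‖ ^ 2)
      ≤ ((1 + ‖v‖) * (√2 * (1 + 1 / √b) * Real.exp (b / (2 * 2) * ‖u‖ ^ 2))) *
        Real.exp (-b * ‖u‖ ^ 2) := by
        gcongr
        exact h1.trans (by gcongr)
    _ = ((1 + ‖v‖) * (√2 * (1 + 1 / √b))) *
        (Real.exp (b / (2 * 2) * ‖u‖ ^ 2) * Real.exp (-b * ‖u‖ ^ 2)) := by ring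
    _ ≤ _ := by gcongr

/-- The constant `K_e`. -/
noncomputable def Ke (b : ℝ) (e : Ph) : ℝ := (1 + ‖e.2‖) * (√2 * (1 + 1 / √b))

theorem Ke_pos (b : ℝ) (e : Ph) : 0 < Ke b e := by
  unfold Ke
  have h1 : 0 < √(2 : ℝ) := by positivity
  have h2 : 0 ≤ 1 / √b := by positivity
  have h3 := norm_nonneg e.2
  positivity

theorem exT_sis {ε : ℝ} (hε : ε ≠ 0) (e : Ph) {u : E3} (hV : e.2 - u ≠ 0) (σ : ℝ) {ξ : E3}
    (hξ : ξ ∈ K1.disc K1.e0) : exT ε (e, sis ε e u σ ξ) = σ := by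
  have hρ : (inner ℝ (K1.refl (e.2 - u) ξ) (e.2 - u) : ℝ) = 0 := by
    have : ξ ∈ K1.refl (e.2 - u) ⁻¹' K1.disc (e.2 - u) := by
      rw [K1.refl_preimage_disc hV]; exact hξ
    exact this.2
  unfold sis
  rw [exT_partner hε e hV _ hρ]
  ring

/-- The flux for a fixed exit time and impact parameter. -/
theorem sister_flux_aux {ε b a t δ c₁ : ℝ} (hε : 0 < ε) (hb : 0 < b) (hδ : 0 < δ)
    (hc₁ : 0 ≤ c₁) {m : ℕ} {S : ℕ → Step} (P : ChainPath ε t S m c₁) (e : Ph)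
    {Y : ℝ → E3} {y' : ℝ → ℝ≥0∞} (hYc : ContinuousOn Y (Icc a t)) (hYs : SpeedOn Y y' a t)
    (hy' : AEMeasurable y' (volume.restrict (Icc a t)))
    {Ψ : Ph → (Fin m → Ph) → ℝ≥0∞} (hΨm : Measurable fun q : Ph × (Fin m → Ph) => Ψ q.1 q.2)
    (hΨ : ∀ β p, Ψ β p ≠ 0 → Meets ε (e, β) ∧ exT ε (e, β) ∈ Icc 0 t ∧
      Chain ε t S m (exT ε (e, β)) β p ∧
      (∃ τ ∈ Icc (max (max a (exT ε (e, β) + δ)) (time ε S m (exT ε (e, β)) β p)) t,
        ‖P.X β p τ - Y τ‖ ≤ ε) ∧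
      Ψ β p ≤ muE ε * ENNReal.ofReal (Real.exp (-b * ‖β.2‖ ^ 2)) * wt b ε m p)
    {σ : ℝ} {ξ : E3} (hσ : σ ∈ Icc 0 t) (hξ : ξ ∈ K1.disc K1.e0) :
    ∫⁻ u : E3, ∫⁻ p, (ENNReal.ofReal (ε ^ 2) * ‖e.2 - u‖ₑ) * Ψ (sis ε e u σ ξ) p ≤
      ENNReal.ofReal (Ke b e) * B1 ε (b / 2) 0 a t δ 1 c₁ m y' := by
  have hKe := Ke_pos b e
  have hsu : Measurable fun u : E3 => sis ε e u σ ξ := measurable_sis_u e σ ξ
  have hy : Measurable fun u : E3 => (sis ε e u σ ξ).1 + σ • u :=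
    hsu.fst.add (measurable_id.const_smul σ)
  have hΨ'm : Measurable fun r : E3 × (Fin m → Ph) => (ENNReal.ofReal (ε ^ 2) *
      ‖e.2 - r.1‖ₑ) * Ψ (sis ε e r.1 σ ξ) r.2 := by
    refine Measurable.mul (by fun_prop) ?_
    exact hΨm.comp ((hsu.comp measurable_fst).prodMk measurable_snd)
  have h1 := one_line_const (s := σ) hε (by positivity : 0 < b / 2) hδ zero_le_one hc₁ hσ.2 P hy
    (fun u => sis_pos hε.le e u σ hξ) hYc hYs hy'
    (K := ENNReal.ofReal (Ke b e)) (by simpa using hKe) ENNReal.ofReal_ne_top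
    (Ψ := fun u p => (ENNReal.ofReal (ε ^ 2) * ‖e.2 - u‖ₑ) * Ψ (sis ε e u σ ξ) p) hΨ'm
    (by
      intro u p hne
      have hΨ0 : Ψ (sis ε e u σ ξ) p ≠ 0 := fun h => hne (by simp only [h, mul_zero])
      have hV : e.2 - u ≠ 0 := by
        intro h
        apply hne
        simp [h]
      have hex : exT ε (e, sis ε e u σ ξ) = σ := exT_sis hε.ne' e hV σ hξ
      have hst : (((sis ε e u σ ξ).1 + σ • u - σ • u, u) : Ph) = sis ε e u σ ξ := by
        rw [add_sub_cancel_right]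
        exact Prod.ext rfl (sis_snd e u σ ξ).symm
      obtain ⟨-, -, a3, a4, a5⟩ := hΨ _ p hΨ0
      rw [hex] at a3 a4
      rw [hst]
      refine ⟨a3, a4, ?_⟩
      rw [sis_snd] at a5
      calc (ENNReal.ofReal (ε ^ 2) * ‖e.2 - u‖ₑ) * Ψ (sis ε e u σ ξ) p
          ≤ (ENNReal.ofReal (ε ^ 2) * ‖e.2 - u‖ₑ) *
            (muE ε * ENNReal.ofReal (Real.exp (-b * ‖u‖ ^ 2)) * wt b ε m p) := by gcongr
        _ = (muE ε * ENNReal.ofReal (ε ^ 2)) *
            ((‖e.2 - u‖ₑ * ENNReal.ofReal (Real.exp (-b * ‖u‖ ^ 2))) * wt b ε m p) := by ring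
        _ = ENNReal.ofReal (‖e.2 - u‖ * Real.exp (-b * ‖u‖ ^ 2)) * wt b ε m p := by
            rw [muE_mul hε, one_mul, ← ofReal_norm, ← ENNReal.ofReal_mul (norm_nonneg _)]
        _ ≤ ENNReal.ofReal (Ke b e * Real.exp (-(b / 2) * ‖u‖ ^ 2)) * wt (b / 2) ε m p := by
            refine mul_le_mul' (ENNReal.ofReal_le_ofReal (vel_gauss hb e.2 u))
              (wt_mono (by linarith) m p)
        _ = _ := by rw [ENNReal.ofReal_mul hKe.le, mul_assoc])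
  exact h1.trans (mul_le_mul' le_rfl (B1_anti hσ.1 hσ.2))

/-- **(FL3P) Flux of the sister of a given line**, after `m` hits.  The path `Y` is only used on
`[a, t]` (for instance `a` = contamination time). -/
theorem sister_flux {ε b a t δ c₁ : ℝ} (hε : 0 < ε) (hb : 0 < b) (hδ : 0 < δ)
    (hc₁ : 0 ≤ c₁) {m : ℕ} {S : ℕ → Step} (P : ChainPath ε t S m c₁) (e : Ph)
    {Y : ℝ → E3} {y' : ℝ → ℝ≥0∞} (hYc : ContinuousOn Y (Icc a t)) (hYs : SpeedOn Y y' a t)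
    (hy' : AEMeasurable y' (volume.restrict (Icc a t)))
    {Ψ : Ph → (Fin m → Ph) → ℝ≥0∞} (hΨm : Measurable fun q : Ph × (Fin m → Ph) => Ψ q.1 q.2)
    (hΨ : ∀ β p, Ψ β p ≠ 0 → Meets ε (e, β) ∧ exT ε (e, β) ∈ Icc 0 t ∧
      Chain ε t S m (exT ε (e, β)) β p ∧
      (∃ τ ∈ Icc (max (max a (exT ε (e, β) + δ)) (time ε S m (exT ε (e, β)) β p)) t,
        ‖P.X β p τ - Y τ‖ ≤ ε) ∧
      Ψ β p ≤ muE ε * ENNReal.ofReal (Real.exp (-b * ‖β.2‖ ^ 2)) * wt b ε m p) :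
    ∫⁻ β, ∫⁻ p, Ψ β p ≤ ENNReal.ofReal t * (K1.sig univ *
      (ENNReal.ofReal (Ke b e) * B1 ε (b / 2) 0 a t δ 1 c₁ m y')) := by
  -- the function of the sister
  have hJm : Measurable fun β : Ph => ∫⁻ p, Ψ β p := hΨm.lintegral_prod_right'
  set F : ℝ → Ph → ℝ≥0∞ := fun σ β => (Icc (0 : ℝ) t).indicator (fun _ => ∫⁻ p, Ψ β p) σ with hF
  have hFm : Measurable fun q : ℝ × Ph => F q.1 q.2 := by
    have : (fun q : ℝ × Ph => F q.1 q.2) = (Prod.fst ⁻¹' Icc (0 : ℝ) t).indicator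
        (fun q : ℝ × Ph => ∫⁻ p, Ψ q.2 p) := by
      funext q
      rfl
    rw [this]
    exact (hJm.comp measurable_snd).indicator (measurable_fst measurableSet_Icc)
  have hMm : MeasurableSet {β : Ph | Meets ε (e, β)} := measurable_prodMk_left measurableSet_meets
  have e1 : ∫⁻ β, ∫⁻ p, Ψ β p = ∫⁻ β in {β : Ph | Meets ε (e, β)}, F (exT ε (e, β)) β := by
    rw [← lintegral_indicator hMm]
    refine lintegral_congr fun β => ?_
    by_cases h0 : ∀ p, Ψ β p = 0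
    · have h00 : ∫⁻ p, Ψ β p = 0 := by simp [h0]
      by_cases hβ : β ∈ {β : Ph | Meets ε (e, β)}
      · rw [indicator_of_mem hβ, hF]
        simp [h00]
      · rw [indicator_of_notMem hβ]
        exact h00
    · push Not at h0
      obtain ⟨p, hp⟩ := h0
      obtain ⟨a1, a2, -⟩ := hΨ β p hp
      rw [indicator_of_mem (show β ∈ {β : Ph | Meets ε (e, β)} from a1), hF]
      simp only
      rw [indicator_of_mem a2]
  rw [e1, lintegral_sister hε e hFm]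
  set ν : Measure (ℝ × E3) := (volume.restrict (Icc (0 : ℝ) t)).prod K1.sig with hν
  have hsm : Measurable fun q : E3 × (ℝ × E3) => sis ε e q.1 q.2.1 q.2.2 := measurable_sis e
  have hJs : Measurable fun q : E3 × (ℝ × E3) => ∫⁻ p, Ψ (sis ε e q.1 q.2.1 q.2.2) p :=
    hJm.comp hsm
  have e3 : ENNReal.ofReal (ε ^ 2) * ∫⁻ u : E3, ‖e.2 - u‖ₑ * ∫⁻ σ : ℝ, ∫⁻ ξ,
      F σ (sis ε e u σ ξ) ∂K1.sig = ∫⁻ q, (∫⁻ u : E3, ∫⁻ p, (ENNReal.ofReal (ε ^ 2) *
        ‖e.2 - u‖ₑ) * Ψ (sis ε e u q.1 q.2) p) ∂ν := by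
    rw [swap3 (by fun_prop : Measurable fun u : E3 => ‖e.2 - u‖ₑ) hJs t,
      ← lintegral_const_mul' _ _ ENNReal.ofReal_ne_top]
    refine lintegral_congr fun q => ?_
    rw [← lintegral_const_mul' _ _ ENNReal.ofReal_ne_top]
    refine lintegral_congr fun u => ?_
    rw [lintegral_const_mul' _ _ (ENNReal.mul_ne_top ENNReal.ofReal_ne_top enorm_ne_top),
      mul_assoc]
  rw [e3]
  have hKe := Ke_pos b e
  have hae : ∀ᵐ q ∂ν, q.1 ∈ Icc (0 : ℝ) t ∧ q.2 ∈ K1.disc K1.e0 := by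
    have h1 : ∀ᵐ σ ∂(volume.restrict (Icc (0 : ℝ) t)), σ ∈ Icc (0 : ℝ) t :=
      ae_restrict_mem measurableSet_Icc
    have h2 : ∀ᵐ ξ ∂K1.sig, ξ ∈ K1.disc K1.e0 := ae_restrict_mem (K1.measurableSet_disc _)
    have h3 : ∀ᵐ q ∂ν, q.1 ∈ Icc (0 : ℝ) t :=
      (Measure.quasiMeasurePreserving_fst (μ := volume.restrict (Icc (0 : ℝ) t))
        (ν := K1.sig)).ae h1
    have h4 : ∀ᵐ q ∂ν, q.2 ∈ K1.disc K1.e0 :=
      (Measure.quasiMeasurePreserving_snd (μ := volume.restrict (Icc (0 : ℝ) t))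
        (ν := K1.sig)).ae h2
    exact h3.and h4
  have key : ∀ᵐ q ∂ν, ∫⁻ u : E3, ∫⁻ p, (ENNReal.ofReal (ε ^ 2) *
        ‖e.2 - u‖ₑ) * Ψ (sis ε e u q.1 q.2) p ≤
      ENNReal.ofReal (Ke b e) * B1 ε (b / 2) 0 a t δ 1 c₁ m y' := by
    filter_upwards [hae] with q hq
    obtain ⟨hσ, hξ⟩ := hq
    exact sister_flux_aux hε hb hδ hc₁ P e hYc hYs hy' hΨm hΨ hσ hξ
  refine (lintegral_mono_ae key).trans (le_of_eq ?_)
  rw [lintegral_const, hν, ← univ_prod_univ, Measure.prod_prod, Measure.restrict_apply_univ,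
    Real.volume_Icc, sub_zero]
  ring

end Vale.Agent.P119.FL
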