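import Vale.Agent.P119.FL.LamC
import Vale.Agent.P119.PB.PairsX

/-!
# P119: the exhausts of two trees which collide, on lines (`helper776`)

* `sumX_le`: the sum `sumX` over a marked node in each of two trees whose lines hit each other is at
  most an integral with respect to `lamC` (the law of two exhausts in different branches).
-/

open MeasureTheory Set Filter Topology Metric
open scoped ENNReal

noncomputable section

namespace Vale.Agent.P119.FL

open KU M M.CTree PB Cap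

variable {Φ : E3 → ℝ} {ε b t : ℝ}

/-- The data of two trees, each with a marked node, whose lines hit each other. -/
theorem mem_joinS' (hΦ : IsPotential Φ) (hε : 0 < ε) {L i i' : ℕ} {q : Mk CTree i}
    {q' : Mk CTree i'} (hA : top q ∈ okT Φ ε t L) (hB : top q' ∈ okT Φ ε t L)
    (h1 : Meets ε (ln Φ ε (top q), ln Φ ε (top q')))
    (h2 : ext Φ ε (top q) ≤ hitT ε (ln Φ ε (top q), ln Φ ε (top q')))
    (h3 : ext Φ ε (top q') ≤ hitT ε (ln Φ ε (top q), ln Φ ε (top q')))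
    (h4 : hitT ε (ln Φ ε (top q), ln Φ ε (top q')) ≤ t) :
    (brT hΦ hε.ne' i q, brT hΦ hε.ne' i' q') ∈ joinS ε t L := by
  have key : ∀ {i : ℕ} {q : Mk CTree i}, top q ∈ okT Φ ε t L →
      0 < (brT hΦ hε.ne' i q).1.1 ∧ (brT hΦ hε.ne' i q).1.1 ≤ t ∧
        (brT hΦ hε.ne' i q).1.2.2 ≤ L := by
    intro i q hq
    obtain ⟨k1, k2, k3⟩ := (okT_plug hΦ hε hq).1
    have k4 : (rsrc Φ ε (exh q)).1 = ext Φ ε (node q.1 q.2.1) := ext_exh hΦ q
    have k5 : (rsrc Φ ε (exh q)).2.2 = (node q.1 q.2.1).depth := depth_exh q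
    rw [brT_fst, k4, k5]
    exact ⟨ext_node_pos hΦ hε k1, k2, k3⟩
  have h9 : Meets ε ((brT hΦ hε.ne' i q).2.2, (brT hΦ hε.ne' i' q').2.2) ∧
      (brT hΦ hε.ne' i q).2.1 ≤ hitT ε ((brT hΦ hε.ne' i q).2.2, (brT hΦ hε.ne' i' q').2.2) ∧
      (brT hΦ hε.ne' i' q').2.1 ≤ hitT ε ((brT hΦ hε.ne' i q).2.2, (brT hΦ hε.ne' i' q').2.2) ∧
      hitT ε ((brT hΦ hε.ne' i q).2.2, (brT hΦ hε.ne' i' q').2.2) ≤ t := by
    rw [brT_line, brT_line]
    exact ⟨h1, (brT_time_le hΦ hε hA.1).trans h2, (brT_time_le hΦ hε hB.1).trans h3, h4⟩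
  exact ⟨h9, key hA, key hB⟩

/-- The function of two exhausts, on the join set. -/
def ps1 (ε t : ℝ) (L : ℕ) (ψ : Src → Src → ℝ≥0∞) (z : (Src × ℝ × Ph) × (Src × ℝ × Ph)) : ℝ≥0∞ :=
  (joinS ε t L).indicator (fun z => ψ z.1.1 z.2.1) z

theorem measurable_ps1 (ε t : ℝ) (L : ℕ) {ψ : Src → Src → ℝ≥0∞}
    (hψ : Measurable fun z : Src × Src => ψ z.1 z.2) : Measurable (ps1 ε t L ψ) := by
  refine Measurable.indicator ?_ (measurableSet_joinS ε t L)
  exact hψ.comp (measurable_fst.fst.prodMk measurable_snd.fst)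

theorem pwX_le_eL (hb : 0 < b) (q : ℕ) (v : E3) :
    pw q v ≤ ENNReal.ofReal (Cgp (b / 4) q) * eL b v := by
  refine (pw_le_exp hb q v).trans (mul_le_mul' le_rfl ?_)
  unfold eL
  refine ENNReal.ofReal_le_ofReal (Real.exp_le_exp.2 ?_)
  nlinarith [sq_nonneg ‖v‖]

/-- The constant of the trailing spines is at least the constant of the empty one. -/
theorem le_cTR (b t : ℝ) (K : ℝ≥0∞) (q : ℕ) : ENNReal.ofReal (Cgp (b / 4) q) ≤ cTR b t K q := by
  refine le_trans (le_of_eq ?_) (ENNReal.le_tsum 0)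
  unfold cTr
  simp

/-- The two trees on lines. -/
theorem sumX_inner (hΦ : IsPotential Φ) (hε : 0 < ε) (hb : 0 < b) (L q₀ : ℕ) {i i' : ℕ}
    {F : CTree → CTree → CTree → CTree → ℝ≥0∞} {ψ : Src → Src → ℝ≥0∞}
    (hF0 : ∀ x y e m, F x y e m ≠ 0 → Meets ε (ln Φ ε x, ln Φ ε y) ∧
      ext Φ ε x ≤ hitT ε (ln Φ ε x, ln Φ ε y) ∧ ext Φ ε y ≤ hitT ε (ln Φ ε x, ln Φ ε y) ∧
      hitT ε (ln Φ ε x, ln Φ ε y) ≤ t)
    (hF : ∀ x y e m, F x y e m ≤ pw q₀ (ln Φ ε x).2 * pw q₀ (ln Φ ε y).2 *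
      ψ (rsrc Φ ε e) (rsrc Φ ε m)) (q : Mk CTree i) (q' : Mk CTree i') :
    (okT Φ ε t L).indicator (fun _ => (okT Φ ε t L).indicator
      (fun _ => F (top q) (top q') (exh q) (exh q')) (top q')) (top q) ≤
      (ENNReal.ofReal (Cgp (b / 4) q₀) * ENNReal.ofReal (Cgp (b / 4) q₀)) *
      (okT Φ ε t L).indicator (fun _ => eL b (brT hΦ hε.ne' i q).2.2.2 *
        (okT Φ ε t L).indicator (fun _ => eL b (brT hΦ hε.ne' i' q').2.2.2 *
          ps1 ε t L ψ (brT hΦ hε.ne' i q, brT hΦ hε.ne' i' q')) (top q')) (top q) := by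
  by_cases h1 : top q ∈ okT Φ ε t L
  swap
  · rw [indicator_of_notMem h1]; exact zero_le
  by_cases h2 : top q' ∈ okT Φ ε t L
  swap
  · rw [indicator_of_mem h1, indicator_of_notMem h2]; exact zero_le
  rw [indicator_of_mem h1, indicator_of_mem h2, indicator_of_mem h1, indicator_of_mem h2]
  by_cases h0 : F (top q) (top q') (exh q) (exh q') = 0
  · rw [h0]; exact zero_le
  obtain ⟨g1, g2, g3, g4⟩ := hF0 _ _ _ _ h0
  have h3 := mem_joinS' hΦ hε h1 h2 g1 g2 g3 g4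
  have h5 : ps1 ε t L ψ (brT hΦ hε.ne' i q, brT hΦ hε.ne' i' q') =
      ψ (rsrc Φ ε (exh q)) (rsrc Φ ε (exh q')) := by
    unfold ps1
    rw [indicator_of_mem h3]
    simp only [brT_fst]
  rw [brT_line, brT_line, h5]
  calc F (top q) (top q') (exh q) (exh q')
      ≤ pw q₀ (ln Φ ε (top q)).2 * pw q₀ (ln Φ ε (top q')).2 *
        ψ (rsrc Φ ε (exh q)) (rsrc Φ ε (exh q')) := hF _ _ _ _
    _ ≤ (ENNReal.ofReal (Cgp (b / 4) q₀) * eL b (ln Φ ε (top q)).2) *
        (ENNReal.ofReal (Cgp (b / 4) q₀) * eL b (ln Φ ε (top q')).2) *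
        ψ (rsrc Φ ε (exh q)) (rsrc Φ ε (exh q')) :=
        mul_le_mul' (mul_le_mul' (pwX_le_eL hb _ _) (pwX_le_eL hb _ _)) le_rfl
    _ = _ := by ring

/-- **The sum over the pairs of exhausts of two trees whose lines hit each other.** -/
theorem sumX_le (hΦ : IsPotential Φ) (hε : 0 < ε) (hb : 0 < b) {K : ℝ≥0∞} {α : ℕ → ℝ≥0∞}
    {Θ : Measure CTree} [SigmaFinite Θ] (hΘ : LDLaw Φ ε b K α Θ) (L q₀ : ℕ)
    {F : CTree → CTree → CTree → CTree → ℝ≥0∞} {ψ : Src → Src → ℝ≥0∞}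
    (hψ : Measurable fun z : Src × Src => ψ z.1 z.2)
    (hF0 : ∀ x y e m, F x y e m ≠ 0 → Meets ε (ln Φ ε x, ln Φ ε y) ∧
      ext Φ ε x ≤ hitT ε (ln Φ ε x, ln Φ ε y) ∧ ext Φ ε y ≤ hitT ε (ln Φ ε x, ln Φ ε y) ∧
      hitT ε (ln Φ ε x, ln Φ ε y) ≤ t)
    (hF : ∀ x y e m, F x y e m ≤ pw q₀ (ln Φ ε x).2 * pw q₀ (ln Φ ε y).2 *
      ψ (rsrc Φ ε e) (rsrc Φ ε m)) :
    M.sumX Φ ε t L Θ F ≤ ENNReal.ofReal (Cgp (b / 4) q₀) * (muE ε *
      ∫⁻ z, ψ z.1 z.2 ∂(lamC hΦ hε.ne' b t K α L q₀)) := by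
  set A : ℝ≥0∞ := ∑' n, α n with hA
  set D : ℝ≥0∞ := ENNReal.ofReal (Cgp (b / 4) q₀) with hD
  have hG := measurable_ps1 ε t L hψ
  have hH : ∀ i', Measurable fun x : Src × ℝ × Ph =>
      Br b ε t α (outS hΦ hε.ne') i' fun y => eL b y.2.2.2 * ps1 ε t L ψ (x, y) := by
    intro i'
    refine measurable_Br b ε t α (outS hΦ hε.ne') i' ?_
    exact ((measurable_eL b).comp measurable_snd.snd.snd.snd).mul hG
  -- for fixed lengths
  have h1 : ∀ i i', ∫⁻ q : Mk CTree i, ∫⁻ q' : Mk CTree i', (okT Φ ε t L).indicator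
      (fun _ => (okT Φ ε t L).indicator (fun _ => F (top q) (top q') (exh q) (exh q')) (top q'))
        (top q) ∂(mkM Θ i') ∂(mkM Θ i) ≤
      (D * D) * (muE ε * (muE ε * (K ^ 4 * (K * A) ^ (i + i') *
        Br (b / 2) ε t α (outS hΦ hε.ne') i fun x => Br (b / 2) ε t α (outS hΦ hε.ne') i'
          fun y => ps1 ε t L ψ (x, y)))) := by
    intro i i'
    have a1 : ∀ q : Mk CTree i, ∫⁻ q' : Mk CTree i', (okT Φ ε t L).indicator
        (fun _ => (okT Φ ε t L).indicator (fun _ => F (top q) (top q') (exh q) (exh q')) (top q'))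
          (top q) ∂(mkM Θ i') ≤
        (D * D) * ((muE ε * (K ^ 2 * (K * A) ^ i')) *
          (okT Φ ε t L).indicator (fun _ => eL b (brT hΦ hε.ne' i q).2.2.2 *
            Br b ε t α (outS hΦ hε.ne') i' fun y => eL b y.2.2.2 *
              ps1 ε t L ψ (brT hΦ hε.ne' i q, y)) (top q)) := by
      intro q
      have m1 : Measurable fun q' : Mk CTree i' => (okT Φ ε t L).indicator (fun _ =>
          eL b (brT hΦ hε.ne' i' q').2.2.2 *
            ps1 ε t L ψ (brT hΦ hε.ne' i q, brT hΦ hε.ne' i' q')) (top q') := by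
        have m0 := measurable_brT (ε := ε) hΦ hε.ne' i'
        exact measurable_okT_top hΦ hε.ne' t L i' (((measurable_eL b).comp m0.snd.snd.snd).mul
          (hG.comp (measurable_const.prodMk m0)))
      refine (lintegral_mono fun q' => sumX_inner hΦ hε hb L q₀ hF0 hF q q').trans ?_
      by_cases hq : top q ∈ okT Φ ε t L
      · simp only [indicator_of_mem hq]
        rw [lintegral_const_mul _ (m1.const_mul _), lintegral_const_mul _ m1]
        have a2 := branch_le (t := t) hΦ hε hΘ L i'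
          (f := fun y => eL b y.2.2.2 * ps1 ε t L ψ (brT hΦ hε.ne' i q, y))
          (((measurable_eL b).comp measurable_snd.snd.snd).mul
            (hG.comp measurable_prodMk_left))
        refine (mul_le_mul' le_rfl (mul_le_mul' le_rfl a2)).trans (le_of_eq ?_)
        ring
      · simp only [indicator_of_notMem hq, mul_zero, lintegral_zero]
        exact le_rfl
    refine (lintegral_mono a1).trans ?_
    have m2 : Measurable fun x : Src × ℝ × Ph => eL b x.2.2.2 *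
        Br b ε t α (outS hΦ hε.ne') i' fun y => eL b y.2.2.2 * ps1 ε t L ψ (x, y) :=
      ((measurable_eL b).comp measurable_snd.snd.snd).mul (hH i')
    have m3 : Measurable fun q : Mk CTree i => (okT Φ ε t L).indicator (fun _ =>
        eL b (brT hΦ hε.ne' i q).2.2.2 * Br b ε t α (outS hΦ hε.ne') i' fun y =>
          eL b y.2.2.2 * ps1 ε t L ψ (brT hΦ hε.ne' i q, y)) (top q) :=
      measurable_okT_top hΦ hε.ne' t L i (m2.comp (measurable_brT hΦ hε.ne' i))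
    rw [lintegral_const_mul _ (m3.const_mul _), lintegral_const_mul _ m3]
    have a3 := branch_le (t := t) hΦ hε hΘ L i m2
    have a4 : Br b ε t α (outS hΦ hε.ne') i (fun x => eL b x.2.2.2 *
        Br b ε t α (outS hΦ hε.ne') i' fun y => eL b y.2.2.2 * ps1 ε t L ψ (x, y)) ≤
        Br (b / 2) ε t α (outS hΦ hε.ne') i fun x => Br (b / 2) ε t α (outS hΦ hε.ne') i'
          fun y => ps1 ε t L ψ (x, y) :=
      (Br_exp hb ε t α _ i _).trans (Br_mono _ _ _ _ _ _ fun x => Br_exp hb ε t α _ i' _)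
    refine (mul_le_mul' le_rfl (mul_le_mul' le_rfl (a3.trans (mul_le_mul' le_rfl a4)))).trans
      (le_of_eq ?_)
    rw [pow_add]
    ring
  unfold M.sumX
  refine (ENNReal.tsum_le_tsum fun i => ENNReal.tsum_le_tsum fun i' => h1 i i').trans ?_
  rw [lintegral_lamC hΦ hε.ne' b t K α L q₀ hψ]
  set B : ℕ → ℕ → ℝ≥0∞ := fun i i' => Br (b / 2) ε t α (outS hΦ hε.ne') i fun x =>
    Br (b / 2) ε t α (outS hΦ hε.ne') i' fun y => ps1 ε t L ψ (x, y) with hB
  change ∑' i, ∑' i', (D * D) * (muE ε * (muE ε * (K ^ 4 * (K * A) ^ (i + i') * B i i'))) ≤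
    D * (muE ε * ∑' i, ∑' i', muE ε * cLam b t K α q₀ i i' * B i i')
  have h2 : D ≤ cTR b t (K * A) q₀ := le_cTR b t (K * A) q₀
  unfold cLam
  rw [← hA]
  clear_value A B
  have e1 : D * (muE ε * ∑' i, ∑' i', muE ε * (cTR b t (K * A) q₀ * (K ^ 4 *
      (K * A) ^ (i + i'))) * B i i') = ∑' i, ∑' i', D * (muE ε * (muE ε *
      (cTR b t (K * A) q₀ * (K ^ 4 * (K * A) ^ (i + i'))) * B i i')) := by
    rw [← mul_assoc, ← ENNReal.tsum_mul_left]
    refine tsum_congr fun i => ?_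
    rw [← ENNReal.tsum_mul_left]
    refine tsum_congr fun i' => ?_
    rw [mul_assoc]
  rw [e1]
  refine ENNReal.tsum_le_tsum fun i => ENNReal.tsum_le_tsum fun i' => ?_
  calc (D * D) * (muE ε * (muE ε * (K ^ 4 * (K * A) ^ (i + i') * B i i')))
      ≤ (D * cTR b t (K * A) q₀) * (muE ε * (muE ε * (K ^ 4 * (K * A) ^ (i + i') * B i i'))) := by
        gcongr
    _ = _ := by ring

end Vale.Agent.P119.FL
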