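import Vale.Agent.P119.FL.LawC2
import Vale.Agent.P119.FL.Guard
import Vale.Agent.P119.PB.Lam6

/-!
# P119: the targets of the world `V + e` before its stopping time (`helper690`)

For a fixed world `V` of particles with birth `0` and a source `e` with positive birth:
* `tgI`, `tgT`: the targets of `V + e`, with the lines of its felt trees; `sum_tg_w`: their size;
* `FwC`, `KwC1`, `KwC2`: the sources of the second events are contacts with the targets;
* `F6w_le`: the sources of the second events (no window) are bounded by them.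
-/

open MeasureTheory Set Filter Topology Metric ProbabilityTheory
open scoped ENNReal

noncomputable section

namespace Vale.Agent.P119.FL

open KU M M.CTree RB EN PB AU

variable {Φ : E3 → ℝ} {ε : ℝ} {L : ℕ} {hΦ : IsPotential Φ} {hε : 0 < ε} {η t w t₁ : ℝ}
  {V W : Finset Src} {e : Src}

/-- A constant finite set is a measurable random set. -/
theorem rs_const {X : Type} [MeasurableSpace X] (V : Finset Src) :
    MM.RS fun _ : X => (V : Set Src) := by
  refine ⟨{a : Src // a ∈ V}, inferInstance, fun i _ => i.1, fun _ => univ,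
    fun _ => measurable_const, fun _ => MeasurableSet.univ, fun x a => ?_⟩
  constructor
  · exact fun h => ⟨⟨a, h⟩, mem_univ _, rfl⟩
  · rintro ⟨i, -, rfl⟩
    exact i.2

/-! ### The targets -/

/-- The targets of the world `W` up to the time `h`. -/
def tgT (L : ℕ) (hΦ : IsPotential Φ) (hε : 0 < ε) (W : Finset Src) (h : ℝ) :
    (Bool × Src) ⊕ CTree → Target h :=
  Sum.elim (expT Φ ε L hΦ hε W h) fun T => lineTarget h 0 (ln Φ ε T)

/-- The index set of the targets. -/
def tgI (L : ℕ) (hΦ : IsPotential Φ) (hε : 0 < ε) (W : Finset Src) (h : ℝ) :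
    Finset ((Bool × Src) ⊕ CTree) := (expI Φ ε L hΦ hε W h).disjSum (flI L hΦ hε W h)

theorem near_tg (hW : ∀ a ∈ W, 0 ≤ a.1) {h r : ℝ} (hr : r ≤ h) {x : E3}
    (hx : CC L hΦ hε W r x) : ∃ k ∈ tgI L hΦ hε W h, (tgT L hΦ hε W h k).a ≤ r ∧
      ‖x - (tgT L hΦ hε W h k).Y r‖ ≤ ε := by
  obtain ⟨a, ha, h1⟩ := hx
  have h2 : a ∈ ex L hΦ hε W r := ha
  obtain ⟨i, h3, h4, h5⟩ := near_target (L := L) (hΦ := hΦ) (hε := hε) hW hr h2 (x := x) h1
  exact ⟨Sum.inl i, Finset.inl_mem_disjSum.2 h3, h4, h5⟩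

theorem fl_line_w {h : ℝ} (h0 : 0 ≤ h) (hε : 0 < ε) (z : Ph) :
    (lineTarget h 0 z).w ε ≤ ENNReal.ofReal (ε + h) * ENNReal.ofReal (1 + ‖z.2‖) := by
  have h1 := norm_nonneg z.2
  rw [lineTarget_w, ← ofReal_norm, ← ENNReal.ofReal_one, ← ENNReal.ofReal_add zero_le_one h1,
    ← ENNReal.ofReal_mul (by positivity), ← ENNReal.ofReal_mul (by positivity), sub_zero,
    ← ENNReal.ofReal_add hε.le (by positivity)]
  apply ENNReal.ofReal_le_ofReal
  nlinarith [mul_nonneg h1 hε.le]

/-- **The size of the targets.** -/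
theorem sum_tg_w {B : ℝ} (hB : RW.StableWith Φ B) {W : Finset Src} (hW : ∀ a ∈ W, 0 ≤ a.1)
    (hexcl : ∀ a ∈ W, ∀ a' ∈ W, a ≠ a' → a.1 = 0 → a'.1 = 0 → ε ≤ ‖a.2.1.1 - a'.2.1.1‖) {k : ℕ}
    (hk : (W.filter fun a => a.1 ≠ 0).card ≤ k) {h : ℝ} (hη : 0 < η) (ht : 0 ≤ t)
    (h0 : 0 ≤ h) (hh : h ≤ hz L hΦ hε η t W) :
    ∑ i ∈ tgI L hΦ hε W h, (tgT L hΦ hε W h i).w ε ≤
      2 * (W.card * ENNReal.ofReal ε) +
        ENNReal.ofReal (2 * cDD B k * t + (ε + t)) * ENNReal.ofReal (η * mu ε) := by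
  have hn : ∀ s < h, nW L hΦ hε W s ≤ ENNReal.ofReal (η * mu ε) := fun s hs =>
    (nW_lt_of_lt_hz hη ht (hs.trans_le hh)).le
  have he : ∀ s < h, eW L hΦ hε W s ≤ ENNReal.ofReal (η * mu ε) := fun s hs =>
    le_self_add.trans (hn s hs)
  have hf : ∀ s < h, fW L hΦ hε W s ≤ ENNReal.ofReal (η * mu ε) := fun s hs =>
    le_add_self.trans (hn s hs)
  have hht : h ≤ t := hh.trans (hz_le hη ht)
  have h1 := sum_exp_w (L := L) hΦ hB hε hW hexcl hk h
  have h2 := int_DD_le (L := L) (hΦ := hΦ) (hε := hε) he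
  have h3 : ∑ T ∈ flI L hΦ hε W h, (lineTarget h 0 (ln Φ ε T)).w ε ≤
      ENNReal.ofReal (ε + h) * ENNReal.ofReal (η * mu ε) := by
    refine le_trans ?_ (mul_le_mul' le_rfl (sum_fl_lt hf))
    rw [Finset.mul_sum]
    exact Finset.sum_le_sum fun T _ => fl_line_w h0 hε _
  have hcard : ((EN.AX Φ ε L hΦ hε W h).card : ℝ≥0∞) ≤ W.card := by
    rw [← ex_eq_AX]
    exact_mod_cast Finset.card_le_card ex_subset
  have hc := cDD_nonneg hB.1 k
  unfold tgI
  rw [Finset.sum_disjSum]
  unfold tgT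
  simp only [Sum.elim_inl, Sum.elim_inr]
  calc _ ≤ 2 * (W.card * ENNReal.ofReal ε + ENNReal.ofReal (cDD B k) *
        (ENNReal.ofReal t * ENNReal.ofReal (η * mu ε))) +
        ENNReal.ofReal (ε + t) * ENNReal.ofReal (η * mu ε) := by
        refine add_le_add (h1.trans (mul_le_mul' le_rfl (add_le_add (mul_le_mul' hcard le_rfl)
          (mul_le_mul' le_rfl (h2.trans (mul_le_mul' (ENNReal.ofReal_le_ofReal hht) le_rfl))))))
          (h3.trans (mul_le_mul' (ENNReal.ofReal_le_ofReal (by linarith)) le_rfl))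
    _ = 2 * (W.card * ENNReal.ofReal ε) + (2 * (ENNReal.ofReal (cDD B k) * ENNReal.ofReal t) +
        ENNReal.ofReal (ε + t)) * ENNReal.ofReal (η * mu ε) := by ring
    _ = _ := by
        rw [ENNReal.ofReal_add (by positivity : (0:ℝ) ≤ 2 * cDD B k * t) (by positivity),
          mul_assoc 2, ENNReal.ofReal_mul (by norm_num : (0:ℝ) ≤ 2), ENNReal.ofReal_mul hc]
        norm_num

/-! ### The world with one inserted source -/

/-- The size of the targets of `V + e`. -/
def wV (B ε η t : ℝ) (V : Finset Src) : ℝ≥0∞ :=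
  2 * (((V.card : ℝ≥0∞) + 1) * ENNReal.ofReal ε) +
    ENNReal.ofReal (2 * cDD B 1 * t + (ε + t)) * ENNReal.ofReal (η * mu ε)

theorem wV_ne_top (B ε η t : ℝ) (V : Finset Src) : wV B ε η t V ≠ ∞ := by
  unfold wV
  refine ENNReal.add_ne_top.2 ⟨ENNReal.mul_ne_top (by norm_num) (ENNReal.mul_ne_top
    (ENNReal.add_ne_top.2 ⟨ENNReal.natCast_ne_top _, ENNReal.one_ne_top⟩) ENNReal.ofReal_ne_top),
    ENNReal.mul_ne_top ENNReal.ofReal_ne_top ENNReal.ofReal_ne_top⟩

open Classical in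
/-- The horizon of `V + e`. -/
def hzI (L : ℕ) (hΦ : IsPotential Φ) (hε : 0 < ε) (η t : ℝ) (V : Finset Src) (e : Src) : ℝ :=
  hz L hΦ hε η t (insert e V)

open Classical in
/-- The index set of the targets of `V + e`. -/
def wI (L : ℕ) (hΦ : IsPotential Φ) (hε : 0 < ε) (η t : ℝ) (V : Finset Src) (e : Src) :
    Finset ((Bool × Src) ⊕ CTree) := tgI L hΦ hε (insert e V) (hzI L hΦ hε η t V e)

open Classical in
/-- The targets of `V + e`. -/
def wT (L : ℕ) (hΦ : IsPotential Φ) (hε : 0 < ε) (η t : ℝ) (V : Finset Src) (e : Src) :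
    (Bool × Src) ⊕ CTree → Target (hzI L hΦ hε η t V e) :=
  tgT L hΦ hε (insert e V) (hzI L hΦ hε η t V e)

/-- The indicator of the touch of `e`. -/
def gTE (L : ℕ) (hΦ : IsPotential Φ) (hε : 0 < ε) (η t : ℝ) (V : Finset Src) (e : Src) : ℝ≥0∞ :=
  ind (TE L hΦ hε η t V e)

/-- The particles of `V` have birth `0` and are separated. -/
structure GV (ε : ℝ) (V : Finset Src) : Prop where
  birth : ∀ a ∈ V, a.1 = 0
  excl : ∀ a ∈ V, ∀ a' ∈ V, a ≠ a' → ε ≤ ‖a.2.1.1 - a'.2.1.1‖

open Classical in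
theorem GV.insert_nonneg (h : GV ε V) (he : 0 ≤ e.1) : ∀ a ∈ insert e V, 0 ≤ a.1 := by
  intro a ha
  rcases Finset.mem_insert.1 ha with rfl | ha
  · exact he
  · exact (h.birth a ha).ge

open Classical in
theorem GV.wI_w {B : ℝ} (hB : RW.StableWith Φ B) (h : GV ε V) (he : 0 < e.1) (hη : 0 < η)
    (ht : 0 ≤ t) : ∑ i ∈ wI L hΦ hε η t V e, (wT L hΦ hε η t V e i).w ε ≤ wV B ε η t V := by
  have hex : ∀ a ∈ insert e V, ∀ a' ∈ insert e V, a ≠ a' → a.1 = 0 → a'.1 = 0 →
      ε ≤ ‖a.2.1.1 - a'.2.1.1‖ := by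
    intro a ha a' ha' hne h1 h2
    rcases Finset.mem_insert.1 ha with rfl | ha
    · exact absurd h1 he.ne'
    · rcases Finset.mem_insert.1 ha' with rfl | ha'
      · exact absurd h2 he.ne'
      · exact h.excl a ha a' ha' hne
  have hk : ((insert e V).filter fun a => a.1 ≠ 0).card ≤ 1 := by
    refine le_trans (Finset.card_le_card (t := {e}) fun a ha => ?_) (by simp)
    obtain ⟨h1, h2⟩ := Finset.mem_filter.1 ha
    rcases Finset.mem_insert.1 h1 with rfl | h1
    · simp
    · exact absurd (h.birth a h1) h2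
  have h1 := sum_tg_w (L := L) (hΦ := hΦ) (hε := hε) hB (h.insert_nonneg he.le) hex hk hη ht
    (hz_nonneg hη ht) (le_refl (hz L hΦ hε η t (insert e V)))
  refine h1.trans ?_
  unfold wV
  have hc : (((insert e V).card : ℕ) : ℝ≥0∞) ≤ (V.card : ℝ≥0∞) + 1 := by
    exact_mod_cast Finset.card_insert_le e V
  gcongr

theorem TgC.world {B : ℝ} (hB : RW.StableWith Φ B) (h : GV ε V) (hη : 0 < η) (ht : 0 ≤ t)
    (htt : t ≤ t₁) : TgC ε t t₁ L (gTE L hΦ hε η t V) (wV B ε η t V) (hzI L hΦ hε η t V)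
      (wI L hΦ hε η t V) (wT L hΦ hε η t V) where
  H_mem e := ⟨hz_nonneg hη ht, (hz_le hη ht).trans htt⟩
  g_ne e := by
    unfold gTE
    exact ((ind_le_one _).trans_lt ENNReal.one_lt_top).ne
  w_ne := wV_ne_top _ _ _ _ _
  w_le e he _ := h.wI_w hB he.1 hη ht

/-! ### The sources of the second events -/

/-- The line sources, without window. -/
def FwC (L : ℕ) (hΦ : IsPotential Φ) (hε : 0 < ε) (η t w : ℝ) (V : Finset Src) (e : Src) (s : ℝ)
    (l : Ph) : ℝ≥0∞ :=
  ind (DirG L hΦ hε η t w V e (s, l, 0)) + ind (FelL L hΦ hε η t 0 V e (s, l, 0))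

open Classical in
/-- The pair sources, first particle. -/
def PG1 (L : ℕ) (hΦ : IsPotential Φ) (hε : 0 < ε) (η t : ℝ) (V : Finset Src) (e : Src)
    (q : Ph × Ph) : Prop :=
  TE L hΦ hε η t V e ∧ ∃ r, hitT ε q ≤ r ∧ r ≤ hz L hΦ hε η t (insert e V) ∧
    CC L hΦ hε (insert e V) r (pairLine Φ ε q r).1.1

open Classical in
/-- The pair sources, second particle. -/
def PG2 (L : ℕ) (hΦ : IsPotential Φ) (hε : 0 < ε) (η t : ℝ) (V : Finset Src) (e : Src)
    (q : Ph × Ph) : Prop :=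
  TE L hΦ hε η t V e ∧ ∃ r, hitT ε q ≤ r ∧ r ≤ hz L hΦ hε η t (insert e V) ∧
    CC L hΦ hε (insert e V) r (pairLine Φ ε q r).2.1

theorem measurable_FwC (V : Finset Src) (w : ℝ) : Measurable fun q : Src × ℝ × Ph =>
    FwC L hΦ hε η t w V q.1 q.2.1 q.2.2 := by
  have hm : Measurable fun q : Src × ℝ × Ph => ((q.2.1, q.2.2, 0) : Src) :=
    measurable_snd.fst.prodMk (measurable_snd.snd.prodMk measurable_const)
  exact (measurable_ind (measurableSet_DirG (rs_const V) measurable_const measurable_const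
    measurable_const measurable_fst hm)).add (measurable_ind (measurableSet_FelL (rs_const V)
      measurable_const measurable_const measurable_const measurable_fst hm))

theorem measurableSet_pc1 {X : Type} [MeasurableSpace X] {W : X → Finset Src} {l z' : X → Ph}
    {η t : X → ℝ} (hW : MM.RS fun x => (W x : Set Src)) (hη : Measurable η) (ht : Measurable t)
    (hl : Measurable l) (hz' : Measurable z') :
    MeasurableSet {x | ∃ r, hitT ε (l x, z' x) ≤ r ∧ r ≤ hz L hΦ hε (η x) (t x) (W x) ∧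
      CC L hΦ hε (W x) r (pairLine Φ ε (l x, z' x) r).1.1} := by
  have hp : Measurable fun x => (l x, z' x) := hl.prodMk hz'
  have h1 := RM.MPath.pair₁ hΦ hl hz' (ε := ε)
  have hh : Measurable fun x => hitT ε (l x, z' x) := measurable_hitT.comp hp
  exact (RM.SC.CC hW (hΦ := hΦ) (hε := hε) (L := L)
    (P := fun x r => (pairLine Φ ε (l x, z' x) r).1.1) (fun s => (h1.meas s).fst)
    (fun x => continuous_fst.comp (h1.cont x))).meet hh
      (RM.measurable_hz (hΦ := hΦ) (hε := hε) (L := L) hW hη ht)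

theorem measurableSet_pc2 {X : Type} [MeasurableSpace X] {W : X → Finset Src} {l z' : X → Ph}
    {η t : X → ℝ} (hW : MM.RS fun x => (W x : Set Src)) (hη : Measurable η) (ht : Measurable t)
    (hl : Measurable l) (hz' : Measurable z') :
    MeasurableSet {x | ∃ r, hitT ε (l x, z' x) ≤ r ∧ r ≤ hz L hΦ hε (η x) (t x) (W x) ∧
      CC L hΦ hε (W x) r (pairLine Φ ε (l x, z' x) r).2.1} := by
  have hp : Measurable fun x => (l x, z' x) := hl.prodMk hz'
  have h1 := RM.MPath.pair₂ hΦ hl hz' (ε := ε)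
  have hh : Measurable fun x => hitT ε (l x, z' x) := measurable_hitT.comp hp
  exact (RM.SC.CC hW (hΦ := hΦ) (hε := hε) (L := L)
    (P := fun x r => (pairLine Φ ε (l x, z' x) r).2.1) (fun s => (h1.meas s).fst)
    (fun x => continuous_fst.comp (h1.cont x))).meet hh
      (RM.measurable_hz (hΦ := hΦ) (hε := hε) (L := L) hW hη ht)

theorem measurableSet_PG1 (V : Finset Src) :
    MeasurableSet {q : Src × (Ph × Ph) | PG1 L hΦ hε η t V q.1 q.2} := by
  classical
  have hW : MM.RS fun q : Src × (Ph × Ph) => ((insert q.1 V : Finset Src) : Set Src) :=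
    RM.rs_insert (rs_const V) measurable_fst
  have h3 := measurableSet_pc1 (L := L) (hΦ := hΦ) (hε := hε) hW (η := fun _ => η)
    (t := fun _ => t) measurable_const measurable_const
    (l := fun q : Src × (Ph × Ph) => q.2.1) (z' := fun q : Src × (Ph × Ph) => q.2.2)
    measurable_snd.fst measurable_snd.snd
  have h4 : MeasurableSet {q : Src × (Ph × Ph) | TE L hΦ hε η t V q.1} :=
    measurableSet_TE (rs_const V) measurable_const measurable_const measurable_fst
  exact h4.inter h3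

theorem measurableSet_PG2 (V : Finset Src) :
    MeasurableSet {q : Src × (Ph × Ph) | PG2 L hΦ hε η t V q.1 q.2} := by
  classical
  have hW : MM.RS fun q : Src × (Ph × Ph) => ((insert q.1 V : Finset Src) : Set Src) :=
    RM.rs_insert (rs_const V) measurable_fst
  have h3 := measurableSet_pc2 (L := L) (hΦ := hΦ) (hε := hε) hW (η := fun _ => η)
    (t := fun _ => t) measurable_const measurable_const
    (l := fun q : Src × (Ph × Ph) => q.2.1) (z' := fun q : Src × (Ph × Ph) => q.2.2)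
    measurable_snd.fst measurable_snd.snd
  have h4 : MeasurableSet {q : Src × (Ph × Ph) | TE L hΦ hε η t V q.1} :=
    measurableSet_TE (rs_const V) measurable_const measurable_const measurable_fst
  exact h4.inter h3

theorem ind_ne_zero {p : Prop} (h : ind p ≠ 0) : p := by
  by_contra hp
  exact h (ind_of_not hp)

theorem FwC_ne (h : GV ε V) (he : 0 ≤ e.1) {s : ℝ} {l : Ph}
    (hne : FwC L hΦ hε η t w V e s l ≠ 0) :
    LnC ε (wI L hΦ hε η t V e) (wT L hΦ hε η t V e) s l ∧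
      FwC L hΦ hε η t w V e s l ≤ 2 * gTE L hΦ hε η t V e := by
  classical
  have hTE : TE L hΦ hε η t V e := by
    by_contra hn
    refine hne ?_
    unfold FwC
    rw [ind_of_not fun h => hn h.1, ind_of_not fun h => hn h.1, add_zero]
  constructor
  · by_cases hD : DirG L hΦ hε η t w V e (s, l, 0)
    · obtain ⟨-, r, h2, h3, h4⟩ := hD
      obtain ⟨k, k1, k2, k3⟩ := near_tg (L := L) (hΦ := hΦ) (hε := hε) (h.insert_nonneg he)
        (h := hzI L hΦ hε η t V e) (h3.trans (min_le_left _ _)) h4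
      exact ⟨k, k1, r, ⟨max_le k2 h2, h3.trans (min_le_left _ _)⟩, k3⟩
    · have hF : FelL L hΦ hε η t 0 V e (s, l, 0) := by
        by_contra hn
        refine hne ?_
        unfold FwC
        rw [ind_of_not hD, ind_of_not hn, add_zero]
      obtain ⟨-, T, -, h3, h4, h5, h6, s', h7, h8⟩ := hF
      have hmem : T ∈ flI L hΦ hε (insert e V) (hzI L hΦ hε η t V e) := mem_flI.2 ⟨s', h7, h8⟩
      refine ⟨Sum.inr T, Finset.inr_mem_disjSum.2 hmem, hitT ε (l, ln Φ ε T),
        ⟨max_le h5 h4.le, h6⟩, ?_⟩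
      exact (M.dist_hitT hε h3).le
  · unfold FwC gTE
    rw [ind_of hTE, mul_one]
    calc _ ≤ (1 : ℝ≥0∞) + 1 := add_le_add (ind_le_one _) (ind_le_one _)
      _ = 2 := by norm_num

theorem PG1_ne (h : GV ε V) (he : 0 ≤ e.1) {q : Ph × Ph}
    (hne : ind (PG1 L hΦ hε η t V e q) ≠ 0) :
    PrC1 Φ ε (wI L hΦ hε η t V e) (wT L hΦ hε η t V e) q ∧
      ind (PG1 L hΦ hε η t V e q) ≤ gTE L hΦ hε η t V e := by
  obtain ⟨hTE, r, h2, h3, h4⟩ := ind_ne_zero hne
  constructor
  · obtain ⟨k, k1, k2, k3⟩ := near_tg (L := L) (hΦ := hΦ) (hε := hε) (h.insert_nonneg he)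
      (h := hzI L hΦ hε η t V e) h3 h4
    exact ⟨k, k1, r, ⟨max_le k2 h2, h3⟩, k3⟩
  · unfold gTE
    rw [ind_of hTE]
    exact ind_le_one _

theorem PG2_ne (h : GV ε V) (he : 0 ≤ e.1) {q : Ph × Ph}
    (hne : ind (PG2 L hΦ hε η t V e q) ≠ 0) :
    PrC2 Φ ε (wI L hΦ hε η t V e) (wT L hΦ hε η t V e) q ∧
      ind (PG2 L hΦ hε η t V e q) ≤ gTE L hΦ hε η t V e := by
  obtain ⟨hTE, r, h2, h3, h4⟩ := ind_ne_zero hne
  constructor
  · obtain ⟨k, k1, k2, k3⟩ := near_tg (L := L) (hΦ := hΦ) (hε := hε) (h.insert_nonneg he)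
      (h := hzI L hΦ hε η t V e) h3 h4
    exact ⟨k, k1, r, ⟨max_le k2 h2, h3⟩, k3⟩
  · unfold gTE
    rw [ind_of hTE]
    exact ind_le_one _

/-- **The sources of the second events, without window**, for nonnegative births. -/
theorem F6w_le {a : ℕ → ℝ≥0∞} {b : ℝ} (hη : 0 < η) (ht : 0 ≤ t) (htt : t < t₁) {s : ℝ}
    (hs : 0 ≤ s) (l : Ph) :
    F6w L hΦ hε b a η t w 0 V e s l ≤ FwC L hΦ hε η t w V e s l +
      (∑' n, a n) * (opP ε b t₁ (fun q => ind (PG1 L hΦ hε η t V e q)) s l +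
        opP ε b t₁ (fun q => ind (PG2 L hΦ hε η t V e q)) s l) := by
  classical
  have h1 : S6 L hΦ hε η t w 0 V e (s, l, 0) = FwC L hΦ hε η t w V e s l := by
    unfold S6 FwC
    rw [ind_of_not (fun h : TEu L hΦ hε η t 0 V e (s, l, 0) => absurd h.1 (not_lt.2 hs)),
      ind_of_not (fun h : FelS L hΦ hε η t 0 V e (s, l, 0) => by
        obtain ⟨-, T, -, -, h3, h4, -⟩ := h
        exact absurd (hs.trans_lt (h3.trans h4)) (lt_irrefl _)), add_zero, add_zero]
  have h2 : yH6 ε b a t 0 (s, l, 0) = 0 := by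
    have : {z' : Ph | hitI ε t (s, l, 0) z' ∧ hitT ε (((s, l, 0) : Src).2.1, z') < 0} = ∅ := by
      ext z'
      simp only [mem_ofPred_eq, mem_empty_iff_false, iff_false]
      rintro ⟨h3, h4⟩
      exact absurd (hs.trans_lt (h3.2.1.trans h4)) (lt_irrefl _)
    unfold yH6
    rw [this, Measure.restrict_empty, lintegral_zero_measure, mul_zero]
  have h3 : pG6w L hΦ hε b a η t w V e (s, l, 0) ≤
      (∑' n, a n) * (opP ε b t₁ (fun q => ind (PG1 L hΦ hε η t V e q)) s l +
        opP ε b t₁ (fun q => ind (PG2 L hΦ hε η t V e q)) s l) := by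
    unfold pG6w
    rw [ENNReal.tsum_mul_right, mul_left_comm]
    refine mul_le_mul' le_rfl ?_
    have hm : Measurable fun z' : Ph => muE ε * gw b z'.2 *
        ind (PG1 L hΦ hε η t V e (l, z')) := by
      refine Measurable.mul (((measurable_gw b).comp measurable_snd).const_mul _) ?_
      have h4 : Measurable fun z' : Ph => ((e, l, z') : Src × (Ph × Ph)) :=
        measurable_const.prodMk (measurable_const.prodMk measurable_id)
      exact measurable_ind (h4 (measurableSet_PG1 (L := L) (hΦ := hΦ) (hε := hε) (η := η)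
        (t := t) V))
    unfold opP
    rw [← lintegral_add_left hm, ← lintegral_indicator (measurableSet_hitO t₁ s l),
      ← lintegral_const_mul' _ _ muE_ne_top]
    refine lintegral_mono fun z' => ?_
    by_cases hP : PairG L hΦ hε η t w V e (s, l, 0) z'
    · obtain ⟨hTE, h4, h5, r, h6, h7, h8⟩ := id hP
      have h9 : r ≤ hz L hΦ hε η t (insert e V) := h7.trans (min_le_left _ _)
      have h10 : r < t₁ := (h9.trans (hz_le hη ht)).trans_lt htt
      rw [indicator_of_mem (show z' ∈ hitO ε t₁ s l from ⟨h4, h5, h6.trans_lt h10⟩), ind_of hP,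
        mul_one]
      rcases h8 with h8 | h8
      · simp only
        rw [ind_of (show PG1 L hΦ hε η t V e (l, z') from ⟨hTE, r, h6, h9, h8⟩), mul_one]
        exact le_self_add
      · simp only
        rw [ind_of (show PG2 L hΦ hε η t V e (l, z') from ⟨hTE, r, h6, h9, h8⟩), mul_one]
        exact le_add_self
    · rw [ind_of_not hP, mul_zero, mul_zero]
      exact zero_le
  unfold F6w
  rw [h1, h2, zero_mul, add_zero]
  exact add_le_add le_rfl h3

end Vale.Agent.P119.FL
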